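import Vale.Agent.P137.Defs

/-!
# P137: lines, absolute continuity and weak gradients
-/

open MeasureTheory Filter Set Metric
open scoped ENNReal NNReal Topology RealInnerProductSpace

noncomputable section

namespace Vale.Agent.P137

variable {d : ℕ}

theorem measurableSet_slab (i : Fin d) : MeasurableSet (slab i) := by
  exact measurableSet_Ico.preimage (by fun_prop : Measurable fun x : Euc d => x i)


theorem measurable_lineMap (i : Fin d) :
    Measurable fun p : Euc d × ℝ => p.1 + p.2 • unitVec i := by fun_prop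

/-- Tonelli for the lines in direction `i`. -/
theorem lintegral_slab_line (i : Fin d) (G : Euc d → ℝ≥0∞) (hG : Measurable G) :
    ∫⁻ x in slab i, ∫⁻ t : ℝ, G (x + t • unitVec i) = ∫⁻ x, G x := by
  set S := slab i
  have hS : MeasurableSet S := measurableSet_slab i
  have key : ∀ t : ℝ, ∫⁻ x, S.indicator 1 x * G (x + t • unitVec i) =
      ∫⁻ y, S.indicator 1 (y - t • unitVec i) * G y := by
    intro t
    rw [← lintegral_add_right_eq_self (fun y => S.indicator 1 (y - t • unitVec i) * G y)
      (t • unitVec i)]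
    simp
  have hone : ∀ y : Euc d, ∫⁻ t : ℝ, S.indicator (1 : Euc d → ℝ≥0∞) (y - t • unitVec i) = 1 := by
    intro y
    have : (fun t : ℝ => S.indicator (1 : Euc d → ℝ≥0∞) (y - t • unitVec i)) =
        (Ioc (y i - 1) (y i)).indicator 1 := by
      funext t
      have : y - t • unitVec i ∈ S ↔ t ∈ Ioc (y i - 1) (y i) := by
        simp [S, slab, unitVec, sub_lt_comm, and_comm, sub_lt_iff_lt_add]
      by_cases h : t ∈ Ioc (y i - 1) (y i)
      · rw [indicator_of_mem h, indicator_of_mem (this.2 h)]; rfl
      · rw [indicator_of_notMem h, indicator_of_notMem (mt this.1 h)]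
    rw [this, lintegral_indicator_one measurableSet_Ioc, Real.volume_Ioc]
    simp
  have m1 : Measurable fun p : Euc d × ℝ => S.indicator 1 p.1 * G (p.1 + p.2 • unitVec i) :=
    ((measurable_one.indicator hS).comp measurable_fst).mul (hG.comp (measurable_lineMap i))
  have m2 : Measurable fun p : ℝ × Euc d => S.indicator 1 (p.2 - p.1 • unitVec i) * G p.2 :=
    ((measurable_one.indicator hS).comp (by fun_prop)).mul (hG.comp measurable_snd)
  calc ∫⁻ x in S, ∫⁻ t : ℝ, G (x + t • unitVec i)
      = ∫⁻ x, ∫⁻ t : ℝ, S.indicator 1 x * G (x + t • unitVec i) := by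
        rw [← lintegral_indicator hS]
        refine lintegral_congr fun x => ?_
        by_cases hx : x ∈ S <;> simp [hx]
    _ = ∫⁻ t : ℝ, ∫⁻ y, S.indicator 1 (y - t • unitVec i) * G y := by
        rw [lintegral_lintegral_swap m1.aemeasurable]; exact lintegral_congr key
    _ = ∫⁻ y, ∫⁻ t : ℝ, S.indicator 1 (y - t • unitVec i) * G y :=
        lintegral_lintegral_swap m2.aemeasurable
    _ = ∫⁻ y, G y := by
        refine lintegral_congr fun y => ?_
        have hm : Measurable fun t : ℝ => S.indicator (1 : Euc d → ℝ≥0∞) (y - t • unitVec i) :=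
          (measurable_one.indicator hS).comp (by fun_prop)
        rw [lintegral_mul_const _ hm, hone, one_mul]

/-- The parametrisation of space by lines in direction `i` preserves volume. -/
theorem measurePreserving_line (i : Fin d) :
    MeasurePreserving (fun p : Euc d × ℝ => p.1 + p.2 • unitVec i)
      ((volume.restrict (slab i)).prod volume) volume := by
  refine ⟨measurable_lineMap i, Measure.ext fun A hA => ?_⟩
  rw [Measure.map_apply (measurable_lineMap i) hA,
    Measure.prod_apply (measurable_lineMap i hA), ← lintegral_indicator_one hA,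
    ← lintegral_slab_line i (A.indicator 1) (measurable_one.indicator hA)]
  refine lintegral_congr fun x => ?_
  rw [← lintegral_indicator_one (measurable_prodMk_left (measurable_lineMap i hA))]
  rfl

theorem measurable_lineVariation (i : Fin d) (F : Euc d → ℝ) (hF : Continuous F) :
    Measurable fun x => eVariationOn (lineFn F i x) univ := by
  refine (lowerSemicontinuous_iSup fun p => Continuous.lowerSemicontinuous ?_).measurable
  refine continuous_finsetSum _ fun k _ => Continuous.edist ?_ ?_ <;>
    exact hF.comp (by fun_prop)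

/-- The variation of an absolutely continuous function is at most the integral of its derivative. -/
theorem eVariationOn_le_lintegral_deriv {u : ℝ → ℝ}
    (h : ∀ a b, AbsolutelyContinuousOnInterval u a b) :
    eVariationOn u univ ≤ ∫⁻ t, ‖deriv u t‖ₑ := by
  refine iSup_le fun p => ?_
  obtain ⟨n, v, hv, -⟩ := p
  calc ∑ k ∈ Finset.range n, edist (u (v (k + 1))) (u (v k))
      ≤ ∑ k ∈ Finset.range n, ∫⁻ t in Ioc (v k) (v (k + 1)), ‖deriv u t‖ₑ := by
        refine Finset.sum_le_sum fun k _ => ?_
        rw [edist_eq_enorm_sub, ← (h (v k) (v (k + 1))).integral_deriv_eq_sub,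
          intervalIntegral.integral_of_le (hv (Nat.le_succ k))]
        exact enorm_integral_le_lintegral_enorm _
    _ = ∫⁻ t in ⋃ k ∈ Finset.range n, Ioc (v k) (v (k + 1)), ‖deriv u t‖ₑ := by
        rw [lintegral_biUnion_finset]
        · exact hv.pairwise_disjoint_on_Ioc_succ.set_pairwise _
        · exact fun _ _ => measurableSet_Ioc
    _ ≤ _ := setLIntegral_le_lintegral _ _

theorem lipschitzWith_lineFn (i : Fin d) {F : Euc d → ℝ} {K : ℝ≥0} (hF : LipschitzWith K F)
    (x : Euc d) : LipschitzWith K (lineFn F i x) := by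
  refine LipschitzWith.of_dist_le_mul fun s t => (hF.dist_le_mul _ _).trans_eq ?_
  rw [dist_add_left, dist_eq_norm, ← sub_smul, norm_smul, PiLp.norm_single, norm_one, mul_one,
    dist_eq_norm]

theorem hasDerivAt_lineFn (i : Fin d) {F : Euc d → ℝ} {x : Euc d} {t : ℝ}
    (h : DifferentiableAt ℝ F (x + t • unitVec i)) :
    HasDerivAt (lineFn F i x) (fderiv ℝ F (x + t • unitVec i) (unitVec i)) t := by
  have hd : HasDerivAt (fun s : ℝ => x + s • unitVec i) (unitVec i) t := by
    simpa using ((hasDerivAt_id t).smul_const (unitVec i)).const_add x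
  exact h.hasFDerivAt.comp_hasDerivAt t hd

/-- The line variation of a Lipschitz function is bounded by the integral of its gradient. -/
theorem lineVar_le_lintegral_fderiv (i : Fin d) {F : Euc d → ℝ} {K : ℝ≥0}
    (hF : LipschitzWith K F) :
    lineVar i F ≤ ∫⁻ x, ‖fderiv ℝ F x‖ₑ := by
  have hac : ∀ x a b, AbsolutelyContinuousOnInterval (lineFn F i x) a b := fun x a b =>
    (lipschitzWith_lineFn i hF x).lipschitzOnWith.absolutelyContinuousOnInterval
  have hdiff : ∀ᵐ x ∂volume.restrict (slab i), ∀ᵐ t : ℝ, DifferentiableAt ℝ F (x + t • unitVec i) :=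
    Measure.ae_ae_of_ae_prod ((measurePreserving_line i).quasiMeasurePreserving.ae
      hF.ae_differentiableAt)
  rw [lineVar, ← lintegral_slab_line i (fun x => ‖fderiv ℝ F x‖ₑ) (measurable_fderiv ℝ F).enorm]
  refine lintegral_mono_ae ?_
  filter_upwards [hdiff] with x hx
  refine (eVariationOn_le_lintegral_deriv (hac x)).trans (lintegral_mono_ae ?_)
  filter_upwards [hx] with t ht
  rw [(hasDerivAt_lineFn i ht).deriv, ← enorm_norm (fderiv ℝ F (x + t • unitVec i))]
  refine enorm_le_iff_norm_le.2 ?_
  rw [norm_norm]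
  exact ((fderiv ℝ F (x + t • unitVec i)).le_opNorm _).trans_eq (by simp [unitVec])

/-- Lower semicontinuity of the line variation. -/
theorem lineVar_le_of_tendsto (i : Fin d) {F : ℕ → Euc d → ℝ} {G : Euc d → ℝ} {C : ℝ≥0∞}
    (hF : ∀ n, Continuous (F n)) (hlim : ∀ x, Tendsto (fun n => F n x) atTop (𝓝 (G x)))
    (hC : ∀ n, lineVar i (F n) ≤ C) :
    lineVar i G ≤ C := by
  calc lineVar i G
      ≤ ∫⁻ x in slab i, liminf (fun n => eVariationOn (lineFn (F n) i x) univ) atTop := by
        refine lintegral_mono fun x => le_of_forall_lt fun v hv => ?_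
        obtain ⟨w, hvw, hw⟩ := exists_between hv
        refine hvw.trans_le (le_liminf_of_le (by isBoundedDefault) ?_)
        exact (eVariationOn.lowerSemicontinuous_aux (fun t _ => hlim (x + t • unitVec i)) hw).mono
          fun n hn => hn.le
    _ ≤ liminf (fun n => lineVar i (F n)) atTop :=
        lintegral_liminf_le fun n => measurable_lineVariation i (F n) (hF n)
    _ ≤ C := liminf_le_of_frequently_le' (Frequently.of_forall hC)

/-- A function vanishing at infinity is bounded by its variation. -/
theorem enorm_le_eVariationOn {u : ℝ → ℝ} (h : Tendsto u atTop (𝓝 0)) (t : ℝ) :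
    ‖u t‖ₑ ≤ eVariationOn u univ := by
  have : Tendsto (fun s => edist (u t) (u s)) atTop (𝓝 (edist (u t) 0)) :=
    tendsto_const_nhds.edist h
  rw [← edist_zero_right]
  exact le_of_tendsto' this fun s => eVariationOn.edist_le u (mem_univ _) (mem_univ _)

/-- A function whose increments are controlled by an outer regular measure, absolutely continuous
with respect to Lebesgue measure, has Luzin's property. -/
theorem LuzinN.of_measure {φ : ℝ → ℝ} (ν : Measure ℝ) [ν.OuterRegular] (hν : ν ≪ volume)
    (h : ∀ a b, a ≤ b → edist (φ a) (φ b) ≤ ν (Ioc a b)) : LuzinN φ := by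
  intro s hs
  refine le_antisymm (le_of_forall_gt_imp_ge_of_dense fun ε hε => ?_) zero_le
  obtain ⟨U, hsU, hU, hνU⟩ := s.exists_isOpen_lt_of_lt ε (show ν s < ε by rwa [hν hs])
  set T := (fun q : ℚ => connectedComponentIn U (q : ℝ)) '' {q | (q : ℝ) ∈ U}
  have hTc : T.Countable := (to_countable _).image _
  have hTsub : ∀ I ∈ T, I ⊆ U ∧ IsPreconnected I ∧ IsOpen I := by
    rintro _ ⟨q, -, rfl⟩
    exact ⟨connectedComponentIn_subset _ _, isPreconnected_connectedComponentIn,
      hU.connectedComponentIn⟩
  have hTd : T.PairwiseDisjoint id := by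
    rintro _ ⟨q, -, rfl⟩ _ ⟨r, -, rfl⟩ hne
    refine Set.disjoint_left.2 fun x hx hx' => hne ?_
    show connectedComponentIn U (q : ℝ) = connectedComponentIn U (r : ℝ)
    rw [connectedComponentIn_eq hx, connectedComponentIn_eq hx']
  have hcov : s ⊆ ⋃ I ∈ T, I := by
    intro x hx
    have hxU := hsU hx
    obtain ⟨q, hq⟩ := Rat.denseRange_cast.exists_mem_open
      (hU.connectedComponentIn (x := x)) ⟨x, mem_connectedComponentIn hxU⟩
    refine mem_biUnion (show connectedComponentIn U (q : ℝ) ∈ T from
      ⟨q, show (q : ℝ) ∈ U from connectedComponentIn_subset U x hq, rfl⟩) ?_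
    rw [← connectedComponentIn_eq hq]
    exact mem_connectedComponentIn hxU
  calc volume (φ '' s) ≤ volume (⋃ I ∈ T, φ '' I) := by
        refine measure_mono ((image_mono hcov).trans ?_)
        simp only [image_iUnion]; rfl
    _ ≤ ∑' I : T, volume (φ '' (I : Set ℝ)) := measure_biUnion_le _ hTc _
    _ ≤ ∑' I : T, ν (I : Set ℝ) := by
        refine ENNReal.tsum_le_tsum fun I => (Real.volume_le_diam _).trans (Metric.ediam_le ?_)
        rintro _ ⟨a, ha, rfl⟩ _ ⟨b, hb, rfl⟩
        have hI := (hTsub I I.2).2.1.ordConnected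
        rcases le_total a b with hab | hab
        · exact (h a b hab).trans (measure_mono (Ioc_subset_Icc_self.trans (hI.out ha hb)))
        · rw [edist_comm]
          exact (h b a hab).trans (measure_mono (Ioc_subset_Icc_self.trans (hI.out hb ha)))
    _ = ν (⋃ I ∈ T, id I) :=
        (measure_biUnion hTc hTd fun I hI => (hTsub I hI).2.2.measurableSet).symm
    _ ≤ ν U := measure_mono (iUnion₂_subset fun I hI => (hTsub I hI).1)
    _ ≤ ε := hνU.le

theorem LuzinN.of_lipschitz {φ : ℝ → ℝ} {K : ℝ≥0} (h : LipschitzWith K φ) : LuzinN φ := by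
  have : ((K : ℝ≥0∞) • (volume : Measure ℝ)).OuterRegular :=
    Measure.OuterRegular.smul volume ENNReal.coe_ne_top
  refine LuzinN.of_measure ((K : ℝ≥0∞) • volume) (Measure.smul_absolutelyContinuous) fun a b hab => ?_
  refine (h.edist_le_mul a b).trans_eq ?_
  rw [Measure.smul_apply, smul_eq_mul, Real.volume_Ioc, edist_dist, Real.dist_eq, abs_sub_comm,
    abs_of_nonneg (sub_nonneg.2 hab)]

theorem LuzinN.of_integral {φ g : ℝ → ℝ} (hg : Integrable g)
    (h : ∀ a b, φ b - φ a = ∫ t in a..b, g t) : LuzinN φ := by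
  have : IsFiniteMeasure (volume.withDensity fun t => ‖g t‖ₑ) :=
    isFiniteMeasure_withDensity hg.hasFiniteIntegral.ne
  refine LuzinN.of_measure _ (withDensity_absolutelyContinuous volume fun t => ‖g t‖ₑ)
    fun a b hab => ?_
  rw [withDensity_apply _ measurableSet_Ioc, edist_comm, edist_eq_enorm_sub, h,
    intervalIntegral.integral_of_le hab]
  exact enorm_integral_le_lintegral_enorm _

theorem LuzinN.abs {φ : ℝ → ℝ} (h : LuzinN φ) : LuzinN fun t => |φ t| := by
  intro s hs
  rw [← image_image (fun y : ℝ => |y|) φ s]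
  exact LuzinN.of_lipschitz lipschitzWith_one_norm _ (h s hs)

/-- A continuous function of bounded variation which is pointwise one of countably many functions
with Luzin's property is absolutely continuous. -/
theorem ac_of_cover {u : ℝ → ℝ} (hu : Continuous u) (hv : eVariationOn u univ ≠ ∞)
    {ι : Type*} [Countable ι] (φ : ι → ℝ → ℝ) (hN : ∀ j, LuzinN (φ j))
    (hcov : ∀ t, ∃ j, u t = φ j t) (a b : ℝ) :
    AbsolutelyContinuousOnInterval u a b := by
  have huN : LuzinN u := fun s hs => by
    refine measure_mono_null ?_ (measure_iUnion_null fun j => hN j s hs)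
    rintro _ ⟨t, ht, rfl⟩
    obtain ⟨j, hj⟩ := hcov t
    exact mem_iUnion.2 ⟨j, t, ht, hj.symm⟩
  have hbv : LocallyBoundedVariationOn u univ := BoundedVariationOn.locallyBoundedVariationOn hv
  set D := {t : ℝ | DifferentiableAt ℝ u t}
  have hD : MeasurableSet D := measurableSet_of_differentiableAt ℝ u
  have hDc : volume Dᶜ = 0 := ae_iff.1 hbv.ae_differentiableAt
  have inc : ∀ x y, x ≤ y → edist (u x) (u y) ≤ ∫⁻ t in Ioc x y, ‖deriv u t‖ₑ := by
    intro x y hxy
    have h1 : edist (u x) (u y) = volume (uIcc (u x) (u y)) := by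
      rw [Real.volume_interval, edist_dist, Real.dist_eq, abs_sub_comm]
    have h2 : uIcc (u x) (u y) ⊆ u '' (Icc x y ∩ D) ∪ u '' (Icc x y ∩ Dᶜ) := by
      rw [← image_union, inter_union_compl, ← uIcc_of_le hxy]
      exact intermediate_value_uIcc hu.continuousOn
    rw [h1]
    refine (measure_mono h2).trans ((measure_union_le _ _).trans ?_)
    rw [huN _ (measure_mono_null inter_subset_right hDc), add_zero]
    refine (addHaar_image_le_lintegral_abs_det_fderiv volume (measurableSet_Icc.inter hD)
      (f' := fun t => ContinuousLinearMap.toSpanSingleton ℝ (deriv u t))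
      fun t ht => (show DifferentiableAt ℝ u t from ht.2).hasDerivAt.hasFDerivAt.hasFDerivWithinAt).trans ?_
    refine (lintegral_mono_set inter_subset_left).trans_eq ?_
    rw [restrict_Ioc_eq_restrict_Icc]
    refine lintegral_congr fun t => ?_
    rw [ContinuousLinearMap.det, Real.enorm_eq_ofReal_abs]
    congr 2
    rw [← LinearMap.det_toMatrix (Module.Basis.singleton Unit ℝ)]
    simp [Matrix.det_unique]
  have hi : IntervalIntegrable (deriv u) volume a b :=
    (BoundedVariationOn.mono hv (subset_univ _)).intervalIntegrable_deriv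
  have hψ := hi.abs.absolutelyContinuousOnInterval_intervalIntegral (c := a) left_mem_uIcc
  have hcmp : ∀ x ∈ uIcc a b, ∀ y ∈ uIcc a b, dist (u x) (u y) ≤
      dist (∫ t in a..x, |deriv u t|) (∫ t in a..y, |deriv u t|) := by
    intro x hx y hy
    have hsub : ∀ z ∈ uIcc a b, IntervalIntegrable (fun t => |deriv u t|) volume a z :=
      fun z hz => hi.abs.mono_set (uIcc_subset_uIcc left_mem_uIcc hz)
    rw [Real.dist_eq, Real.dist_eq, intervalIntegral.integral_interval_sub_left (hsub x hx) (hsub y hy)]
    wlog hxy : x ≤ y generalizing x y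
    · rw [abs_sub_comm, intervalIntegral.integral_symm, abs_neg]
      exact this y hy x hx (le_of_not_ge hxy)
    rw [intervalIntegral.integral_symm, abs_neg, intervalIntegral.integral_of_le hxy,
      abs_of_nonneg (setIntegral_nonneg measurableSet_Ioc fun t _ => abs_nonneg _)]
    have hint : IntegrableOn (fun t => |deriv u t|) (Ioc x y) := by
      have := (hi.abs.mono_set (uIcc_subset_uIcc hx hy)).1
      exact this
    have h3 := inc x y hxy
    rw [edist_dist, Real.dist_eq] at h3
    simp only [Real.enorm_eq_ofReal_abs] at h3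
    rw [← ofReal_integral_eq_lintegral_ofReal hint (Eventually.of_forall fun t => abs_nonneg _),
      ENNReal.ofReal_le_ofReal_iff (setIntegral_nonneg measurableSet_Ioc fun t _ => abs_nonneg _)]
      at h3
    exact h3
  refine squeeze_zero' (Eventually.of_forall fun E => Finset.sum_nonneg fun k _ => dist_nonneg)
    ?_ hψ
  have hmem : ∀ᶠ E : ℕ × (ℕ → ℝ × ℝ) in AbsolutelyContinuousOnInterval.totalLengthFilter ⊓
      𝓟 (AbsolutelyContinuousOnInterval.disjWithin a b),
      E ∈ AbsolutelyContinuousOnInterval.disjWithin a b :=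
    eventually_inf_principal.2 (Eventually.of_forall fun _ h => h)
  filter_upwards [hmem] with E hE
  exact Finset.sum_le_sum fun k hk => hcmp _ (hE.1 k hk).1 _ (hE.1 k hk).2

/-- The derivative of a function of bounded variation has integral at most the variation. -/
theorem lintegral_deriv_le_eVariationOn {u : ℝ → ℝ} (hv : eVariationOn u univ ≠ ∞) :
    ∫⁻ t, ‖deriv u t‖ₑ ≤ eVariationOn u univ := by
  have hb : LocallyBoundedVariationOn u univ := BoundedVariationOn.locallyBoundedVariationOn hv
  set V := variationOnFromTo u univ 0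
  have hVm : Monotone V := monotoneOn_univ.1 (variationOnFromTo.monotoneOn hb (mem_univ _))
  have hinc : ∀ x y, x ≤ y → |u y - u x| ≤ V y - V x ∧
      V y - V x ≤ (eVariationOn u univ).toReal := by
    intro x y hxy
    have e : V y - V x = variationOnFromTo u univ x y := by
      rw [sub_eq_iff_eq_add', variationOnFromTo.add hb (mem_univ _) (mem_univ _) (mem_univ _)]
    rw [e, variationOnFromTo.eq_of_le _ _ hxy, univ_inter]
    refine ⟨?_, ENNReal.toReal_mono hv (eVariationOn.mono u (subset_univ _))⟩
    rw [← Real.dist_eq]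
    exact BoundedVariationOn.dist_le (BoundedVariationOn.mono hv (subset_univ _))
      (right_mem_Icc.2 hxy) (left_mem_Icc.2 hxy)
  have hle : ∀ᵐ t : ℝ, ‖deriv u t‖ₑ ≤ ENNReal.ofReal (deriv V t) := by
    filter_upwards [hb.ae_differentiableAt, hVm.ae_differentiableAt] with t h1 h2
    rw [Real.enorm_eq_ofReal_abs]
    refine ENNReal.ofReal_le_ofReal ?_
    have a1 := (hasDerivAt_iff_tendsto_slope.1 h1.hasDerivAt).mono_left (nhdsGT_le_nhdsNE t)
    have a2 := (hasDerivAt_iff_tendsto_slope.1 h2.hasDerivAt).mono_left (nhdsGT_le_nhdsNE t)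
    refine le_of_tendsto_of_tendsto a1.abs a2 ?_
    filter_upwards [self_mem_nhdsWithin] with y hy
    have hty : t < y := hy
    rw [slope_def_field, slope_def_field, abs_div, abs_of_pos (sub_pos.2 hty)]
    exact div_le_div_of_nonneg_right (hinc t y hty.le).1 (sub_pos.2 hty).le
  refine (lintegral_mono_ae hle).trans ?_
  rw [← setLIntegral_univ (μ := volume) fun t => ENNReal.ofReal (deriv V t)]
  have hU : (univ : Set ℝ) = ⋃ n : ℕ, Ioc (-(n : ℝ)) n := by
    refine (iUnion_eq_univ_iff.2 fun x => ?_).symm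
    obtain ⟨n, hn⟩ := exists_nat_gt |x|
    exact ⟨n, by linarith [neg_abs_le x], by linarith [le_abs_self x]⟩
  have hmono : Monotone fun n : ℕ => Ioc (-(n : ℝ)) n := fun n m hnm =>
    Ioc_subset_Ioc (neg_le_neg (Nat.cast_le.2 hnm)) (Nat.cast_le.2 hnm)
  conv_lhs => rw [hU, setLIntegral_iUnion_of_directed _ hmono.directed_le]
  refine iSup_le fun n => ?_
  have hn : (-(n : ℝ)) ≤ n := by linarith [(Nat.cast_nonneg n : (0 : ℝ) ≤ n)]
  have hI := (hVm.monotoneOn (uIcc (-(n : ℝ)) n)).intervalIntegrable_deriv
  have hm := (hVm.monotoneOn (uIcc (-(n : ℝ)) n)).intervalIntegral_deriv_mem_uIcc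
  rw [uIcc_of_le (sub_nonneg.2 (hVm hn)), intervalIntegral.integral_of_le hn] at hm
  rw [← ofReal_integral_eq_lintegral_ofReal hI.1 (Eventually.of_forall fun t => hVm.deriv_nonneg)]
  refine (ENNReal.ofReal_le_ofReal (hm.2.trans (hinc _ _ hn).2)).trans ?_
  rw [ENNReal.ofReal_toReal hv]

/-- Integration by parts against a test function on a line. -/
theorem integral_line_parts (i : Fin d) {u : ℝ → ℝ} (hu : ∀ a b, AbsolutelyContinuousOnInterval u a b)
    {φ : Euc d → ℝ} (hφ : ContDiff ℝ ((⊤ : ℕ∞) : WithTop ℕ∞) φ) (hc : HasCompactSupport φ)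
    (x : Euc d) :
    ∫ t, u t * fderiv ℝ φ (x + t • unitVec i) (unitVec i)
      = -∫ t, deriv u t * φ (x + t • unitVec i) := by
  obtain ⟨R, hR⟩ := hc.isCompact.isBounded.subset_closedBall 0
  have hdiff : Differentiable ℝ φ := hφ.differentiable (by simp)
  set A := max R 0 + ‖x‖ + 1 with hA
  have hA0 : 0 ≤ A := by positivity
  have hout : ∀ t : ℝ, A ≤ |t| → x + t • unitVec i ∉ tsupport φ := by
    intro t ht hmem
    have h1 : ‖x + t • unitVec i‖ ≤ R := mem_closedBall_zero_iff.1 (hR hmem)
    have h2 : ‖t • unitVec i‖ ≤ ‖x + t • unitVec i‖ + ‖x‖ := norm_le_add_norm_add' _ _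
    rw [norm_smul, PiLp.norm_single, norm_one, mul_one, Real.norm_eq_abs] at h2
    linarith [le_max_left R 0]
  have hphi0 : ∀ t : ℝ, A ≤ |t| → φ (x + t • unitVec i) = 0 :=
    fun t ht => image_eq_zero_of_notMem_tsupport (hout t ht)
  have hd0 : ∀ t : ℝ, A ≤ |t| → fderiv ℝ φ (x + t • unitVec i) = 0 :=
    fun t ht => fderiv_of_notMem_tsupport ℝ (hout t ht)
  have hsupp : ∀ {g : ℝ → ℝ}, (∀ t : ℝ, A ≤ |t| → g t = 0) →
      ∫ t, g t = ∫ t in (-A)..A, g t := fun {g} hg => by
    refine (intervalIntegral.integral_eq_integral_of_support_subset fun t ht => ?_).symm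
    have ht' : |t| < A := lt_of_not_ge fun h => ht (hg t h)
    exact ⟨(abs_lt.1 ht').1, (abs_lt.1 ht').2.le⟩
  have hψd : ∀ t, HasDerivAt (lineFn φ i x) (fderiv ℝ φ (x + t • unitVec i) (unitVec i)) t :=
    fun t => hasDerivAt_lineFn i (hdiff _)
  have hψac : AbsolutelyContinuousOnInterval (lineFn φ i x) (-A) A :=
    ContDiffOn.absolutelyContinuousOnInterval
      (((hφ.comp (by fun_prop : ContDiff ℝ ((⊤ : ℕ∞) : WithTop ℕ∞) fun t : ℝ => x + t • unitVec i)).of_le
        (by simp)).contDiffOn)
  have key := (hu (-A) A).integral_mul_deriv_eq_deriv_mul hψac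
  simp only [fun t => (hψd t).deriv, lineFn] at key
  rw [hphi0 A (le_abs_self A), hphi0 (-A) (by rw [abs_neg]; exact le_abs_self A)] at key
  rw [hsupp fun t ht => by simp [hd0 t ht], hsupp fun t ht => by simp [hphi0 t ht], key]
  ring

/-- A function which is absolutely continuous and of integrable variation on almost every line has
an integrable weak gradient. -/
theorem exists_weakGrad_of_lines {M : Euc d → ℝ} (hM : Measurable M) (hloc : LocallyIntegrable M)
    (C : ℝ≥0∞) (hC : C ≠ ∞) (V : Fin d → Euc d → ℝ≥0∞) (hV : ∀ i, Measurable (V i))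
    (hVC : ∀ i, ∫⁻ x in slab i, V i x ≤ C)
    (hline : ∀ i, ∀ᵐ x ∂volume.restrict (slab i), Continuous (lineFn M i x) ∧
      eVariationOn (lineFn M i x) univ ≤ V i x ∧
      ∀ a b, AbsolutelyContinuousOnInterval (lineFn M i x) a b) :
    ∃ G : Euc d → Euc d, Integrable G ∧ HasWeakGrad M G ∧ ∫⁻ x, ‖G x‖ₑ ≤ (d : ℝ≥0∞) * C := by
  set q : Fin d → ℕ → Euc d → ℝ :=
    fun i n x => ((n : ℝ) + 1) * (M (x + ((n : ℝ) + 1)⁻¹ • unitVec i) - M x) with hq
  set g : Fin d → Euc d → ℝ := fun i x => liminf (fun n => q i n x) atTop with hg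
  have gm : ∀ i, Measurable (g i) := fun i =>
    Measurable.liminf fun n => ((hM.comp (by fun_prop)).sub hM).const_mul _
  have gline : ∀ i, ∀ᵐ x ∂volume.restrict (slab i), eVariationOn (lineFn M i x) univ ≠ ∞ →
      ∀ᵐ t : ℝ, g i (x + t • unitVec i) = deriv (lineFn M i x) t := by
    intro i
    refine Eventually.of_forall fun x hx => ?_
    filter_upwards [(BoundedVariationOn.locallyBoundedVariationOn hx).ae_differentiableAt] with t ht
    refine Tendsto.liminf_eq ?_
    have hlim : Tendsto (fun n : ℕ => t + ((n : ℝ) + 1)⁻¹) atTop (𝓝[≠] t) := by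
      refine tendsto_nhdsWithin_iff.2 ⟨?_, Eventually.of_forall fun n => ?_⟩
      · simpa [one_div] using (tendsto_one_div_add_atTop_nhds_zero_nat (𝕜 := ℝ)).const_add t
      · simp only [mem_compl_iff, mem_singleton_iff, add_eq_left, inv_eq_zero]
        positivity
    refine ((hasDerivAt_iff_tendsto_slope.1 ht.hasDerivAt).comp hlim).congr fun n => ?_
    simp [hq, Function.comp, slope_def_field, lineFn, add_smul, ← add_assoc, div_eq_mul_inv, mul_comm]
  have Vfin : ∀ i, ∀ᵐ x ∂volume.restrict (slab i), V i x ≠ ∞ := fun i => by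
    filter_upwards [ae_lt_top (hV i) ((hVC i).trans_lt hC.lt_top).ne] with x hx using hx.ne
  have gint : ∀ i, ∫⁻ x, ‖g i x‖ₑ ≤ C := by
    intro i
    rw [← lintegral_slab_line i (fun x => ‖g i x‖ₑ) (gm i).enorm]
    refine le_trans (lintegral_mono_ae ?_) (hVC i)
    filter_upwards [hline i, Vfin i, gline i] with x hx hVx hgx
    have hfin : eVariationOn (lineFn M i x) univ ≠ ∞ := ne_top_of_le_ne_top hVx hx.2.1
    rw [lintegral_congr_ae ((hgx hfin).mono fun t ht => congrArg enorm ht)]
    exact (lintegral_deriv_le_eVariationOn hfin).trans hx.2.1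
  have gI : ∀ i, Integrable (g i) :=
    fun i => ⟨(gm i).aestronglyMeasurable, (gint i).trans_lt hC.lt_top⟩
  set G : Euc d → Euc d := fun x => WithLp.toLp 2 fun i => g i x with hG
  have Gm : Measurable G := (WithLp.measurable_toLp 2 _).comp (measurable_pi_iff.2 gm)
  have Gle : ∀ x, ‖G x‖ₑ ≤ ∑ i, ‖g i x‖ₑ := fun x => by
    have e : G x = ∑ i, g i x • unitVec i := by
      ext j; simp [G, unitVec, WithLp.ofLp_sum, Pi.single_apply]
    rw [e]
    refine (enorm_sum_le _ _).trans_eq (Finset.sum_congr rfl fun i _ => ?_)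
    rw [enorm_smul, ← ofReal_norm (unitVec i), PiLp.norm_single]
    simp
  have Gint : ∫⁻ x, ‖G x‖ₑ ≤ (d : ℝ≥0∞) * C := by
    refine (lintegral_mono Gle).trans ?_
    rw [lintegral_finsetSum _ fun i _ => (gm i).enorm]
    exact (Finset.sum_le_sum fun i _ => gint i).trans_eq (by simp [mul_comm])
  refine ⟨G, ⟨Gm.aestronglyMeasurable, Gint.trans_lt (ENNReal.mul_lt_top (by simp) hC.lt_top)⟩,
    ?_, Gint⟩
  intro φ hφ hc i
  have dc : Continuous fun x => fderiv ℝ φ x (unitVec i) :=
    (hφ.continuous_fderiv (by simp)).clm_apply continuous_const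
  have i1 : Integrable fun x => M x * fderiv ℝ φ x (unitVec i) :=
    hloc.integrable_smul_right_of_hasCompactSupport dc (hc.fderiv_apply ℝ _)
  obtain ⟨B, hB⟩ := hφ.continuous.bounded_above_of_compact_support hc
  have i2 : Integrable fun x => g i x * φ x :=
    (gI i).mul_bdd hφ.continuous.aestronglyMeasurable (Eventually.of_forall hB)
  have mp := measurePreserving_line i
  have split : ∀ H : Euc d → ℝ, Integrable H →
      ∫ x, H x = ∫ x in slab i, ∫ t : ℝ, H (x + t • unitVec i) := fun H hH => by
    conv_lhs => rw [← mp.map_eq]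
    rw [integral_map mp.measurable.aemeasurable (mp.map_eq.symm ▸ hH.aestronglyMeasurable)]
    exact integral_prod _ ((mp.integrable_comp hH.aestronglyMeasurable).2 hH)
  show ∫ x, M x * fderiv ℝ φ x (unitVec i) = -∫ x, g i x * φ x
  rw [split _ i1, split _ i2, ← integral_neg]
  refine integral_congr_ae ?_
  filter_upwards [hline i, Vfin i, gline i] with x hx hVx hgx
  have hfin : eVariationOn (lineFn M i x) univ ≠ ∞ := ne_top_of_le_ne_top hVx hx.2.1
  rw [integral_congr_ae ((hgx hfin).mono fun t ht =>
    congrArg (· * φ (x + t • unitVec i)) ht)]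
  exact integral_line_parts i hx.2.2 hφ hc x

/-- A property with measurable failure set which holds on almost every line holds almost
everywhere. -/
theorem ae_of_ae_slab (i : Fin d) {P : Euc d → Prop} (hP : MeasurableSet {x | ¬ P x})
    (h : ∀ᵐ x ∂volume.restrict (slab i), ∀ t : ℝ, P (x + t • unitVec i)) : ∀ᵐ x, P x := by
  show volume {x | ¬ P x} = 0
  have h1 : ∀ᵐ z ∂(volume.restrict (slab i)).prod (volume : Measure ℝ), P (z.1 + z.2 • unitVec i) := by
    refine (Measure.ae_prod_iff_ae_ae ?_).2 (h.mono fun x hx => Eventually.of_forall hx)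
    exact (by simpa [compl_def] using hP.compl : MeasurableSet {x | P x}).preimage (measurable_lineMap i)
  rw [← (measurePreserving_line i).measure_preimage hP.nullMeasurableSet]
  exact ae_iff.1 h1

/-- Integral over a bounded set of a function bounded on each line. -/
theorem setLIntegral_le_of_lines (i : Fin d) {G : Euc d → ℝ≥0∞} (hG : Measurable G)
    {V : Euc d → ℝ≥0∞} (hV : Measurable V)
    (h : ∀ᵐ x ∂volume.restrict (slab i), ∀ t : ℝ, G (x + t • unitVec i) ≤ V x) (W : ℝ) :
    ∫⁻ x in {y : Euc d | |y i| ≤ W}, G x ≤ ENNReal.ofReal (2 * W + 1) * ∫⁻ x in slab i, V x := by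
  set T := {y : Euc d | |y i| ≤ W}
  have hT : MeasurableSet T := measurableSet_le (by fun_prop) measurable_const
  rw [← lintegral_indicator hT, ← lintegral_slab_line i _ (hG.indicator hT),
    ← lintegral_const_mul _ hV]
  refine lintegral_mono_ae ?_
  filter_upwards [h] with x hx
  calc ∫⁻ t : ℝ, T.indicator G (x + t • unitVec i)
      ≤ ∫⁻ t : ℝ, (Icc (-W - x i) (W - x i)).indicator (fun _ => V x) t := by
        refine lintegral_mono fun t => ?_
        by_cases ht : x + t • unitVec i ∈ T
        · have ht' : |x i + t| ≤ W := by simpa [T, unitVec] using ht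
          have hmem : t ∈ Icc (-W - x i) (W - x i) :=
            ⟨by linarith [(abs_le.1 ht').1], by linarith [(abs_le.1 ht').2]⟩
          rw [indicator_of_mem ht, indicator_of_mem hmem]
          exact hx t
        · rw [indicator_of_notMem ht]; exact zero_le
    _ ≤ ENNReal.ofReal (2 * W + 1) * V x := by
        rw [lintegral_indicator_const measurableSet_Icc, Real.volume_Icc, mul_comm]
        gcongr
        linarith

end Vale.Agent.P137
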