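import Vale.Agent.P137.PerCentre
import Vale.Agent.P137.LineAC

/-!
# P137: the variation bound for smooth data
-/

open MeasureTheory Filter Set Metric
open scoped ENNReal NNReal Topology RealInnerProductSpace Gradient

noncomputable section

namespace Vale.Agent.P137

variable {d : ℕ} {f : Euc d → ℝ} {ρ : ℝ}

/-- The gradient has the norm of the derivative. -/
lemma norm_gradient (F : Euc d → ℝ) (x : Euc d) : ‖∇ F x‖ = ‖fderiv ℝ F x‖ :=
  LinearIsometryEquiv.norm_map _ _

lemma enorm_gradient (F : Euc d → ℝ) (x : Euc d) : ‖∇ F x‖ₑ = ‖fderiv ℝ F x‖ₑ := by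
  rw [← ofReal_norm, ← ofReal_norm, norm_gradient]

/-- The integral of the size of the gradient of `radMax f ρ`. -/
def gradMass (f : Euc d → ℝ) (ρ : ℝ) : ℝ := ∫ x, ‖∇ (radMax f ρ) x‖

/-- The gradient of a truncated maximal function is dominated by an explicit decaying function. -/
lemma norm_gradient_radMax_le_decay (hd : 0 < d) (hf : Continuous f) (hfc : HasCompactSupport f)
    (hρ : 0 < ρ) {K : ℝ} (hK : ∀ y, f y ≠ 0 → ‖y‖ ≤ K) (x : Euc d) :
    ‖∇ (radMax f ρ) x‖ ≤ d / max ρ ((‖x‖ - K) / 2) *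
      (((max ρ ((‖x‖ - K) / 2)) ^ d * ballVol d)⁻¹ * ∫ y, |f y|) := by
  have hσ : 0 < max ρ ((‖x‖ - K) / 2) := lt_max_of_lt_left hρ
  have hi : Integrable f := hf.integrable_of_hasCompactSupport hfc
  by_cases hdiff : DifferentiableAt ℝ (radMax f ρ) x
  · exact (norm_gradient_radMax_le hd hf hfc hρ hK hdiff).trans
      (mul_le_mul_of_nonneg_left (radMax_le_decay hi hρ hK x) (by positivity))
  · rw [gradient_eq_zero_of_not_differentiableAt hdiff, norm_zero]
    have := ballVol_pos (d := d)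
    have : 0 ≤ ∫ y, |f y| := integral_nonneg fun y => abs_nonneg _
    positivity

lemma integrable_decay (hρ : 0 < ρ) (K : ℝ) :
    Integrable fun x : Euc d => ((max ρ ((‖x‖ - K) / 2)) ^ (d + 1))⁻¹ := by
  set M := 2 + (|K| + 1) / ρ with hM
  have hM0 : 0 < M := by positivity
  have hdim : (Module.finrank ℝ (Euc d) : ℝ) < ((d + 1 : ℕ) : ℝ) := by
    rw [finrank_euclideanSpace_fin]; push_cast; linarith
  refine (((integrable_one_add_norm (μ := volume) hdim).const_mul (M ^ (d + 1)))).mono'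
    (by fun_prop) (ae_of_all _ fun x => ?_)
  have hσ : 0 < max ρ ((‖x‖ - K) / 2) := lt_max_of_lt_left hρ
  rw [Real.norm_eq_abs, abs_of_pos (by positivity), Real.rpow_neg (by positivity),
    Real.rpow_natCast, ← div_eq_mul_inv, inv_eq_one_div, div_le_div_iff₀ (by positivity)
      (by positivity), one_mul, ← mul_pow]
  refine pow_le_pow_left₀ (by positivity) ?_ _
  have h1 := le_max_left ρ ((‖x‖ - K) / 2)
  have h2 := le_max_right ρ ((‖x‖ - K) / 2)
  have h3 : (|K| + 1) / ρ * max ρ ((‖x‖ - K) / 2) ≥ |K| + 1 := by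
    refine le_of_eq_of_le (div_mul_cancel₀ _ hρ.ne').symm ?_
    exact mul_le_mul_of_nonneg_left h1 (by positivity)
  rw [hM, add_mul]
  linarith [le_abs_self K]

lemma integrable_norm_gradient_radMax (hd : 0 < d) (hf : Continuous f) (hfc : HasCompactSupport f)
    (hρ : 0 < ρ) : Integrable fun x => ‖∇ (radMax f ρ) x‖ := by
  obtain ⟨K, hK⟩ := hfc.isCompact.isBounded.exists_norm_le
  have hK' : ∀ y, f y ≠ 0 → ‖y‖ ≤ K := fun y hy => hK y (subset_tsupport f hy)
  refine ((integrable_decay hρ K).const_mul (d * ((ballVol d)⁻¹ * ∫ y, |f y|))).mono' ?_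
    (ae_of_all _ fun x => ?_)
  · simp only [norm_gradient]
    exact (measurable_fderiv ℝ (radMax f ρ)).norm.aestronglyMeasurable
  · rw [norm_norm]
    refine (norm_gradient_radMax_le_decay hd hf hfc hρ hK' x).trans_eq ?_
    rw [pow_succ, mul_inv, mul_inv]
    ring

lemma tendsto_gradMass (hd : 0 < d) (hf : Continuous f) (hfc : HasCompactSupport f)
    (hρ : 0 < ρ) : Tendsto (fun N : ℕ => gradMass f (2 ^ N * ρ)) atTop (𝓝 0) := by
  obtain ⟨K, hK⟩ := hfc.isCompact.isBounded.exists_norm_le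
  have hK' : ∀ y, f y ≠ 0 → ‖y‖ ≤ K := fun y hy => hK y (subset_tsupport f hy)
  set A := d * ((ballVol d)⁻¹ * ∫ y, |f y|) with hA
  have hA0 : 0 ≤ A := by
    have := ballVol_pos (d := d)
    have : 0 ≤ ∫ y, |f y| := integral_nonneg fun y => abs_nonneg _
    positivity
  have hle : ∀ (N : ℕ) x, ‖∇ (radMax f (2 ^ N * ρ)) x‖ ≤
      A * ((max (2 ^ N * ρ) ((‖x‖ - K) / 2)) ^ (d + 1))⁻¹ := fun N x => by
    refine (norm_gradient_radMax_le_decay hd hf hfc (by positivity) hK' x).trans_eq ?_
    rw [hA, pow_succ, mul_inv, mul_inv]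
    ring
  have h0 : (0 : ℝ) = ∫ _x : Euc d, (0 : ℝ) := by simp
  rw [h0]
  refine tendsto_integral_of_dominated_convergence
    (fun x => A * ((max ρ ((‖x‖ - K) / 2)) ^ (d + 1))⁻¹)
    (fun N => (integrable_norm_gradient_radMax hd hf hfc (by positivity)).aestronglyMeasurable)
    ((integrable_decay hρ K).const_mul A)
    (fun N => ae_of_all _ fun x => ?_) (ae_of_all _ fun x => ?_)
  · rw [norm_norm]
    refine (hle N x).trans (mul_le_mul_of_nonneg_left ?_ hA0)
    refine inv_anti₀ (pow_pos (lt_max_of_lt_left hρ) _)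
      (pow_le_pow_left₀ (le_max_of_le_left hρ.le) (max_le_max ?_ le_rfl) _)
    exact le_mul_of_one_le_left hρ.le (one_le_pow₀ one_le_two)
  · have h2 : Tendsto (fun N : ℕ => (2 : ℝ) ^ N * ρ) atTop atTop :=
      (tendsto_pow_atTop_atTop_of_one_lt one_lt_two).atTop_mul_const hρ
    have h3 : Tendsto (fun N : ℕ => A * ((2 ^ N * ρ) ^ (d + 1))⁻¹) atTop (𝓝 0) := by
      simpa using (tendsto_inv_atTop_zero.comp
        ((tendsto_pow_atTop (Nat.succ_ne_zero d)).comp h2)).const_mul A
    refine squeeze_zero (fun N => norm_nonneg _) (fun N => (hle N x).trans ?_) h3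
    exact mul_le_mul_of_nonneg_left (inv_anti₀ (by positivity)
      (pow_le_pow_left₀ (by positivity) (le_max_left _ _) _)) hA0

lemma bumpAt_nonneg (hρ : 0 < ρ) (c x : Euc d) : 0 ≤ bumpAt ρ c x :=
  mul_nonneg (by positivity) (ContDiffBump.nonneg_normed _ _)

lemma continuous_bumpAt (ρ : ℝ) : Continuous fun p : Euc d × Euc d => bumpAt ρ p.1 p.2 :=
  continuous_const.mul ((ContDiffBump.continuous_normed _).comp (by fun_prop))

lemma integrable_bumpAt (hρ : 0 < ρ) (x : Euc d) : Integrable fun c => bumpAt ρ c x :=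
  (((ContDiffBump.integrable_normed _).comp_smul (inv_ne_zero hρ.ne')).comp_sub_left x).const_mul _

lemma integral_bumpAt (hρ : 0 < ρ) (x : Euc d) : ∫ c, bumpAt ρ c x = 1 := by
  set b : ContDiffBump (0 : Euc d) := ⟨1 / 2, 1, by norm_num, by norm_num⟩
  have h1 : ∫ c, b.normed volume (ρ⁻¹ • (x - c)) = ρ ^ d := by
    rw [integral_sub_left_eq_self (fun z => b.normed volume (ρ⁻¹ • z)) volume x,
      Measure.integral_comp_inv_smul_of_nonneg _ _ hρ.le, b.integral_normed,
      finrank_euclideanSpace_fin, smul_eq_mul, mul_one]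
  show ∫ c, (ρ ^ d)⁻¹ * b.normed volume (ρ⁻¹ • (x - c)) = 1
  rw [integral_const_mul, h1, inv_mul_cancel₀ (by positivity)]

lemma integral_bumpAt_mul (hρ : 0 < ρ) {D : Euc d → ℝ} (hD : Integrable D) :
    Integrable (fun c => ∫ x, bumpAt ρ c x * D x) ∧
      ∫ c, ∫ x, bumpAt ρ c x * D x = ∫ x, D x := by
  have hm : AEStronglyMeasurable (fun p : Euc d × Euc d => bumpAt ρ p.1 p.2 * D p.2)
      (volume.prod volume) :=
    (continuous_bumpAt ρ).aestronglyMeasurable.mul hD.aestronglyMeasurable.comp_snd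
  have hp : Integrable (fun p : Euc d × Euc d => bumpAt ρ p.1 p.2 * D p.2)
      (volume.prod volume) := by
    refine (integrable_prod_iff' hm).2
      ⟨ae_of_all _ fun x => Integrable.mul_const (f := fun c => bumpAt ρ c x) (integrable_bumpAt hρ x) (D x), ?_⟩
    refine hD.norm.congr (ae_of_all _ fun x => ?_)
    simp only [norm_mul, Real.norm_eq_abs, abs_of_nonneg (bumpAt_nonneg hρ _ _)]
    rw [integral_mul_const, integral_bumpAt hρ, one_mul]
  refine ⟨hp.integral_prod_left, ?_⟩
  rw [integral_integral_swap hp]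
  refine integral_congr_ae (ae_of_all _ fun x => ?_)
  show ∫ c, bumpAt ρ c x * D x = D x
  rw [integral_mul_const, integral_bumpAt hρ, one_mul]

lemma ofReal_sum_le {ι : Type*} (s : Finset ι) (a : ι → ℝ) :
    ENNReal.ofReal (∑ n ∈ s, a n) ≤ ∑ n ∈ s, ENNReal.ofReal (a n) := by
  classical
  induction s using Finset.induction_on with
  | empty => simp
  | insert i s hi ih =>
    rw [Finset.sum_insert hi, Finset.sum_insert hi]
    exact ENNReal.ofReal_add_le.trans (add_le_add le_rfl ih)

section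
variable {g : Euc d → Euc d} (hg : Continuous g) (hgc : HasCompactSupport g)
include hg hgc

lemma boxMass_sub_nonneg {S : ℝ} (hS : 0 < S) (j : ℕ) :
    0 ≤ boxMass g (S / 2 ^ j) - boxMass g S := by
  have h : 0 ≤ ∫ c, excess g S j c := integral_nonneg fun c => excess_nonneg hg hgc c hS j
  rw [integral_excess hg hgc hS j] at h
  exact nonneg_of_mul_nonneg_right h (by positivity)

lemma integrable_excess {S : ℝ} (hS : 0 < S) (j : ℕ) : Integrable (excess g S j) := by
  unfold excess
  refine Integrable.sub (integrable_finsetSum _ fun a _ => ?_) (integrable_norm_vec hg hgc hS.le)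
  exact (integrable_norm_vec hg hgc (by positivity)).comp_add_right (gridOff S j a)

end

/-- The truncated maximal functions have gradient integrals bounded independently of the radius. -/
theorem exists_integral_gradient_radMax_le (hd : 0 < d) : ∃ C : ℝ≥0, ∀ (f : Euc d → ℝ),
    ContDiff ℝ 1 f → HasCompactSupport f → (∀ y, 0 ≤ f y) → ∀ ρ : ℝ, 0 < ρ →
      ∫⁻ x, ‖∇ (radMax f ρ) x‖ₑ ≤ C * ∫⁻ x, ‖fderiv ℝ f x‖ₑ := by
  obtain ⟨C, hC, hstep⟩ := exists_weighted_step_le hd
  refine ⟨(C * 24 ^ d * ∑' j : ℕ, (j : ℝ) * theta ^ j).toNNReal, fun f hf hfc hf0 ρ hρ => ?_⟩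
  set g := ∇ f with hgdef
  have hg : Continuous g :=
    (InnerProductSpace.toDual ℝ (Euc d)).symm.continuous.comp (hf.continuous_fderiv one_ne_zero)
  have hgc : HasCompactSupport g :=
    (hfc.fderiv ℝ).comp_left (g := (InnerProductSpace.toDual ℝ (Euc d)).symm) (map_zero _)
  have hgi : Integrable g := hg.integrable_of_hasCompactSupport hgc
  obtain ⟨G, hG⟩ := hgc.exists_bound_of_continuous hg
  have hfC : Continuous f := hf.continuous
  have hVi : ∀ {σ : ℝ}, 0 < σ → Integrable fun x => ‖∇ (radMax f σ) x‖ :=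
    fun h => integrable_norm_gradient_radMax hd hfC hfc h
  -- one step
  have step : ∀ σ : ℝ, 0 < σ → ENNReal.ofReal (gradMass f σ - gradMass f (2 * σ)) ≤
      ENNReal.ofReal (C * 24 ^ d) * ∑' j : ℕ,
        ENNReal.ofReal (theta ^ j * (boxMass g (24 * σ / 2 ^ j) - boxMass g (24 * σ))) := by
    intro σ hσ
    set S := boxSide σ with hSdef
    have hS : 0 < S := mul_pos (by norm_num) hσ
    set D := fun x => ‖∇ (radMax f σ) x‖ - ‖∇ (radMax f (2 * σ)) x‖ with hDdef
    have hDi : Integrable D := (hVi hσ).sub (hVi (by positivity))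
    obtain ⟨hFi, hF⟩ := integral_bumpAt_mul hσ hDi
    have hpoint : ∀ c, ENNReal.ofReal (∫ x, bumpAt σ c x * D x) ≤
        ENNReal.ofReal (C / σ ^ d) * ∑' j : ℕ, ENNReal.ofReal (theta ^ j * excess g S j c) := by
      intro c
      have hlim : Tendsto (fun J : ℕ => ENNReal.ofReal (C * G * (1 / 2) ^ J)) atTop (𝓝 0) := by
        rw [← ENNReal.ofReal_zero]
        refine ENNReal.tendsto_ofReal ?_
        simpa using (tendsto_pow_atTop_nhds_zero_of_lt_one
          (by norm_num : (0 : ℝ) ≤ 1 / 2) (by norm_num)).const_mul (C * G)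
      have hlim' := (tendsto_const_nhds (x := ENNReal.ofReal (C / σ ^ d) *
        ∑' j : ℕ, ENNReal.ofReal (theta ^ j * excess g S j c))).add hlim
      rw [add_zero] at hlim'
      refine ge_of_tendsto' hlim' fun J => ?_
      refine (ENNReal.ofReal_le_ofReal (hstep f hf hfc hf0 G hG σ c J hσ)).trans
        (ENNReal.ofReal_add_le.trans (add_le_add ?_ le_rfl))
      rw [ENNReal.ofReal_mul (by positivity), ENNReal.ofReal_sum_of_nonneg fun j _ =>
        mul_nonneg (pow_nonneg theta_pos.le j) (excess_nonneg hg hgc c hS j)]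
      exact mul_le_mul_right (ENNReal.sum_le_tsum _) _
    have e1 : gradMass f σ - gradMass f (2 * σ) = ∫ c, ∫ x, bumpAt σ c x * D x := by
      rw [hF, hDdef, integral_sub (hVi hσ) (hVi (by positivity))]; rfl
    rw [e1]
    calc ENNReal.ofReal (∫ c, ∫ x, bumpAt σ c x * D x)
        ≤ ∫⁻ c, ENNReal.ofReal (∫ x, bumpAt σ c x * D x) := by
          rw [integral_eq_lintegral_pos_part_sub_lintegral_neg_part hFi]
          exact (ENNReal.ofReal_le_ofReal (sub_le_self _ ENNReal.toReal_nonneg)).trans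
            ENNReal.ofReal_toReal_le
      _ ≤ ∫⁻ c, ENNReal.ofReal (C / σ ^ d) *
            ∑' j : ℕ, ENNReal.ofReal (theta ^ j * excess g S j c) := lintegral_mono hpoint
      _ = ENNReal.ofReal (C / σ ^ d) *
            ∑' j : ℕ, ENNReal.ofReal (S ^ d * (theta ^ j * (boxMass g (S / 2 ^ j) - boxMass g S))) := by
          rw [lintegral_const_mul' _ _ ENNReal.ofReal_ne_top, lintegral_tsum fun j =>
            ((continuous_excess hg hgc S j).const_mul _).measurable.ennreal_ofReal.aemeasurable]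
          refine congrArg _ (tsum_congr fun j => ?_)
          rw [← ofReal_integral_eq_lintegral_ofReal ((integrable_excess hg hgc hS j).const_mul _)
            (ae_of_all _ fun c =>
              mul_nonneg (pow_nonneg theta_pos.le j) (excess_nonneg hg hgc c hS j)),
            integral_const_mul, integral_excess hg hgc hS j, mul_left_comm]
      _ = _ := by
          rw [← ENNReal.tsum_mul_left, ← ENNReal.tsum_mul_left]
          refine tsum_congr fun j => ?_
          rw [← ENNReal.ofReal_mul (by positivity), ← ENNReal.ofReal_mul (by positivity),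
            hSdef, boxSide, mul_pow]
          congr 1
          field_simp
  -- telescoping
  have hsum : ∀ N : ℕ, ENNReal.ofReal (gradMass f ρ - gradMass f (2 ^ N * ρ)) ≤
      ENNReal.ofReal (C * 24 ^ d * (∑' j : ℕ, (j : ℝ) * theta ^ j) * ∫ y, ‖g y‖) := by
    intro N
    have e : gradMass f ρ - gradMass f (2 ^ N * ρ) =
        ∑ n ∈ Finset.range N, (gradMass f (2 ^ n * ρ) - gradMass f (2 * (2 ^ n * ρ))) := by
      simp only [← mul_assoc, ← pow_succ']
      rw [Finset.sum_range_sub' fun n => gradMass f (2 ^ n * ρ), pow_zero, one_mul]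
    rw [e]
    refine (ofReal_sum_le _ _).trans ((Finset.sum_le_sum fun n _ =>
      step (2 ^ n * ρ) (by positivity)).trans ?_)
    rw [← Finset.mul_sum, ← Summable.tsum_finsetSum fun n _ => ENNReal.summable,
      mul_assoc (C * 24 ^ d) (∑' j : ℕ, (j : ℝ) * theta ^ j),
      ENNReal.ofReal_mul (q := (∑' j : ℕ, (j : ℝ) * theta ^ j) * ∫ y, ‖g y‖)
        (by positivity : (0 : ℝ) ≤ C * 24 ^ d), ← tsum_mul_right,
      ENNReal.ofReal_tsum_of_nonneg (fun j => by have := theta_pos; positivity)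
        (summable_mul_theta_pow.mul_right _)]
    refine mul_le_mul_right (ENNReal.tsum_le_tsum fun j => ?_) _
    rw [← ENNReal.ofReal_sum_of_nonneg fun n _ => mul_nonneg (pow_nonneg theta_pos.le j)
      (boxMass_sub_nonneg hg hgc (by positivity) j), ← Finset.mul_sum]
    refine ENNReal.ofReal_le_ofReal ?_
    have := sum_boxMass_le hg hgc (S := 24 * ρ) (by positivity) j N
    have e2 : ∀ n : ℕ, 24 * (2 ^ n * ρ) = 24 * ρ * 2 ^ n := fun n => by ring
    simp only [e2]
    exact (mul_le_mul_of_nonneg_left this (pow_nonneg theta_pos.le j)).trans_eq (by ring)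
  -- limit
  have hlim : Tendsto (fun N : ℕ => ENNReal.ofReal (gradMass f ρ - gradMass f (2 ^ N * ρ))) atTop
      (𝓝 (ENNReal.ofReal (gradMass f ρ))) :=
    ENNReal.tendsto_ofReal (by simpa using (tendsto_gradMass hd hfC hfc hρ).const_sub (gradMass f ρ))
  have hmain := le_of_tendsto' hlim hsum
  rw [gradMass, ofReal_integral_eq_lintegral_ofReal (hVi hρ) (ae_of_all _ fun x => norm_nonneg _),
    ENNReal.ofReal_mul (by have := theta_pos; positivity),
    ofReal_integral_norm_eq_lintegral_enorm hgi] at hmain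
  simp only [hgdef, enorm_gradient, ofReal_norm] at hmain
  simpa only [ENNReal.ofReal, enorm_gradient] using hmain

lemma tendsto_radMax_maxFn {B : ℝ} (hi : Integrable f) (hB : ∀ y, |f y| ≤ B) (x : Euc d) :
    uncenteredMax f x ≠ ∞ ∧
      Tendsto (fun n : ℕ => radMax f ((1 / 2) ^ n) x) atTop (𝓝 (maxFn f x)) := by
  have hfin : uncenteredMax f x ≠ ∞ := by
    rw [uncenteredMax_eq_iSup hi]
    exact ne_top_of_le_ne_top ENNReal.ofReal_ne_top
      (iSup_le fun n => ENNReal.ofReal_le_ofReal (radMax_le_bound hi hB (by positivity) x))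
  refine ⟨hfin, ?_⟩
  have hmono : Monotone fun n : ℕ => ENNReal.ofReal (radMax f ((1 / 2) ^ n) x) := fun m n h =>
    ENNReal.ofReal_le_ofReal (radMax_anti hi (by positivity)
      (pow_le_pow_of_le_one (by norm_num) (by norm_num) h) x)
  have h1 := tendsto_atTop_iSup hmono
  rw [← uncenteredMax_eq_iSup hi] at h1
  refine ((ENNReal.tendsto_toReal hfin).comp h1).congr fun n => ?_
  exact ENNReal.toReal_ofReal (radMax_nonneg hi (by positivity) x)

lemma lipschitz_maxFn {L : ℝ≥0} (hf : LipschitzWith L f) (hfc : HasCompactSupport f) :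
    LipschitzWith L (maxFn f) := by
  have hi : Integrable f := hf.continuous.integrable_of_hasCompactSupport hfc
  obtain ⟨B, hB⟩ := hfc.exists_bound_of_continuous hf.continuous
  refine LipschitzWith.of_le_add_mul _ fun x y => ?_
  exact le_of_tendsto_of_tendsto' (tendsto_radMax_maxFn hi hB x).2
    ((tendsto_radMax_maxFn hi hB y).2.add_const _) fun n =>
      (lipschitz_radMax_of_lipschitz hf hfc (by positivity)).le_add_mul x y

lemma radMax_le_add {h : Euc d → ℝ} (hf : Integrable f) (hh : Integrable h) {ε : ℝ}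
    (hε : ∀ y, |h y| ≤ |f y| + ε) (hρ : 0 < ρ) (x : Euc d) :
    radMax h ρ x ≤ radMax f ρ x + ε := by
  refine radMax_le hρ.le fun c R hR hx => le_trans ?_ (add_le_add (le_radMax hf hρ hR hx) le_rfl)
  have hR0 : 0 < R := hρ.trans_le hR
  have hc : IntegrableOn (fun _ : Euc d => ε) (ball c R) :=
    integrableOn_const measure_ball_lt_top.ne
  have h1 : ∫ y in ball c R, |h y| ≤ ∫ y in ball c R, (|f y| + ε) :=
    setIntegral_mono hh.abs.integrableOn (hf.abs.integrableOn.add hc) hε
  rw [integral_add hf.abs.integrableOn hc, setIntegral_const, smul_eq_mul, measureReal_def,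
    volume_ball_toReal c hR0] at h1
  have hV : 0 < R ^ d * ballVol d := mul_pos (pow_pos hR0 d) ballVol_pos
  unfold ballAvg
  rw [inv_mul_le_iff₀ hV, mul_add, ← mul_assoc, mul_inv_cancel₀ hV.ne', one_mul]
  exact h1

/-- A smooth nonnegative approximation of `|u|`. -/
def smoothAbs (ε : ℝ) (u : Euc d → ℝ) (x : Euc d) : ℝ := √(u x ^ 2 + ε ^ 2) - ε

lemma smoothAbs_spec {ε : ℝ} (hε : 0 < ε) {u : Euc d → ℝ} (hu : ContDiff ℝ 1 u)
    (huc : HasCompactSupport u) :
    ContDiff ℝ 1 (smoothAbs ε u) ∧ HasCompactSupport (smoothAbs ε u) ∧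
      (∀ y, 0 ≤ smoothAbs ε u y) ∧ (∀ y, ‖fderiv ℝ (smoothAbs ε u) y‖ ≤ ‖fderiv ℝ u y‖) ∧
      ∀ y, |u y| ≤ smoothAbs ε u y + ε ∧ smoothAbs ε u y ≤ |u y| := by
  have hpos : ∀ t : ℝ, 0 < t ^ 2 + ε ^ 2 := fun t => by positivity
  have h1 : ∀ t : ℝ, |t| ≤ √(t ^ 2 + ε ^ 2) := fun t => by
    rw [← Real.sqrt_sq_eq_abs]; exact Real.sqrt_le_sqrt (by nlinarith)
  refine ⟨(((hu.pow 2).add contDiff_const).sqrt fun x => (hpos _).ne').sub contDiff_const,
    huc.comp_left (g := fun t : ℝ => √(t ^ 2 + ε ^ 2) - ε) (by simp [Real.sqrt_sq hε.le]),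
    fun y => ?_, fun y => ?_, fun y => ⟨?_, ?_⟩⟩
  · rw [smoothAbs, sub_nonneg]
    exact Real.le_sqrt_of_sq_le (by nlinarith)
  · have hD := ((((hasDerivAt_id (u y)).pow 2).add_const (ε ^ 2)).sqrt (hpos _).ne').sub_const ε
    have := hD.comp_hasFDerivAt y ((hu.differentiable one_ne_zero y).hasFDerivAt)
    have e := this.fderiv
    change ‖fderiv ℝ ((fun t : ℝ => √(id t ^ 2 + ε ^ 2) - ε) ∘ u) y‖ ≤ _
    rw [show (fun t : ℝ => √(id t ^ 2 + ε ^ 2) - ε) = fun t => √((id ^ 2) t + ε ^ 2) - ε from rfl, e,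
      norm_smul]
    refine mul_le_of_le_one_left (norm_nonneg _) ?_
    have hs : 0 < √(u y ^ 2 + ε ^ 2) := Real.sqrt_pos.2 (hpos _)
    simp only [id_eq, Pi.pow_apply, Nat.cast_ofNat, Nat.add_one_sub_one, pow_one, mul_one]
    rw [Real.norm_eq_abs, mul_div_mul_left _ _ (two_ne_zero), abs_div, abs_of_pos hs,
      div_le_one hs]
    exact h1 _
  · rw [smoothAbs, sub_add_cancel]; exact h1 _
  · rw [smoothAbs, sub_le_iff_le_add, Real.sqrt_le_iff]
    exact ⟨by positivity, by nlinarith [abs_nonneg (u y), sq_abs (u y)]⟩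

/-- The variation bound for compactly supported C¹ data of any sign. -/
theorem exists_lineVar_maxFn_le (hd : 0 < d) : ∃ C : ℝ≥0, ∀ (u : Euc d → ℝ),
    ContDiff ℝ 1 u → HasCompactSupport u →
      Continuous (maxFn u) ∧ (∀ x, uncenteredMax u x ≠ ∞) ∧ Tendsto (maxFn u) (cocompact _) (𝓝 0) ∧
      ∀ i, lineVar i (maxFn u) ≤ C * ∫⁻ x, ‖fderiv ℝ u x‖ₑ := by
  obtain ⟨C, hC⟩ := exists_integral_gradient_radMax_le hd
  refine ⟨C, fun u hu huc => ?_⟩
  have hi : Integrable u := hu.continuous.integrable_of_hasCompactSupport huc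
  obtain ⟨B, hB⟩ := huc.exists_bound_of_continuous hu.continuous
  obtain ⟨L, hL⟩ := hu.lipschitzWith_of_hasCompactSupport huc one_ne_zero
  refine ⟨(lipschitz_maxFn hL huc).continuous, fun x => (tendsto_radMax_maxFn hi hB x).1, ?_,
    fun i => ?_⟩
  · obtain ⟨K, hK⟩ := huc.isCompact.isBounded.exists_norm_le
    have hK' : ∀ y, u y ≠ 0 → ‖y‖ ≤ K := fun y hy => hK y (subset_tsupport u hy)
    have h1 : Tendsto (fun r : ℝ => ((((r - K) / 2) ^ d * ballVol d))⁻¹ * ∫ y, |u y|) atTop (𝓝 0) := by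
      have : Tendsto (fun r : ℝ => ((r - K) / 2) ^ d * ballVol d) atTop atTop :=
        ((tendsto_pow_atTop hd.ne').comp
          ((tendsto_atTop_add_const_right _ (-K) tendsto_id).atTop_div_const two_pos)).atTop_mul_const
            ballVol_pos
      simpa using (tendsto_inv_atTop_zero.comp this).mul_const (∫ y, |u y|)
    refine squeeze_zero' (Eventually.of_forall fun x => ENNReal.toReal_nonneg) ?_
      (h1.comp (tendsto_norm_cocompact_atTop (E := Euc d)))
    filter_upwards [tendsto_norm_cocompact_atTop.eventually (eventually_gt_atTop K)] with x hx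
    refine le_of_tendsto' (tendsto_radMax_maxFn hi hB x).2 fun n =>
      (radMax_le_decay hi (by positivity) hK' x).trans ?_
    refine mul_le_mul_of_nonneg_right (inv_anti₀ ?_ ?_) (integral_nonneg fun y => abs_nonneg _)
    · exact mul_pos (pow_pos (by linarith) d) ballVol_pos
    · exact mul_le_mul_of_nonneg_right (pow_le_pow_left₀ (by linarith) (le_max_right _ _) d)
        ballVol_pos.le
  · set ε : ℕ → ℝ := fun k => 1 / ((k : ℝ) + 1) with hεdef
    have hε : ∀ k, 0 < ε k := fun k => by rw [hεdef]; positivity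
    set f : ℕ → Euc d → ℝ := fun k => smoothAbs (ε k) u with hfdef
    have hsp := fun k => smoothAbs_spec (hε k) hu huc
    have hfi : ∀ k, Integrable (f k) := fun k =>
      (hsp k).1.continuous.integrable_of_hasCompactSupport (hsp k).2.1
    have hfB : ∀ k y, |f k y| ≤ B := fun k y => by
      rw [abs_of_nonneg ((hsp k).2.2.1 y)]; exact ((hsp k).2.2.2.2 y).2.trans (hB y)
    have hfL : ∀ k, ∃ L, LipschitzWith L (f k) := fun k =>
      (hsp k).1.lipschitzWith_of_hasCompactSupport (hsp k).2.1 one_ne_zero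
    refine lineVar_le_of_tendsto i (F := fun k => maxFn (f k))
      (fun k => by obtain ⟨L', hL'⟩ := hfL k; exact (lipschitz_maxFn hL' (hsp k).2.1).continuous)
      (fun x => ?_) fun k => ?_
    · refine tendsto_iff_dist_tendsto_zero.2 (squeeze_zero (fun k => dist_nonneg) (fun k => ?_)
        (tendsto_one_div_add_atTop_nhds_zero_nat (𝕜 := ℝ)))
      refine le_of_tendsto' ((tendsto_radMax_maxFn (hfi k) (hfB k) x).2.dist
        (tendsto_radMax_maxFn hi hB x).2) fun n => ?_
      have hp : (0 : ℝ) < (1 / 2) ^ n := by positivity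
      have a1 := radMax_le_add (h := u) (hfi k) hi (ε := ε k) (fun y => by
        rw [abs_of_nonneg ((hsp k).2.2.1 y)]; exact ((hsp k).2.2.2.2 y).1) hp x
      have a2 := radMax_le_add (h := f k) hi (hfi k) (ε := ε k) (fun y => by
        rw [abs_of_nonneg ((hsp k).2.2.1 y)]; linarith [((hsp k).2.2.2.2 y).2, hε k]) hp x
      rw [Real.dist_eq, abs_le]
      constructor <;> simp only [hεdef] at * <;> linarith
    · refine lineVar_le_of_tendsto i (F := fun n => radMax (f k) ((1 / 2) ^ n))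
        (fun n => continuous_radMax (hfi k) (by positivity))
        (fun x => (tendsto_radMax_maxFn (hfi k) (hfB k) x).2) fun n => ?_
      refine (lineVar_le_lintegral_fderiv i (lipschitz_radMax (hfi k) (by positivity))).trans ?_
      refine le_trans ?_ ((hC (f k) (hsp k).1 (hsp k).2.1 (hsp k).2.2.1 _ (by positivity : (0:ℝ) < (1 / 2) ^ n)).trans
        (mul_le_mul_right (lintegral_mono fun y => enorm_le_iff_norm_le.2 ((hsp k).2.2.2.1 y)) _))
      simp only [enorm_gradient]
      exact le_rfl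

end Vale.Agent.P137
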