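import Vale.Agent.P137.Pairing

/-!
# P137: the increase of variation between two scales, near one centre
-/

open MeasureTheory Filter Set Metric
open scoped ENNReal NNReal Topology RealInnerProductSpace Gradient

noncomputable section

namespace Vale.Agent.P137

variable {d : ℕ}

/-- Area-formula bound along lines: if `L` decreases by at most `G` over short steps between points
of `E`, its decrease on `E` weighted by the step length is at most the integral of `G`. -/
theorem lintegral_slice_le {L : Euc d → ℝ} {K : ℝ≥0} (hL : LipschitzWith K L) (v : Euc d)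
    {E : Set (Euc d)} (hE : MeasurableSet E) (hdiff : ∀ x ∈ E, DifferentiableAt ℝ L x)
    {r : Euc d → ℝ} (hr : Measurable r) {G : Euc d → ℝ≥0∞} (hG : Measurable G)
    (hanti : ∀ x ∈ E, ∀ h ∈ Icc (0 : ℝ) (r x), x + h • v ∈ E → L (x + h • v) ≤ L x)
    (hdrop : ∀ x ∈ E, ∀ h ∈ Icc (0 : ℝ) (r x), x + h • v ∈ E → ∀ s ∈ Icc (0 : ℝ) (r x),
      ENNReal.ofReal (L x - L (x + h • v)) ≤ G (x + s • v)) :
    ∫⁻ x in E, ENNReal.ofReal (-fderiv ℝ L x v) * ENNReal.ofReal (r x) ≤ ∫⁻ y, G y := by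
  set F : Euc d → ℝ≥0∞ := fun x => ENNReal.ofReal (-fderiv ℝ L x v) with hF
  have hFm : Measurable F := ((measurable_fderiv_apply_const ℝ L v).neg).ennreal_ofReal
  set W : Set (Euc d × ℝ) := {p | p.1 ∈ E ∧ 0 ≤ p.2 ∧ p.2 ≤ r p.1} with hW
  have hWm : MeasurableSet W :=
    (measurable_fst hE).inter ((measurableSet_le measurable_const measurable_snd).inter
      (measurableSet_le measurable_snd (hr.comp measurable_fst)))
  set Φ : Euc d × ℝ → ℝ≥0∞ := W.indicator fun p => F p.1 with hΦ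
  have hΦm : Measurable Φ := (hFm.comp measurable_fst).indicator hWm
  have e1 : ∫⁻ x in E, F x * ENNReal.ofReal (r x) = ∫⁻ x, ∫⁻ s : ℝ, Φ (x, s) := by
    rw [← lintegral_indicator hE]
    refine lintegral_congr fun x => ?_
    by_cases hx : x ∈ E
    · have : (fun s : ℝ => Φ (x, s)) = (Icc 0 (r x)).indicator fun _ => F x := by
        funext s
        by_cases hs : s ∈ Icc 0 (r x)
        · rw [indicator_of_mem hs]; exact indicator_of_mem (show (x, s) ∈ W from ⟨hx, hs⟩) _
        · rw [indicator_of_notMem hs]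
          exact indicator_of_notMem (show (x, s) ∉ W from fun h => hs h.2) _
      rw [indicator_of_mem hx, this, lintegral_indicator_const measurableSet_Icc, Real.volume_Icc,
        sub_zero]
    · have : ∀ s : ℝ, Φ (x, s) = 0 :=
        fun s => indicator_of_notMem (show (x, s) ∉ W from fun h => hx h.1) _
      simp [this, hx]
  have e2 : ∀ s : ℝ, ∫⁻ x, Φ (x, s) = ∫⁻ y, Φ (y - s • v, s) := fun s => by
    rw [← lintegral_add_right_eq_self (fun y => Φ (y - s • v, s)) (s • v)]
    simp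
  have m2 : Measurable fun p : ℝ × Euc d => Φ (p.2 - p.1 • v, p.1) := hΦm.comp (by fun_prop)
  calc ∫⁻ x in E, ENNReal.ofReal (-fderiv ℝ L x v) * ENNReal.ofReal (r x)
      = ∫⁻ x, ∫⁻ s : ℝ, Φ (x, s) := e1
    _ = ∫⁻ s : ℝ, ∫⁻ y, Φ (y - s • v, s) := by
        rw [lintegral_lintegral_swap (f := fun x s => Φ (x, s)) hΦm.aemeasurable]; exact lintegral_congr e2
    _ = ∫⁻ y, ∫⁻ s : ℝ, Φ (y - s • v, s) :=
        lintegral_lintegral_swap (f := fun s y => Φ (y - s • v, s)) m2.aemeasurable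
    _ ≤ ∫⁻ y, G y := lintegral_mono fun y => ?_
  set A := {s : ℝ | (y - s • v, s) ∈ W}
  have hA : MeasurableSet A := (by fun_prop : Measurable fun s : ℝ => (y - s • v, s)) hWm
  have step : ∀ s ∈ A, ∀ s' ∈ A, s' ≤ s → L (y - s' • v) ≤ L (y - s • v) ∧
      ENNReal.ofReal (L (y - s • v) - L (y - s' • v)) ≤ G y := by
    rintro s ⟨hsE, hs0, hsr⟩ s' ⟨hsE', hs0', -⟩ hle
    have hh : s - s' ∈ Icc (0 : ℝ) (r (y - s • v)) := ⟨by linarith, by linarith⟩
    have e : y - s • v + (s - s') • v = y - s' • v := by rw [sub_smul]; abel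
    have a1 := hanti _ hsE _ hh (e ▸ hsE')
    have a2 := hdrop _ hsE _ hh (e ▸ hsE') s ⟨hs0, hsr⟩
    rw [e] at a1 a2
    rw [sub_add_cancel] at a2
    exact ⟨a1, a2⟩
  have hder : ∀ s ∈ A, HasDerivWithinAt (fun s : ℝ => L (y - s • v))
      (-fderiv ℝ L (y - s • v) v) A s := by
    intro s hs
    have h1 : HasDerivAt (fun s : ℝ => y - s • v) (-v) s := by
      simpa using ((hasDerivAt_id s).smul_const v).const_sub y
    have h2 := (hdiff _ hs.1).hasFDerivAt.comp_hasDerivAt s h1
    rw [map_neg] at h2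
    exact h2.hasDerivWithinAt
  have hmono : MonotoneOn (fun s : ℝ => L (y - s • v)) A :=
    fun s' hs' s hs hle => (step s hs s' hs' hle).1
  calc ∫⁻ s : ℝ, Φ (y - s • v, s) = ∫⁻ s in A, ENNReal.ofReal (-fderiv ℝ L (y - s • v) v) := by
        rw [← lintegral_indicator hA]
        refine lintegral_congr fun s => ?_
        by_cases hs : s ∈ A
        · rw [indicator_of_mem hs]; exact indicator_of_mem (show (y - s • v, s) ∈ W from hs) _
        · rw [indicator_of_notMem hs]; exact indicator_of_notMem (show (y - s • v, s) ∉ W from hs) _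
    _ = volume ((fun s : ℝ => L (y - s • v)) '' A) :=
        lintegral_deriv_eq_volume_image_of_monotoneOn hA hder hmono
    _ ≤ G y := by
        refine (Real.volume_le_diam _).trans (Metric.ediam_le ?_)
        rintro _ ⟨a, ha, rfl⟩ _ ⟨b, hb, rfl⟩
        rcases le_total a b with hab | hab
        · have := step b hb a ha hab
          rw [edist_comm, edist_dist, Real.dist_eq, abs_of_nonneg (sub_nonneg.2 this.1)]
          exact this.2
        · have := step a ha b hb hab
          rw [edist_dist, Real.dist_eq, abs_of_nonneg (sub_nonneg.2 this.1)]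
          exact this.2

lemma levelExc_nonneg {g : Euc d → Euc d} {n : Euc d} (hn : ‖n‖ = 1) (c₀ : Euc d) (ρ : ℝ) (j : ℕ)
    (a : Fin d → ℕ) : 0 ≤ levelExc g n c₀ ρ j a := excN_nonneg _ hn

lemma measurable_gammaJ (C : ℝ) (g : Euc d → Euc d) (G : ℝ) (n c₀ : Euc d) (ρ : ℝ) (J : ℕ) :
    Measurable (gammaJ C g G n c₀ ρ J) := by
  refine Measurable.add_const (Measurable.const_mul (Measurable.const_add ?_ _) _) _
  exact Finset.measurable_sum _ fun j _ => Finset.measurable_sum _ fun a _ =>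
    measurable_const.indicator measurableSet_closedBall

lemma farPart_nonneg {g : Euc d → Euc d} {n : Euc d} (hn : ‖n‖ = 1) (c₀ : Euc d) (ρ : ℝ) (J : ℕ) :
    0 ≤ farPart g n c₀ ρ J :=
  Finset.sum_nonneg fun j _ => mul_nonneg (pow_nonneg theta_pos.le j)
    (Finset.sum_nonneg fun a _ => levelExc_nonneg hn c₀ ρ j a)

lemma nearPart_nonneg {g : Euc d → Euc d} {n : Euc d} (hn : ‖n‖ = 1) (C : ℝ) (c₀ : Euc d) (ρ : ℝ)
    (J : ℕ) (y : Euc d) : 0 ≤ nearPart C g n c₀ ρ J y :=
  Finset.sum_nonneg fun j _ => Finset.sum_nonneg fun a _ =>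
    Set.indicator_nonneg (fun _ _ => levelExc_nonneg hn c₀ ρ j a) y

lemma gammaJ_nonneg {C ρ G : ℝ} (hC : 0 ≤ C) (hρ : 0 ≤ ρ) (hG : 0 ≤ G) {g : Euc d → Euc d}
    {n : Euc d} (hn : ‖n‖ = 1) (c₀ : Euc d) (J : ℕ) (y : Euc d) :
    0 ≤ gammaJ C g G n c₀ ρ J y := by
  have := farPart_nonneg (g := g) hn c₀ ρ J
  have := nearPart_nonneg (g := g) hn C c₀ ρ J y
  unfold gammaJ
  positivity

lemma volume_closedBall_toReal (c : Euc d) {R : ℝ} (hR : 0 ≤ R) :
    (volume (closedBall c R)).toReal = R ^ d * ballVol d := by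
  rw [Measure.addHaar_closedBall volume c hR, ENNReal.toReal_mul, finrank_euclideanSpace_fin,
    ENNReal.toReal_ofReal (pow_nonneg hR d), ballVol]

/-- The integral of the error bound near the centre. -/
lemma lintegral_gammaJ_le (hd : 0 < d) {C ρ G : ℝ} (hC : 0 < C) (hρ : 0 < ρ) (hG : 0 ≤ G)
    {g : Euc d → Euc d} {n : Euc d} (hn : ‖n‖ = 1) (c₀ : Euc d) (J : ℕ) :
    ∫⁻ y in closedBall c₀ (2 * ρ), ENNReal.ofReal (gammaJ C g G n c₀ ρ J y) ≤
      ENNReal.ofReal (ρ * (C * ballVol d * (2 ^ d + C ^ d) * farPart g n c₀ ρ J +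
        C * 2 ^ d * ballVol d * ρ ^ d * G * (1 / 2) ^ J)) := by
  have hV := ballVol_pos (d := d)
  set U := closedBall c₀ (2 * ρ)
  have hUfin : volume U ≠ ∞ := measure_closedBall_lt_top.ne
  have hfin : IsFiniteMeasure (volume.restrict U) :=
    ⟨by rw [Measure.restrict_apply_univ]; exact measure_closedBall_lt_top⟩
  have hterm : ∀ j a, Integrable ((closedBall (gridPt c₀ (boxSide ρ) j a) (C * theta ^ j * ρ)).indicator
      (fun _ => levelExc g n c₀ ρ j a)) (volume.restrict U) :=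
    fun j a => (integrable_const _).indicator measurableSet_closedBall
  have hnear : Integrable (nearPart C g n c₀ ρ J) (volume.restrict U) := by
    unfold nearPart
    exact integrable_finsetSum _ fun j _ => integrable_finsetSum _ fun a _ => hterm j a
  have hnearle : ∫ y in U, nearPart C g n c₀ ρ J y ≤
      C ^ d * ρ ^ d * ballVol d * farPart g n c₀ ρ J := by
    unfold nearPart farPart
    rw [integral_finsetSum _ fun j _ => integrable_finsetSum _ fun a _ => hterm j a, Finset.mul_sum]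
    refine Finset.sum_le_sum fun j _ => ?_
    rw [integral_finsetSum _ fun a _ => hterm j a, Finset.mul_sum, Finset.mul_sum]
    refine Finset.sum_le_sum fun a _ => ?_
    have h0 := levelExc_nonneg (g := g) hn c₀ ρ j a
    have hr : 0 ≤ C * theta ^ j * ρ := by have := theta_pos; positivity
    rw [integral_indicator_const _ measurableSet_closedBall, smul_eq_mul, ← mul_assoc]
    refine mul_le_mul_of_nonneg_right ?_ h0
    calc (volume.restrict U).real (closedBall (gridPt c₀ (boxSide ρ) j a) (C * theta ^ j * ρ))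
        ≤ (volume (closedBall (gridPt c₀ (boxSide ρ) j a) (C * theta ^ j * ρ))).toReal :=
          ENNReal.toReal_mono measure_closedBall_lt_top.ne (Measure.restrict_apply_le _ _)
      _ = C ^ d * ρ ^ d * ballVol d * (theta ^ j) ^ d := by
          rw [volume_closedBall_toReal _ hr]; ring
      _ ≤ C ^ d * ρ ^ d * ballVol d * theta ^ j :=
          mul_le_mul_of_nonneg_left (pow_le_of_le_one (pow_nonneg theta_pos.le j) (theta_pow_le_one j)
            hd.ne') (by positivity)
  have i1 : Integrable (fun y => C * ρ / ρ ^ d * (farPart g n c₀ ρ J + nearPart C g n c₀ ρ J y))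
      (volume.restrict U) := ((integrable_const _).fun_add hnear).const_mul _
  have hint : Integrable (gammaJ C g G n c₀ ρ J) (volume.restrict U) := by
    unfold gammaJ
    exact i1.fun_add (integrable_const _)
  rw [← ofReal_integral_eq_lintegral_ofReal hint
    (ae_of_all _ fun y => gammaJ_nonneg hC.le hρ.le hG hn c₀ J y)]
  refine ENNReal.ofReal_le_ofReal ?_
  unfold gammaJ
  rw [integral_add i1 (integrable_const _), integral_const_mul,
    integral_add (integrable_const _) hnear, setIntegral_const, setIntegral_const, smul_eq_mul,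
    smul_eq_mul, measureReal_def, volume_closedBall_toReal _ (by linarith)]
  have e : ρ * (C * ballVol d * (2 ^ d + C ^ d) * farPart g n c₀ ρ J +
      C * 2 ^ d * ballVol d * ρ ^ d * G * (1 / 2) ^ J) =
      C * ρ / ρ ^ d * ((2 * ρ) ^ d * ballVol d * farPart g n c₀ ρ J +
          C ^ d * ρ ^ d * ballVol d * farPart g n c₀ ρ J) +
        (2 * ρ) ^ d * ballVol d * (C * ρ * G * (1 / 2) ^ J) := by
    rw [mul_pow]; field_simp
  rw [e]
  gcongr

/-- The bump at scale `ρ` is bounded, Lipschitz and supported near its centre. -/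
lemma exists_bumpAt_bounds : ∃ K : ℝ≥0, ∀ (ρ : ℝ) (c₀ : Euc d), 0 < ρ →
    (∀ x, 0 ≤ bumpAt ρ c₀ x ∧ bumpAt ρ c₀ x ≤ (K : ℝ) / ρ ^ d ∧
      (x ∉ ball c₀ ρ → bumpAt ρ c₀ x = 0)) ∧
    LipschitzWith ((K : ℝ) / ρ ^ (d + 1)).toNNReal (bumpAt ρ c₀) := by
  set b : ContDiffBump (0 : Euc d) := ⟨1 / 2, 1, by norm_num, by norm_num⟩
  obtain ⟨L, hL⟩ := (b.contDiff_normed (μ := volume) (n := (1 : ℕ∞))).lipschitzWith_of_hasCompactSupport
    b.hasCompactSupport_normed (by norm_num)
  obtain ⟨B, hB⟩ := b.hasCompactSupport_normed.exists_bound_of_continuous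
    (b.continuous_normed (μ := volume))
  refine ⟨max L B.toNNReal, fun ρ c₀ hρ => ⟨fun x => ⟨?_, ?_, fun hx => ?_⟩, ?_⟩⟩
  · exact mul_nonneg (by positivity) (b.nonneg_normed _)
  · rw [div_eq_inv_mul]
    refine mul_le_mul_of_nonneg_left ?_ (by positivity)
    refine ((Real.le_norm_self _).trans (hB _)).trans ((Real.le_coe_toNNReal B).trans ?_)
    exact_mod_cast le_max_right L B.toNNReal
  · refine mul_eq_zero_of_right _ (Function.notMem_support.1 ?_)
    rw [b.support_normed_eq, mem_ball_zero_iff, norm_smul, Real.norm_eq_abs, abs_inv,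
      abs_of_pos hρ, inv_mul_lt_iff₀ hρ, mul_one]
    rwa [mem_ball_iff_norm] at hx
  · refine LipschitzWith.of_dist_le_mul fun x y => ?_
    rw [Real.coe_toNNReal _ (by positivity), Real.dist_eq]
    show |(ρ ^ d)⁻¹ * _ - (ρ ^ d)⁻¹ * _| ≤ _
    rw [← mul_sub, abs_mul, abs_of_pos (by positivity : (0:ℝ) < (ρ ^ d)⁻¹)]
    have h1 := hL.dist_le_mul (ρ⁻¹ • (x - c₀)) (ρ⁻¹ • (y - c₀))
    rw [Real.dist_eq, dist_smul₀, dist_sub_right, Real.norm_eq_abs, abs_inv, abs_of_pos hρ] at h1
    refine (mul_le_mul_of_nonneg_left h1 (by positivity)).trans ?_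
    have hLK : (L : ℝ) ≤ (max L B.toNNReal : ℝ≥0) := by exact_mod_cast le_max_left L B.toNNReal
    calc (ρ ^ d)⁻¹ * ((L : ℝ) * (ρ⁻¹ * dist x y)) = (L : ℝ) / ρ ^ (d + 1) * dist x y := by
          rw [pow_succ]; field_simp
      _ ≤ _ := by gcongr

lemma measurable_gradient (L : Euc d → ℝ) : Measurable (∇ L) :=
  (InnerProductSpace.toDual ℝ (Euc d)).symm.continuous.measurable.comp (measurable_fderiv ℝ L)

lemma norm_gradient_le {L : Euc d → ℝ} {K : ℝ≥0} (hL : LipschitzWith K L) (x : Euc d) :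
    ‖∇ L x‖ ≤ K := by
  rw [gradient, LinearIsometryEquiv.norm_map]
  exact norm_fderiv_le_of_lipschitz ℝ hL

/-- The excess of the gradient over its component along a unit vector. -/
def gradExc (L : Euc d → ℝ) (n x : Euc d) : ℝ := ‖∇ L x‖ - ⟪∇ L x, n⟫

lemma gradExc_eq {L : Euc d → ℝ} {n x : Euc d} (h : ∇ L x ≠ 0) :
    gradExc L n x = 2 * tilt (-(‖∇ L x‖⁻¹ • ∇ L x)) n * ‖∇ L x‖ := by
  have hne : ‖∇ L x‖ ≠ 0 := norm_ne_zero_iff.2 h
  unfold gradExc tilt
  rw [inner_neg_left, real_inner_smul_left]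
  field_simp
  ring

/-- At every point, the drop to the larger scale is controlled by the error bound. -/
lemma radMax_sub_le (hd : 0 < d) {C : ℝ} (hC : 0 < C) {f : Euc d → ℝ} (hf : Continuous f)
    (hfc : HasCompactSupport f) {G : ℝ} (hG : 0 ≤ G) {ρ : ℝ} (hρ : 0 < ρ) {c₀ n : Euc d}
    (hn : ‖n‖ = 1) {J : ℕ}
    (hdrop : ∀ (R : ℝ) (c x : Euc d), ρ ≤ R → R ≤ 2 * ρ → dist x c ≤ R → dist x c₀ ≤ ρ → ∀ y,
      dist y x ≤ tilt (R⁻¹ • (x - c)) n * ρ / 2 →
      ballAvg (fun z => |f z|) c R - ballAvg (fun z => |f z|)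
          (c + (R * (1 + tilt (R⁻¹ • (x - c)) n / 2)) • n) (2 * R) ≤
        gammaJ C (∇ f) G n c₀ ρ J y)
    {x : Euc d} (hx : dist x c₀ ≤ ρ) :
    radMax f ρ x - radMax f (2 * ρ) x ≤ gammaJ C (∇ f) G n c₀ ρ J x := by
  have hi : Integrable f := hf.integrable_of_hasCompactSupport hfc
  obtain ⟨c, R, hR, hxc, hmax⟩ := exists_maximizer hd hf hfc hρ x
  rcases le_or_gt (2 * ρ) R with h2 | h2
  · have := le_radMax hi (by linarith : 0 < 2 * ρ) h2 hxc
    linarith [gammaJ_nonneg hC.le hρ.le hG (g := ∇ f) hn c₀ J x]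
  have hR0 : 0 < R := hρ.trans_le hR
  set q := R⁻¹ • (x - c) with hq
  have hq1 : ‖q‖ ≤ 1 := by
    rw [hq, norm_smul, Real.norm_eq_abs, abs_inv, abs_of_pos hR0, inv_mul_le_iff₀ hR0, mul_one,
      ← dist_eq_norm]
    exact hxc
  obtain ⟨h0, -⟩ := tilt_mem hn hq1
  have hd' := hdrop R c x hR h2.le hxc hx x (by rw [dist_self, ← hq]; positivity)
  rw [← hq] at hd'
  have hmem : dist x (c + (R * (1 + tilt q n / 2)) • n) ≤ 2 * R := by
    have e : x - (c + (R * (1 + tilt q n / 2)) • n) = R • (q - (1 + tilt q n / 2) • n) := by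
      rw [smul_sub, hq, smul_smul, mul_inv_cancel₀ hR0.ne', one_smul, smul_smul]; abel
    rw [dist_eq_norm, e, norm_smul, Real.norm_eq_abs, abs_of_pos hR0]
    have := norm_sub_smul_le hn hq1
    nlinarith
  linarith [le_radMax hi (by linarith : 0 < 2 * ρ) (by linarith : 2 * ρ ≤ 2 * R) hmem]

/-- The directional part: the excess of the gradient on the set where the scales differ. -/
lemma lintegral_gradExc_le (hd : 0 < d) {C : ℝ} {f : Euc d → ℝ} (hf : Continuous f)
    (hfc : HasCompactSupport f) {G : ℝ} {ρ : ℝ} (hρ : 0 < ρ) {c₀ n : Euc d} (hn : ‖n‖ = 1)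
    {J : ℕ}
    (hdrop : ∀ (R : ℝ) (c x : Euc d), ρ ≤ R → R ≤ 2 * ρ → dist x c ≤ R → dist x c₀ ≤ ρ → ∀ y,
      dist y x ≤ tilt (R⁻¹ • (x - c)) n * ρ / 2 →
      ballAvg (fun z => |f z|) c R - ballAvg (fun z => |f z|)
          (c + (R * (1 + tilt (R⁻¹ • (x - c)) n / 2)) • n) (2 * R) ≤
        gammaJ C (∇ f) G n c₀ ρ J y) :
    ∫⁻ x in ball c₀ ρ ∩ {x | radMax f (2 * ρ) x < radMax f ρ x},
        ENNReal.ofReal (gradExc (radMax f ρ) n x) ≤
      ENNReal.ofReal (8 * d ^ 2 / ρ) *
        ∫⁻ y in closedBall c₀ (2 * ρ), ENNReal.ofReal (gammaJ C (∇ f) G n c₀ ρ J y) := by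
  have hi : Integrable f := hf.integrable_of_hasCompactSupport hfc
  set L := radMax f ρ with hLdef
  have hL := lipschitz_radMax hi hρ
  have hL' := lipschitz_radMax hi (by linarith : 0 < 2 * ρ)
  set Gm := fun y => ENNReal.ofReal (gammaJ C (∇ f) G n c₀ ρ J y)
  set U := closedBall c₀ (2 * ρ)
  have hGm : Measurable (U.indicator Gm) :=
    (measurable_gammaJ _ _ _ _ _ _ _).ennreal_ofReal.indicator measurableSet_closedBall
  have hsd : 0 < Real.sqrt d := Real.sqrt_pos.2 (by exact_mod_cast hd)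
  have hsd1 : 1 ≤ Real.sqrt d := Real.one_le_sqrt.2 (by exact_mod_cast hd)
  set T := fun x => tilt (-(‖∇ L x‖⁻¹ • ∇ L x)) n with hT
  have hgm := measurable_gradient L
  have hTm : Measurable T := by
    simp only [hT, tilt]; fun_prop
  set r := fun x => T x * ρ / (2 * Real.sqrt d) with hr
  have hrm : Measurable r := (hTm.mul_const _).div_const _
  set dir : Fin d × Bool → Euc d := fun p => (if p.2 then (1 : ℝ) else -1) • unitVec p.1
  have hdir : ∀ p, ‖dir p‖ = 1 := fun p => by
    simp only [dir, norm_smul, PiLp.norm_single, norm_one, mul_one]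
    split_ifs <;> simp
  set E : Fin d × Bool → Set (Euc d) := fun p => {x | x ∈ ball c₀ ρ ∧ DifferentiableAt ℝ L x ∧
    radMax f (2 * ρ) x < L x ∧ ∇ L x ≠ 0 ∧ fderiv ℝ L x (dir p) ≤ -(‖∇ L x‖ / Real.sqrt d)} with hE
  have hEm : ∀ p, MeasurableSet (E p) := fun p => by
    refine measurableSet_ball.inter ((measurableSet_of_differentiableAt ℝ L).inter
      ((measurableSet_lt hL'.continuous.measurable hL.continuous.measurable).inter
        (((measurableSet_eq_fun hgm measurable_const).compl).inter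
          (measurableSet_le (measurable_fderiv_apply_const ℝ L _) (by fun_prop)))))
  have maxer : ∀ {x}, DifferentiableAt ℝ L x → ∇ L x ≠ 0 → ∃ c R, ρ ≤ R ∧ dist x c ≤ R ∧
      ballAvg (fun y => |f y|) c R = L x ∧ R⁻¹ • (x - c) = -(‖∇ L x‖⁻¹ • ∇ L x) := by
    intro x hdx hne
    obtain ⟨c, R, hR, hxc, hmax⟩ := exists_maximizer hd hf hfc hρ x
    exact ⟨c, R, hR, hxc, hmax, gradient_radMax_eq hi hρ hR hxc hmax hdx hne⟩
  have unit : ∀ {x}, ∇ L x ≠ 0 → ‖-(‖∇ L x‖⁻¹ • ∇ L x)‖ = 1 := fun {x} hne => by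
    rw [norm_neg]; exact norm_smul_inv_norm hne
  have hslice : ∀ p, ∫⁻ x in E p, ENNReal.ofReal (-fderiv ℝ L x (dir p)) * ENNReal.ofReal (r x) ≤
      ∫⁻ y, U.indicator Gm y := by
    intro p
    set v := dir p with hv
    refine lintegral_slice_le hL v (hEm p) (fun x hx => hx.2.1) hrm hGm ?_ ?_
    · intro x hx h hh hx'
      obtain ⟨-, hdx', -, hne', hle'⟩ := hx'
      obtain ⟨c, R, hR, hxc, hmax, hq⟩ := maxer hdx' hne'
      have hR0 : 0 < R := hρ.trans_le hR
      have hT1 : T x ≤ 1 := (tilt_mem hn (unit hx.2.2.2.1).le).2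
      have hh2 : h ≤ R / Real.sqrt d := by
        refine hh.2.trans ?_
        simp only [hr]
        rw [div_le_div_iff₀ (by positivity) hsd]
        have : T x * ρ ≤ R * 2 := by nlinarith
        nlinarith
      set q := R⁻¹ • (x + h • v - c) with hqdef
      have hqv : 1 / Real.sqrt d ≤ ⟪q, v⟫ := by
        rw [hq, inner_neg_left, real_inner_smul_left, inner_gradient_left]
        have hpos : 0 < ‖∇ L (x + h • v)‖ := norm_pos_iff.2 hne'
        rw [← neg_le_neg_iff, neg_neg, inv_mul_le_iff₀ hpos]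
        refine hle'.trans_eq ?_
        ring
      refine radMax_ge_of_mem hi hρ hR hmax ?_
      have e : x - c = R • q - h • v := by
        rw [hqdef, smul_smul, mul_inv_cancel₀ hR0.ne', one_smul]; abel
      have hq1 : ‖q‖ = 1 := by rw [hq]; exact unit hne'
      rw [dist_eq_norm, e, ← sq_le_sq₀ (norm_nonneg _) hR0.le, norm_sub_sq_real, real_inner_smul_left,
        inner_smul_right, norm_smul R q, norm_smul h v, hdir, hq1, Real.norm_eq_abs, Real.norm_eq_abs,
        abs_of_pos hR0, abs_of_nonneg hh.1]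
      have h1 : h * h ≤ h * (R * ⟪q, v⟫) := by
        refine mul_le_mul_of_nonneg_left (hh2.trans ?_) hh.1
        rw [div_eq_mul_one_div]
        exact mul_le_mul_of_nonneg_left hqv hR0.le
      nlinarith [hh.1]
    · intro x hx h hh _ s hs
      obtain ⟨hxb, hdx, hlt, hne, -⟩ := hx
      obtain ⟨c, R, hR, hxc, hmax, hq⟩ := maxer hdx hne
      have hR0 : 0 < R := hρ.trans_le hR
      have hR2 : R ≤ 2 * ρ := by
        by_contra hcon
        have := le_radMax hi (by linarith : 0 < 2 * ρ) (le_of_lt (not_le.1 hcon)) hxc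
        linarith
      obtain ⟨hT0, hT1⟩ := tilt_mem hn (unit hne).le
      have hrle : r x ≤ T x * ρ / 2 := by
        simp only [hr]
        refine div_le_div_of_nonneg_left (mul_nonneg hT0 hρ.le) two_pos (by linarith)
      have hys : dist (x + s • v) x ≤ T x * ρ / 2 := by
        rw [dist_self_add_left, norm_smul, hdir, mul_one, Real.norm_eq_abs, abs_of_nonneg hs.1]
        exact hs.2.trans hrle
      have hyU : x + s • v ∈ U := by
        refine mem_closedBall.2 ((dist_triangle _ x _).trans ?_)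
        have := (mem_ball.1 hxb).le
        nlinarith
      rw [indicator_of_mem hyU]
      refine ENNReal.ofReal_le_ofReal ?_
      have hd' := hdrop R c x hR hR2 hxc (mem_ball.1 hxb).le (x + s • v) (by rw [hq]; exact hys)
      rw [hq] at hd'
      have hmem : dist (x + h • v) (c + (R * (1 + T x / 2)) • n) ≤ 2 * R := by
        have e : x + h • v - (c + (R * (1 + T x / 2)) • n) =
            R • (-(‖∇ L x‖⁻¹ • ∇ L x) - (1 + T x / 2) • n) + h • v := by
          rw [← hq, smul_sub, smul_smul R R⁻¹, mul_inv_cancel₀ hR0.ne', one_smul,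
            smul_smul R (1 + T x / 2)]
          abel
        rw [dist_eq_norm, e]
        refine (norm_add_le _ _).trans ?_
        rw [norm_smul, norm_smul, hdir, mul_one, Real.norm_eq_abs, Real.norm_eq_abs,
          abs_of_pos hR0, abs_of_nonneg hh.1]
        have h1 : R * ‖-(‖∇ L x‖⁻¹ • ∇ L x) - (1 + T x / 2) • n‖ ≤ R * (2 - T x / 2) :=
          mul_le_mul_of_nonneg_left (norm_sub_smul_le hn (unit hne).le) hR0.le
        nlinarith [hh.2.trans hrle, mul_le_mul_of_nonneg_left hR hT0]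
      have h2 := le_radMax hi (by linarith : 0 < 2 * ρ) (by linarith : 2 * ρ ≤ 2 * R) hmem
      have h3 := radMax_anti hi hρ (by linarith : ρ ≤ 2 * ρ) (x + h • v)
      show L x - L (x + h • v) ≤ _
      rw [hmax] at hd'
      change L x - _ ≤ _ at hd'
      linarith
  have hae : ∀ᵐ x, x ∈ ball c₀ ρ ∩ {x | radMax f (2 * ρ) x < radMax f ρ x} →
      ENNReal.ofReal (gradExc L n x) ≤ ∑ p, (E p).indicator (fun x => ENNReal.ofReal (4 * d / ρ) *
        (ENNReal.ofReal (-fderiv ℝ L x (dir p)) * ENNReal.ofReal (r x))) x := by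
    filter_upwards [hL.ae_differentiableAt] with x hdx hx
    rcases eq_or_ne (∇ L x) 0 with h0 | hne
    · simp [gradExc, h0]
    obtain ⟨i, hi'⟩ : ∃ i, ‖∇ L x‖ ≤ Real.sqrt d * |(∇ L x) i| := by
      have : Nonempty (Fin d) := ⟨⟨0, hd⟩⟩
      obtain ⟨i, hi'⟩ := Finite.exists_max fun i => |(∇ L x) i|
      exact ⟨i, norm_le_sqrt_mul (abs_nonneg _) hi'⟩
    set p : Fin d × Bool := (i, decide ((∇ L x) i < 0))
    have hder : fderiv ℝ L x (dir p) = -|(∇ L x) i| := by
      rw [← inner_gradient_left]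
      simp only [dir, p, inner_smul_right, EuclideanSpace.inner_single_right]
      by_cases hs : (∇ L x) i < 0
      · simp [hs, abs_of_neg hs]
      · simp [hs, abs_of_nonneg (not_lt.1 hs)]
    have hmemE : x ∈ E p := by
      refine ⟨hx.1, hdx, hx.2, hne, ?_⟩
      rw [hder, neg_le_neg_iff, div_le_iff₀' hsd]
      exact hi'
    refine le_trans ?_ (Finset.single_le_sum (f := fun p => (E p).indicator (fun x =>
      ENNReal.ofReal (4 * d / ρ) * (ENNReal.ofReal (-fderiv ℝ L x (dir p)) * ENNReal.ofReal (r x))) x)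
      (fun _ _ => zero_le) (Finset.mem_univ p))
    rw [indicator_of_mem hmemE, hder, neg_neg, ← ENNReal.ofReal_mul (abs_nonneg _),
      ← ENNReal.ofReal_mul (by positivity), gradExc_eq hne]
    refine ENNReal.ofReal_le_ofReal ?_
    have hT0 := (tilt_mem hn (unit hne).le).1
    change 2 * T x * ‖∇ L x‖ ≤ 4 * d / ρ * (|(∇ L x) i| * r x)
    have e : 4 * d / ρ * (|(∇ L x) i| * r x) = 2 * T x * (Real.sqrt d * |(∇ L x) i|) := by
      simp only [hr]
      field_simp
      rw [Real.sq_sqrt (Nat.cast_nonneg d)]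
      ring
    rw [e]
    exact mul_le_mul_of_nonneg_left hi' (by positivity)
  have hS : MeasurableSet (ball c₀ ρ ∩ {x | radMax f (2 * ρ) x < radMax f ρ x}) :=
    measurableSet_ball.inter (measurableSet_lt hL'.continuous.measurable hL.continuous.measurable)
  refine (setLIntegral_mono_ae' hS hae).trans ((setLIntegral_le_lintegral _ _).trans ?_)
  have hmeas : ∀ p, Measurable fun x => ENNReal.ofReal (-fderiv ℝ L x (dir p)) * ENNReal.ofReal (r x) :=
    fun p => ((measurable_fderiv_apply_const ℝ L _).neg.ennreal_ofReal).mul hrm.ennreal_ofReal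
  rw [lintegral_finsetSum _ fun p _ => ((hmeas p).const_mul _).indicator (hEm p)]
  refine (Finset.sum_le_sum (g := fun _ => ENNReal.ofReal (4 * d / ρ) * ∫⁻ y, U.indicator Gm y)
    fun p _ => ?_).trans_eq ?_
  · rw [lintegral_indicator (hEm p), lintegral_const_mul _ (hmeas p)]
    exact mul_le_mul_right (hslice p) _
  · rw [Finset.sum_const, nsmul_eq_mul, ← mul_assoc, lintegral_indicator measurableSet_closedBall]
    congr 1
    rw [← ENNReal.ofReal_natCast, ← ENNReal.ofReal_mul (Nat.cast_nonneg _)]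
    congr 1
    simp [Fintype.card_prod]
    ring

/-- The increase of variation between the scales `ρ` and `2ρ`, weighted near `c₀`. -/
theorem exists_weighted_step_le (hd : 0 < d) : ∃ C : ℝ, 0 < C ∧ ∀ (f : Euc d → ℝ),
    ContDiff ℝ 1 f → HasCompactSupport f → (∀ y, 0 ≤ f y) → ∀ (G : ℝ), (∀ y, ‖∇ f y‖ ≤ G) →
    ∀ (ρ : ℝ) (c₀ : Euc d) (J : ℕ), 0 < ρ →
      ∫ x, bumpAt ρ c₀ x * (‖∇ (radMax f ρ) x‖ - ‖∇ (radMax f (2 * ρ)) x‖) ≤
        C / ρ ^ d * ∑ j ∈ Finset.range J, theta ^ j * excess (∇ f) (boxSide ρ) j c₀ +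
          C * G * (1 / 2) ^ J := by
  obtain ⟨Cd, hCd, hdrop⟩ := exists_drop_le hd
  obtain ⟨K, hK⟩ := exists_bumpAt_bounds (d := d)
  have hV := ballVol_pos (d := d)
  set A₁ := Cd * ballVol d * (2 ^ d + Cd ^ d) with hA₁
  set A₂ := Cd * 2 ^ d * ballVol d with hA₂
  refine ⟨(K : ℝ) * (8 * d ^ 2 + 1) * (A₁ + A₂) + 1, by positivity, ?_⟩
  intro f hf hfc hf0 G hG ρ c₀ J hρ
  have hcf : Continuous f := hf.continuous
  have hG0 : 0 ≤ G := (norm_nonneg _).trans (hG 0)
  have hgc : Continuous (∇ f) :=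
    (InnerProductSpace.toDual ℝ (Euc d)).symm.continuous.comp (hf.continuous_fderiv one_ne_zero)
  have hgs : HasCompactSupport (∇ f) :=
    (hfc.fderiv ℝ).comp_left (g := (InnerProductSpace.toDual ℝ (Euc d)).symm) (map_zero _)
  have hS : 0 < boxSide ρ := by unfold boxSide; linarith
  set w := vec (∇ f) c₀ (boxSide ρ) with hw
  obtain ⟨n, hn, hnw⟩ : ∃ n : Euc d, ‖n‖ = 1 ∧ ⟪w, n⟫ = ‖w‖ := by
    rcases eq_or_ne w 0 with h | h
    · exact ⟨unitVec ⟨0, hd⟩, by simp, by simp [h]⟩
    · refine ⟨‖w‖⁻¹ • w, norm_smul_inv_norm h, ?_⟩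
      rw [inner_smul_right, real_inner_self_eq_norm_sq, sq, ← mul_assoc,
        inv_mul_cancel₀ (norm_ne_zero_iff.2 h), one_mul]
  set X := ∑ j ∈ Finset.range J, theta ^ j * excess (∇ f) (boxSide ρ) j c₀
  have hX : farPart (∇ f) n c₀ ρ J = X := Finset.sum_congr rfl fun j _ => by
    rw [← sum_exc_eq hgc hgs c₀ hS j hnw]; rfl
  have hX0 : 0 ≤ X := hX ▸ farPart_nonneg hn c₀ ρ J
  have hdrop' := fun R c x hR hR2 hxc hx0 =>
    hdrop f hf hfc hf0 G hG ρ R c c₀ x n J hρ hR hR2 hxc hx0 hn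
  have hi : Integrable f := hcf.integrable_of_hasCompactSupport hfc
  have h2ρ : 0 < 2 * ρ := by linarith
  set L := radMax f ρ with hLdef
  set L' := radMax f (2 * ρ) with hL'def
  have hL := lipschitz_radMax hi hρ
  have hL' := lipschitz_radMax hi h2ρ
  obtain ⟨hb, hbL⟩ := hK ρ c₀ hρ
  set b := bumpAt ρ c₀ with hbdef
  have hbc : HasCompactSupport b :=
    HasCompactSupport.of_support_subset_isCompact (isCompact_closedBall c₀ ρ) fun x hx => by
      by_contra h
      exact hx ((hb x).2.2 fun h' => h (ball_subset_closedBall h'))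
  have hbi : Integrable b := hbL.continuous.integrable_of_hasCompactSupport hbc
  set S := {x | L' x < L x} with hSdef
  have hSm : MeasurableSet S := measurableSet_lt hL'.continuous.measurable hL.continuous.measurable
  set Wt := S.indicator (gradExc L n) with hWt
  have hgm := measurable_gradient L
  have hWm : Measurable Wt := by
    refine Measurable.indicator ?_ hSm
    exact hgm.norm.sub (hgm.inner measurable_const)
  have hexc0 : ∀ x, 0 ≤ gradExc L n x := fun x => excN_nonneg _ hn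
  have hWt0 : ∀ x, 0 ≤ Wt x := fun x => indicator_nonneg (fun x _ => hexc0 x) x
  have hWtb : ∀ x, |Wt x| ≤ 2 * (radLip f ρ).toNNReal := fun x => by
    rw [abs_of_nonneg (hWt0 x)]
    refine (indicator_le_self' (fun x _ => hexc0 x) x).trans ?_
    have h1 := abs_le.1 (abs_real_inner_le_norm (∇ L x) n)
    rw [hn, mul_one] at h1
    have := norm_gradient_le hL x
    unfold gradExc
    linarith [h1.1]
  set D := fun x => L x - L' x with hD
  have hDL : LipschitzWith ((radLip f ρ).toNNReal + (radLip f (2 * ρ)).toNNReal) D := hL.sub hL'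
  have i1 : Integrable fun x => b x * Wt x :=
    hbi.mul_bdd hWm.aestronglyMeasurable (ae_of_all _ fun x => by simpa using hWtb x)
  have i2 : Integrable fun x => lineDeriv ℝ D x n * b x :=
    hbi.bdd_mul (measurable_lineDeriv hDL.continuous).aestronglyMeasurable
      (ae_of_all _ fun x => norm_lineDeriv_le_of_lipschitz ℝ hDL)
  have i3 : Integrable fun x => b x * (‖∇ L x‖ - ‖∇ L' x‖) :=
    hbi.mul_bdd (hgm.norm.sub (measurable_gradient L').norm).aestronglyMeasurable
      (c := ((radLip f ρ).toNNReal : ℝ) + (radLip f (2 * ρ)).toNNReal) (ae_of_all _ fun x => by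
        refine (abs_sub _ _).trans (add_le_add ?_ ?_) <;> rw [abs_norm]
        exacts [norm_gradient_le hL x, norm_gradient_le hL' x])
  have hae : ∀ᵐ x, b x * (‖∇ L x‖ - ‖∇ L' x‖) ≤ b x * Wt x + lineDeriv ℝ D x n * b x := by
    filter_upwards [hL.ae_differentiableAt, hL'.ae_differentiableAt] with x h1 h2
    rw [mul_comm (lineDeriv ℝ D x n), ← mul_add]
    refine mul_le_mul_of_nonneg_left ?_ (hb x).1
    have hld : lineDeriv ℝ D x n = ⟪∇ L x, n⟫ - ⟪∇ L' x, n⟫ := by
      rw [(h1.fun_sub h2).lineDeriv_eq_fderiv, fderiv_fun_sub h1 h2, inner_gradient_left,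
        inner_gradient_left]
      rfl
    rw [hld]
    rcases eq_or_lt_of_le (radMax_anti hi hρ (by linarith : ρ ≤ 2 * ρ) x) with heq | hlt
    · have hmin : IsLocalMin D x := Eventually.of_forall fun y => by
        simp only [hD, hLdef, hL'def]
        rw [heq, sub_self]
        linarith [radMax_anti hi hρ (by linarith : ρ ≤ 2 * ρ) y]
      have h0 := hmin.fderiv_eq_zero
      rw [fderiv_fun_sub h1 h2, sub_eq_zero] at h0
      have hgr : ∇ L x = ∇ L' x := by rw [gradient, gradient, h0]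
      have hx : x ∉ S := fun h => by
        have h' : L' x < L x := h
        linarith
      rw [hgr, hWt, indicator_of_notMem hx]; linarith
    · have h3 := real_inner_le_norm (∇ L' x) n
      rw [hn, mul_one] at h3
      rw [hWt, indicator_of_mem (show x ∈ S from hlt)]
      unfold gradExc
      linarith
  set Γ := ∫⁻ y in closedBall c₀ (2 * ρ), ENNReal.ofReal (gammaJ Cd (∇ f) G n c₀ ρ J y)
  set Y := ρ * (A₁ * X + A₂ * ρ ^ d * G * (1 / 2) ^ J) with hY
  have hΓ : Γ ≤ ENNReal.ofReal Y := by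
    have := lintegral_gammaJ_le hd hCd hρ hG0 (g := ∇ f) hn c₀ J
    rwa [hX] at this
  have hY0 : 0 ≤ Y := by positivity
  have hI1 : ∫ x, b x * Wt x ≤ (K : ℝ) / ρ ^ d * (8 * d ^ 2 / ρ) * Y := by
    have h := lintegral_gradExc_le hd hcf hfc hρ hn hdrop'
    rw [← ENNReal.ofReal_le_ofReal_iff (by positivity),
      ofReal_integral_eq_lintegral_ofReal i1 (ae_of_all _ fun x => mul_nonneg (hb x).1 (hWt0 x))]
    calc ∫⁻ x, ENNReal.ofReal (b x * Wt x)
        ≤ ∫⁻ x, (ball c₀ ρ ∩ S).indicator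
            (fun x => ENNReal.ofReal ((K : ℝ) / ρ ^ d) * ENNReal.ofReal (gradExc L n x)) x := by
          refine lintegral_mono fun x => ?_
          by_cases hx : x ∈ ball c₀ ρ ∩ S
          · rw [indicator_of_mem hx, hWt, indicator_of_mem hx.2, ← ENNReal.ofReal_mul (by positivity)]
            exact ENNReal.ofReal_le_ofReal (mul_le_mul_of_nonneg_right (hb x).2.1 (hexc0 x))
          · rw [indicator_of_notMem hx]
            rcases not_and_or.1 hx with h' | h'
            · simp [(hb x).2.2 h']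
            · simp [hWt, indicator_of_notMem h']
      _ = ENNReal.ofReal ((K : ℝ) / ρ ^ d) *
            ∫⁻ x in ball c₀ ρ ∩ S, ENNReal.ofReal (gradExc L n x) := by
          rw [lintegral_indicator (measurableSet_ball.inter hSm),
            lintegral_const_mul' _ _ ENNReal.ofReal_ne_top]
      _ ≤ ENNReal.ofReal ((K : ℝ) / ρ ^ d) * (ENNReal.ofReal (8 * d ^ 2 / ρ) * ENNReal.ofReal Y) :=
          mul_le_mul_right (h.trans (mul_le_mul_right hΓ _)) _
      _ = _ := by
          rw [← mul_assoc, ← ENNReal.ofReal_mul (by positivity), ← ENNReal.ofReal_mul (by positivity)]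
  have hI2 : ∫ x, lineDeriv ℝ D x n * b x ≤ (K : ℝ) / ρ ^ (d + 1) * Y := by
    rw [LipschitzWith.integral_lineDeriv_mul_eq hDL hbL hbc n]
    refine (le_abs_self _).trans ((abs_integral_le_integral_abs).trans ?_)
    have hzero : ∀ x, x ∉ closedBall c₀ ρ → lineDeriv ℝ b x (-n) = 0 := by
      intro x hx
      have hev : b =ᶠ[𝓝 x] fun _ => (0 : ℝ) := by
        filter_upwards [isClosed_closedBall.isOpen_compl.mem_nhds hx] with y hy
        exact (hb y).2.2 fun h' => hy (ball_subset_closedBall h')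
      rw [hev.lineDeriv_eq]
      simp [lineDeriv]
    have hsub : closedBall c₀ ρ ⊆ closedBall c₀ (2 * ρ) := closedBall_subset_closedBall (by linarith)
    have hle : ∀ x, |lineDeriv ℝ b x (-n) * D x| ≤ (closedBall c₀ ρ).indicator
        (fun x => (K : ℝ) / ρ ^ (d + 1) * gammaJ Cd (∇ f) G n c₀ ρ J x) x := by
      intro x
      by_cases hx : x ∈ closedBall c₀ ρ
      · rw [indicator_of_mem hx, abs_mul]
        refine mul_le_mul ?_ ?_ (abs_nonneg _) (by positivity)
        · have := norm_lineDeriv_le_of_lipschitz ℝ hbL (x₀ := x) (v := -n)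
          rwa [norm_neg, hn, mul_one, Real.coe_toNNReal _ (by positivity), Real.norm_eq_abs] at this
        · rw [abs_of_nonneg (sub_nonneg.2 (radMax_anti hi hρ (by linarith) x))]
          exact radMax_sub_le hd hCd hcf hfc hG0 hρ hn hdrop' (mem_closedBall.1 hx)
      · rw [indicator_of_notMem hx, hzero x hx]; simp
    rw [← ENNReal.ofReal_le_ofReal_iff (by positivity)]
    refine (le_of_eq_of_le ?_ (?_ : ∫⁻ x, ENNReal.ofReal |lineDeriv ℝ b x (-n) * D x| ≤ _))
    · refine ofReal_integral_eq_lintegral_ofReal ?_ (ae_of_all _ fun x => abs_nonneg _)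
      have hDi : IntegrableOn D (closedBall c₀ ρ) :=
        hDL.continuous.continuousOn.integrableOn_compact (isCompact_closedBall _ _)
      have := hDi.bdd_mul (c := ((((K : ℝ) / ρ ^ (d + 1)).toNNReal : ℝ≥0) : ℝ) * ‖-n‖)
        (measurable_lineDeriv hbL.continuous (v := -n)).aestronglyMeasurable
        (ae_of_all _ fun x => norm_lineDeriv_le_of_lipschitz ℝ hbL)
      exact (IntegrableOn.integrable_of_forall_notMem_eq_zero this
        fun x hx => by rw [hzero x hx, zero_mul]).abs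
    calc ∫⁻ x, ENNReal.ofReal |lineDeriv ℝ b x (-n) * D x|
        ≤ ∫⁻ x, (closedBall c₀ (2 * ρ)).indicator (fun x => ENNReal.ofReal ((K : ℝ) / ρ ^ (d + 1)) *
            ENNReal.ofReal (gammaJ Cd (∇ f) G n c₀ ρ J x)) x := by
          refine lintegral_mono fun x => (ENNReal.ofReal_le_ofReal (hle x)).trans ?_
          by_cases hx : x ∈ closedBall c₀ ρ
          · rw [indicator_of_mem hx, indicator_of_mem (hsub hx), ← ENNReal.ofReal_mul (by positivity)]
          · rw [indicator_of_notMem hx, ENNReal.ofReal_zero]; exact zero_le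
      _ = ENNReal.ofReal ((K : ℝ) / ρ ^ (d + 1)) * Γ := by
          rw [lintegral_indicator measurableSet_closedBall,
            lintegral_const_mul' _ _ ENNReal.ofReal_ne_top]
      _ ≤ _ := (mul_le_mul_right hΓ _).trans_eq (ENNReal.ofReal_mul (by positivity)).symm
  calc ∫ x, b x * (‖∇ L x‖ - ‖∇ L' x‖)
      ≤ ∫ x, (b x * Wt x + lineDeriv ℝ D x n * b x) := integral_mono_ae i3 (i1.fun_add i2) hae
    _ = (∫ x, b x * Wt x) + ∫ x, lineDeriv ℝ D x n * b x := integral_add i1 i2
    _ ≤ (K : ℝ) / ρ ^ d * (8 * d ^ 2 / ρ) * Y + (K : ℝ) / ρ ^ (d + 1) * Y := add_le_add hI1 hI2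
    _ = (K : ℝ) * (8 * d ^ 2 + 1) * A₁ / ρ ^ d * X +
          (K : ℝ) * (8 * d ^ 2 + 1) * A₂ * G * (1 / 2) ^ J := by
        rw [hY, pow_succ]; field_simp; ring
    _ ≤ _ := by
        have hK0 : (0 : ℝ) ≤ K := K.2
        have hd0 : (0 : ℝ) ≤ 8 * (d : ℝ) ^ 2 + 1 := by positivity
        have h1 : 0 ≤ (K : ℝ) * (8 * d ^ 2 + 1) * A₁ := by positivity
        have h2 : 0 ≤ (K : ℝ) * (8 * d ^ 2 + 1) * A₂ := by positivity
        gcongr <;> nlinarith

end Vale.Agent.P137
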