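import Vale.Agent.P137.Core

/-!
# P137: the drop from a maximal ball to the comparison ball
-/

open MeasureTheory Filter Set Metric Finset
open scoped ENNReal NNReal Topology RealInnerProductSpace Gradient

noncomputable section

namespace Vale.Agent.P137

variable {d : ℕ}

/-- The slope constant of the step fields. -/
def stepK (d : ℕ) : ℝ := 50 * Real.sqrt d

/-- The step field value attached to a point, at level `j`. -/
def stepVal (n : Euc d) (t : ℝ) (c : Euc d) (R s : ℝ) (j : ℕ) (p : Euc d) : Euc d :=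
  if ‖relPos n t (R⁻¹ • (p - c)) s‖ ≤ 1 - stepK d * (1 / 2) ^ j then
    t • n + relPos n t (R⁻¹ • (p - c)) s - (stepK d * (1 / 2) ^ j) • n
  else 0

/-- The step field of level `j`. -/
def stepField (n : Euc d) (t : ℝ) (c c₀ : Euc d) (R S s : ℝ) (j : ℕ) (z : Euc d) : Euc d :=
  stepVal n t c R s j (gridPt c₀ S j (cellOf c₀ S j z))

lemma one_le_sqrt_nat (hd : 0 < d) : 1 ≤ Real.sqrt d := by
  rw [← Real.sqrt_one]; exact Real.sqrt_le_sqrt (by exact_mod_cast hd)

lemma one_lt_stepK (hd : 0 < d) : 1 < stepK d := by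
  unfold stepK; linarith [one_le_sqrt_nat hd]

lemma stepK_nonneg : 0 ≤ stepK d := by unfold stepK; positivity

lemma relPos_eq (n c p : Euc d) (t : ℝ) {R s : ℝ} (hR : 0 < R) :
    relPos n t (R⁻¹ • (p - c)) s = ((1 + s) * R)⁻¹ • (p - (c + (s * R * t) • n)) := by
  rw [relPos, mul_inv, mul_smul (1 + s)⁻¹ R⁻¹]
  congr 1
  rw [← sub_sub, smul_sub R⁻¹ (p - c), smul_smul R⁻¹]
  congr 2
  field_simp

lemma norm_relPos_sub_le (n c p p' : Euc d) (t : ℝ) {R ρ s : ℝ} (hρ : 0 < ρ) (hR : ρ ≤ R)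
    (hs : 0 ≤ s) :
    ‖relPos n t (R⁻¹ • (p - c)) s - relPos n t (R⁻¹ • (p' - c)) s‖ ≤ ‖p - p'‖ / ρ := by
  have hR0 : 0 < R := hρ.trans_le hR
  rw [relPos_eq n c p t hR0, relPos_eq n c p' t hR0, ← smul_sub, sub_sub_sub_cancel_right,
    norm_smul, Real.norm_eq_abs, abs_of_nonneg (by positivity), div_eq_inv_mul]
  refine mul_le_mul_of_nonneg_right (inv_anti₀ hρ ?_) (norm_nonneg _)
  nlinarith

variable {f : Euc d → ℝ}

lemma continuous_gradient (hf : ContDiff ℝ 1 f) : Continuous (∇ f) :=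
  (InnerProductSpace.toDual ℝ (Euc d)).symm.continuous.comp (hf.continuous_fderiv one_ne_zero)

lemma hasCompactSupport_gradient (hfc : HasCompactSupport f) : HasCompactSupport (∇ f) :=
  (hfc.fderiv ℝ).comp_left (g := fun L => (InnerProductSpace.toDual ℝ (Euc d)).symm L) (map_zero _)

/-- The drop of averages as an integral over the interpolating balls. -/
lemma drop_eq_integral (hf : ContDiff ℝ 1 f) {G : ℝ} (hG : ∀ y, ‖∇ f y‖ ≤ G) (c n : Euc d) (t : ℝ)
    {R : ℝ} (hR : 0 < R) :
    Integrable (fun s => ballAvg (fun z => -⟪∇ f z, t • n + relPos n t (R⁻¹ • (z - c)) s⟫)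
      (c + (s * R * t) • n) ((1 + s) * R)) (volume.restrict (Ioc (0 : ℝ) 1)) ∧
    ballAvg f c R - ballAvg f (c + (R * t) • n) (2 * R) =
      R * ∫ s in Ioc (0 : ℝ) 1, ballAvg (fun z => -⟪∇ f z, t • n + relPos n t (R⁻¹ • (z - c)) s⟫)
        (c + (s * R * t) • n) ((1 + s) * R) := by
  have hgc := continuous_gradient hf
  set Φ : ℝ → Euc d → ℝ := fun s u =>
    -⟪∇ f (c + (s * R * t) • n + ((1 + s) * R) • u), t • n + u⟫ with hΦ
  have hcont : Continuous fun p : ℝ × Euc d => Φ p.1 p.2 := by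
    simp only [hΦ]
    exact ((hgc.comp (by fun_prop)).inner (by fun_prop)).neg
  have : IsFiniteMeasure (volume.restrict (ball (0 : Euc d) 1)) :=
    ⟨by rw [Measure.restrict_apply_univ]; exact measure_ball_lt_top⟩
  have hint : Integrable (fun p : ℝ × Euc d => Φ p.1 p.2)
      ((volume.restrict (Ioc (0 : ℝ) 1)).prod (volume.restrict (ball (0 : Euc d) 1))) := by
    refine Integrable.of_bound hcont.aestronglyMeasurable (G * (|t| * ‖n‖ + 1)) ?_
    have hmem : ∀ᵐ p ∂(volume.restrict (Ioc (0 : ℝ) 1)).prod (volume.restrict (ball (0 : Euc d) 1)),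
        p.2 ∈ ball (0 : Euc d) 1 :=
      Measure.quasiMeasurePreserving_snd.ae (ae_restrict_mem measurableSet_ball)
    filter_upwards [hmem] with p hp
    rw [Real.norm_eq_abs, abs_neg]
    refine (abs_real_inner_le_norm _ _).trans (mul_le_mul (hG _) ?_ (norm_nonneg _)
      ((norm_nonneg _).trans (hG c)))
    refine (norm_add_le _ _).trans ?_
    rw [norm_smul, Real.norm_eq_abs]
    linarith [mem_ball_zero_iff.1 hp]
  have heq : ∀ s ∈ Ioc (0 : ℝ) 1,
      ballAvg (fun z => -⟪∇ f z, t • n + relPos n t (R⁻¹ • (z - c)) s⟫)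
        (c + (s * R * t) • n) ((1 + s) * R) =
      (ballVol d)⁻¹ * ∫ u in ball (0 : Euc d) 1, Φ s u := by
    intro s hs
    have hRs : 0 < (1 + s) * R := by have := hs.1; positivity
    rw [ballAvg_eq_unit _ _ hRs]
    congr 1
    refine setIntegral_congr_fun measurableSet_ball fun u _ => ?_
    rw [relPos_eq n c _ t hR, add_sub_cancel_left, smul_smul, inv_mul_cancel₀ hRs.ne', one_smul]
  refine ⟨(hint.integral_prod_left.const_mul (ballVol d)⁻¹).congr ?_, ?_⟩
  · filter_upwards [ae_restrict_mem measurableSet_Ioc] with s hs using (heq s hs).symm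
  rw [setIntegral_congr_fun measurableSet_Ioc heq, integral_const_mul, ballAvg_eq_unit f _ hR,
    ballAvg_eq_unit f _ (by linarith : (0 : ℝ) < 2 * R), integral_integral_swap (f := Φ) hint,
    ← mul_sub, ← integral_sub, mul_left_comm R]
  · congr 1
    rw [← integral_const_mul]
    refine setIntegral_congr_fun measurableSet_ball fun u _ => ?_
    set γ : ℝ → Euc d := fun s => c + (s * R * t) • n + ((1 + s) * R) • u with hγ
    have hderiv : ∀ s : ℝ, HasDerivAt (fun s => f (γ s)) (R * -Φ s u) s := by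
      intro s
      have h1 : HasDerivAt γ ((R * t) • n + R • u) s := by
        have a := (((hasDerivAt_id' s).mul_const R).mul_const t).smul_const n
        have b := ((((hasDerivAt_id' s).const_add 1).mul_const R)).smul_const u
        simpa [hγ] using (a.const_add c).fun_add b
      have h2 := ((hf.differentiable one_ne_zero (γ s)).hasFDerivAt).comp_hasDerivAt s h1
      rw [← inner_gradient_left] at h2
      have e : R * -Φ s u = ⟪∇ f (γ s), (R * t) • n + R • u⟫ := by
        simp only [hΦ, hγ, neg_neg, inner_add_right, real_inner_smul_right]; ring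
      rw [e]
      exact h2
    have hc2 : Continuous fun s => R * -Φ s u :=
      continuous_const.mul (hcont.comp (by fun_prop : Continuous fun s : ℝ => (s, u))).neg
    have h := intervalIntegral.integral_eq_sub_of_hasDerivAt (fun s _ => hderiv s)
      (hc2.intervalIntegrable 0 1)
    rw [intervalIntegral.integral_of_le zero_le_one] at h
    have e0 : γ 0 = c + R • u := by simp [hγ]
    have e1 : γ 1 = c + (R * t) • n + (2 * R) • u := by simp [hγ, one_add_one_eq_two]
    rw [e0, e1] at h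
    have h' : ∫ s in Ioc (0 : ℝ) 1, R * -Φ s u = -(R * ∫ s in Ioc (0 : ℝ) 1, Φ s u) := by
      rw [integral_const_mul, integral_neg, mul_neg]
    rw [h'] at h
    linarith
  all_goals
    refine IntegrableOn.mono_set (ContinuousOn.integrableOn_compact (isCompact_closedBall _ _)
      (Continuous.continuousOn ?_)) ball_subset_closedBall
    exact hf.continuous.comp (by fun_prop)

variable {c c₀ n : Euc d} {ρ R t s : ℝ}

lemma ball_interp_subset_box (hρ : 0 < ρ) (hR : ρ ≤ R) (hR2 : R ≤ 2 * ρ) (hc : dist c c₀ ≤ 3 * ρ)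
    (hn : ‖n‖ = 1) (ht : t ∈ Icc (1 : ℝ) (3 / 2)) (hs : s ∈ Icc (0 : ℝ) 1) :
    ball (c + (s * R * t) • n) ((1 + s) * R) ⊆ box c₀ (boxSide ρ) := by
  intro z hz i
  have hz' := mem_ball.1 hz
  obtain ⟨ht0, ht1⟩ := ht
  obtain ⟨hs0, hs1⟩ := hs
  have h1 : dist (c + (s * R * t) • n) c = s * R * t := by
    rw [dist_self_add_left, norm_smul, hn, mul_one, Real.norm_eq_abs]
    exact abs_of_nonneg (by have : 0 ≤ R := hρ.le.trans hR; positivity)
  have h2 := dist_triangle4 z (c + (s * R * t) • n) c c₀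
  have h3 : s * R * t ≤ R * (3 / 2) := by
    have : s * R ≤ R := mul_le_of_le_one_left (hρ.le.trans hR) hs1
    exact mul_le_mul this ht1 (by linarith) (hρ.le.trans hR)
  have h4 : (1 + s) * R ≤ 2 * R := mul_le_mul_of_nonneg_right (by linarith) (hρ.le.trans hR)
  have h5 := PiLp.norm_apply_le (z - c₀) i
  rw [Real.norm_eq_abs, ← dist_eq_norm, PiLp.sub_apply] at h5
  have := abs_le.1 h5
  rw [Set.mem_Ico, boxSide]
  constructor <;> linarith

lemma stepField_zero (hd : 0 < d) (S : ℝ) (z : Euc d) : stepField n t c c₀ R S s 0 z = 0 := by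
  rw [stepField, stepVal, if_neg]
  rw [pow_zero, mul_one, not_le]
  linarith [norm_nonneg (relPos n t (R⁻¹ • (gridPt c₀ S 0 (cellOf c₀ S 0 z) - c)) s), one_lt_stepK hd]

/-- Bound for the change of the step value from a parent to a child. -/
lemma neg_inner_stepVal_le (hρ : 0 < ρ) (hR : ρ ≤ R) (hn : ‖n‖ = 1) (ht : t ∈ Icc (1 : ℝ) (3 / 2))
    (hs : s ∈ Icc (0 : ℝ) 1) (j : ℕ) {p p' : Euc d} (v : Euc d)
    (hpp : ‖p' - p‖ ≤ Real.sqrt d * (boxSide ρ / 2 ^ (j + 1))) :
    -⟪v, stepVal n t c R s (j + 1) p' - stepVal n t c R s j p⟫ ≤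
      (stepK d * (1 / 2) ^ (j + 1) +
        2 * (bandSet n t (2 * stepK d * (1 / 2) ^ j) (R⁻¹ • (p' - c))).indicator 1 s) * excN v n := by
  have he := excN_nonneg v hn
  have hK := stepK_nonneg (d := d)
  set u := relPos n t (R⁻¹ • (p - c)) s with hu
  set u' := relPos n t (R⁻¹ • (p' - c)) s with hu'
  set b := stepK d * (1 / 2) ^ (j + 1) with hb
  have hb2 : stepK d * (1 / 2) ^ j = 2 * b := by rw [hb, pow_succ]; ring
  have hb0 : 0 ≤ b := by rw [hb]; positivity
  have huu : ‖u' - u‖ ≤ b := by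
    refine (norm_relPos_sub_le n c p' p t hρ hR hs.1).trans ?_
    rw [div_le_iff₀ hρ]
    refine hpp.trans ?_
    rw [hb, boxSide, stepK, one_div_pow]
    have : Real.sqrt d * (24 * ρ / 2 ^ (j + 1)) = 24 * (Real.sqrt d * (1 / 2 ^ (j + 1)) * ρ) := by ring
    rw [this]
    have h0 : 0 ≤ Real.sqrt d * (1 / 2 ^ (j + 1)) * ρ := by positivity
    linarith
  have hind : (0 : ℝ) ≤ (bandSet n t (2 * stepK d * (1 / 2) ^ j) (R⁻¹ • (p' - c))).indicator 1 s :=
    Set.indicator_nonneg (fun _ _ => zero_le_one) s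
  simp only [stepVal, ← hu, ← hu', ← hb, hb2]
  have hfac : ∀ δ, δ ≤ b + 2 * (bandSet n t (2 * stepK d * (1 / 2) ^ j) (R⁻¹ • (p' - c))).indicator 1 s →
      δ * (‖v‖ - ⟪v, n⟫) ≤ _ := fun δ hδ => mul_le_mul_of_nonneg_right hδ he
  by_cases h' : ‖u'‖ ≤ 1 - b
  · by_cases h : ‖u‖ ≤ 1 - 2 * b
    · rw [if_pos h', if_pos h]
      refine (neg_inner_le (n := n) (δ := b) ?_).trans (hfac b (by linarith))
      rw [show t • n + u' - b • n - (t • n + u - (2 * b) • n) - b • n = u' - u by
        rw [two_mul, add_smul]; abel]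
      exact huu
    · rw [if_pos h', if_neg h, sub_zero]
      have hband : s ∈ bandSet n t (2 * stepK d * (1 / 2) ^ j) (R⁻¹ • (p' - c)) := by
        refine ⟨hs, ?_, h'.trans (by linarith)⟩
        rw [← hu', mul_assoc, hb2]
        push Not at h
        have := norm_sub_norm_le u u'
        rw [norm_sub_rev] at this
        linarith
      refine (neg_inner_le (n := n) (δ := t) ?_).trans (hfac t ?_)
      · rw [show t • n + u' - b • n - t • n = u' - b • n by abel]
        refine (norm_sub_le _ _).trans ?_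
        rw [norm_smul, hn, Real.norm_eq_abs, abs_of_nonneg hb0]
        linarith [ht.1]
      · rw [Set.indicator_of_mem hband, Pi.one_apply]
        linarith [ht.2]
  · by_cases h : ‖u‖ ≤ 1 - 2 * b
    · exact absurd (by linarith [norm_sub_norm_le u' u] : ‖u'‖ ≤ 1 - b) h'
    · rw [if_neg h', if_neg h, sub_zero, inner_zero_right, neg_zero]
      exact mul_nonneg (by linarith) he

/-- The error of the step approximation. -/
lemma norm_stepVal_sub_le (hd : 0 < d) (hρ : 0 < ρ) (hR : ρ ≤ R) (hn : ‖n‖ = 1) (ht : t ∈ Icc (1 : ℝ) (3 / 2))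
    (hs : s ∈ Icc (0 : ℝ) 1) (J : ℕ) {z p : Euc d}
    (hzp : ‖z - p‖ ≤ Real.sqrt d * (boxSide ρ / 2 ^ (J + 1))) :
    ‖(ball (c + (s * R * t) • n) ((1 + s) * R)).indicator
        (fun z => t • n + relPos n t (R⁻¹ • (z - c)) s) z - stepVal n t c R s J p‖ ≤
      2 * stepK d * (1 / 2) ^ J + 3 * (ball (c + (s * R * t) • n) ((1 + s) * R) \
        ball (c + (s * R * t) • n) ((1 - 2 * stepK d * (1 / 2) ^ J) * ((1 + s) * R))).indicator 1 z := by
  have hR0 : 0 < R := hρ.trans_le hR
  have hRs : 0 < (1 + s) * R := by have := hs.1; positivity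
  have hK := stepK_nonneg (d := d)
  set u := relPos n t (R⁻¹ • (z - c)) s with hu
  set u' := relPos n t (R⁻¹ • (p - c)) s with hu'
  set b := stepK d * (1 / 2) ^ J with hb
  have hbpos : 0 < b := by rw [hb]; have := one_lt_stepK hd; positivity
  have hb0 : 0 ≤ b := hbpos.le
  have huu : ‖u - u'‖ ≤ b / 2 := by
    refine (norm_relPos_sub_le n c z p t hρ hR hs.1).trans ?_
    rw [div_le_iff₀ hρ]
    refine hzp.trans ?_
    rw [hb, boxSide, stepK, one_div_pow, pow_succ]
    have : Real.sqrt d * (24 * ρ / (2 ^ J * 2)) = 12 * (Real.sqrt d * (1 / 2 ^ J) * ρ) := by ring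
    rw [this]
    have h0 : 0 ≤ Real.sqrt d * (1 / 2 ^ J) * ρ := by positivity
    linarith
  have hnu : dist z (c + (s * R * t) • n) = ((1 + s) * R) * ‖u‖ := by
    rw [hu, relPos_eq n c z t hR0, norm_smul, Real.norm_eq_abs, abs_inv, abs_of_pos hRs,
      ← mul_assoc, mul_inv_cancel₀ hRs.ne', one_mul, dist_eq_norm]
  have hmem : ∀ r, z ∈ ball (c + (s * R * t) • n) (r * ((1 + s) * R)) ↔ ‖u‖ < r := fun r => by
    rw [mem_ball, hnu, mul_comm r, mul_lt_mul_iff_of_pos_left hRs]
  have hmem1 : z ∈ ball (c + (s * R * t) • n) ((1 + s) * R) ↔ ‖u‖ < 1 := by simpa using hmem 1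
  have hi := Set.indicator_nonneg (s := ball (c + (s * R * t) • n) ((1 + s) * R) \
    ball (c + (s * R * t) • n) ((1 - 2 * stepK d * (1 / 2) ^ J) * ((1 + s) * R)))
    (f := (1 : Euc d → ℝ)) (fun _ _ => zero_le_one) z
  rw [show 2 * stepK d * (1 / 2) ^ J = 2 * b by rw [hb]; ring] at hi ⊢
  simp only [stepVal, ← hu', ← hb]
  by_cases h : ‖u'‖ ≤ 1 - b
  · rw [if_pos h]
    have hlt : ‖u‖ < 1 := by linarith [norm_sub_norm_le u u']
    rw [Set.indicator_of_mem (hmem1.2 hlt), ← hu,
      show t • n + u - (t • n + u' - b • n) = (u - u') + b • n by abel]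
    refine (norm_add_le _ _).trans ?_
    rw [norm_smul, hn, Real.norm_eq_abs, abs_of_nonneg hb0]
    linarith
  · rw [if_neg h, sub_zero]
    by_cases hin : ‖u‖ < 1
    · have hband : z ∈ ball (c + (s * R * t) • n) ((1 + s) * R) \
          ball (c + (s * R * t) • n) ((1 - 2 * b) * ((1 + s) * R)) := by
        refine ⟨hmem1.2 hin, fun hh => h ?_⟩
        have := (hmem _).1 hh
        linarith [norm_sub_norm_le u' u, norm_sub_rev u u']
      rw [Set.indicator_of_mem (hmem1.2 hin), Set.indicator_of_mem hband, Pi.one_apply, ← hu]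
      refine (norm_add_le _ _).trans ?_
      rw [norm_smul, hn, Real.norm_eq_abs, abs_of_nonneg (by linarith [ht.1])]
      linarith [ht.2]
    · rw [Set.indicator_of_notMem (fun hh => hin (hmem1.1 hh)), norm_zero]
      positivity

omit c₀ n in
lemma volume_annulus_le (hd : 0 < d) (c' : Euc d) {r b : ℝ} (hr : 0 < r) (hb : 0 ≤ b) :
    (volume (ball c' r \ ball c' ((1 - b) * r))).toReal ≤ d * b * (r ^ d * ballVol d) := by
  have hV : 0 < ballVol d := ballVol_pos
  rcases le_or_gt 1 b with h1 | h1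
  · rw [ball_eq_empty.2 (mul_nonpos_of_nonpos_of_nonneg (by linarith) hr.le), Set.sdiff_empty,
      volume_ball_toReal c' hr]
    refine le_mul_of_one_le_left (by positivity) ?_
    have : (1 : ℝ) ≤ d := by exact_mod_cast hd
    nlinarith
  · have hr' : 0 < (1 - b) * r := by nlinarith
    rw [measure_sdiff (ball_subset_ball (by nlinarith)) measurableSet_ball.nullMeasurableSet
        measure_ball_lt_top.ne,
      ENNReal.toReal_sub_of_le (measure_mono (ball_subset_ball (by nlinarith)))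
        measure_ball_lt_top.ne, volume_ball_toReal c' hr, volume_ball_toReal c' hr', mul_pow]
    have h := one_add_mul_le_pow (a := -b) (by linarith) d
    rw [← sub_eq_add_neg] at h
    nlinarith [mul_le_mul_of_nonneg_right h (by positivity : 0 ≤ r ^ d * ballVol d)]

omit c₀ n in
lemma measurableSet_bandSet (n : Euc d) (t b : ℝ) (e : Euc d) :
    MeasurableSet (bandSet n t b e) := by
  have hm : Measurable fun s : ℝ => ‖relPos n t e s‖ := by unfold relPos; fun_prop
  exact measurableSet_Icc.inter (hm measurableSet_Ioc)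

/-- The bound at a fixed time. -/
lemma inner_sum_le (hd : 0 < d) {g : Euc d → Euc d} (hg : Continuous g) (hgc : HasCompactSupport g)
    {G : ℝ} (hG : ∀ y, ‖g y‖ ≤ G) (hρ : 0 < ρ) (hR : ρ ≤ R) (hR2 : R ≤ 2 * ρ)
    (hc : dist c c₀ ≤ 3 * ρ) (hn : ‖n‖ = 1) (ht : t ∈ Icc (1 : ℝ) (3 / 2)) (hs : s ∈ Icc (0 : ℝ) 1)
    (J : ℕ) :
    ∫ z in ball (c + (s * R * t) • n) ((1 + s) * R),
        -⟪g z, t • n + relPos n t (R⁻¹ • (z - c)) s⟫ ≤
      (∑ j ∈ Finset.range J, ∑ a ∈ gridIdx d (j + 1),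
        (stepK d * (1 / 2) ^ (j + 1) + 2 * (bandSet n t (2 * stepK d * (1 / 2) ^ j)
            (R⁻¹ • (gridPt c₀ (boxSide ρ) (j + 1) a - c))).indicator 1 s) *
          levelExc g n c₀ ρ (j + 1) a) +
      G * (2 * stepK d * (24 ^ d + 3 * d * 4 ^ d * ballVol d)) * ρ ^ d * (1 / 2) ^ J := by
  set S := boxSide ρ with hSdef
  have hS : 0 < S := by rw [hSdef, boxSide]; positivity
  have hR0 : 0 < R := hρ.trans_le hR
  have hRs : 0 < (1 + s) * R := by have := hs.1; positivity
  set B := ball (c + (s * R * t) • n) ((1 + s) * R) with hB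
  set w : Euc d → Euc d := B.indicator (fun z => t • n + relPos n t (R⁻¹ • (z - c)) s) with hw
  have hBbox : B ⊆ box c₀ S := ball_interp_subset_box hρ hR hR2 hc hn ht hs
  have hgi : Integrable g := hg.integrable_of_hasCompactSupport hgc
  have hrel : Continuous fun z => t • n + relPos n t (R⁻¹ • (z - c)) s := by unfold relPos; fun_prop
  have hfin : IsFiniteMeasure (volume.restrict (box c₀ S)) :=
    ⟨by rw [Measure.restrict_apply_univ]; exact box_finite _ _⟩
  -- constancy of the step fields on the finest boxes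
  have hcst : ∀ j, ∀ a ∈ gridIdx d (j + 1), ∀ z ∈ box (gridPt c₀ S (j + 1) a) (S / 2 ^ (j + 1)),
      stepField n t c c₀ R S s (j + 1) z = stepVal n t c R s (j + 1) (gridPt c₀ S (j + 1) a) ∧
      stepField n t c c₀ R S s j z = stepVal n t c R s j (gridPt c₀ S j (fun i => a i / 2)) := by
    intro j a ha z hz
    have hcell := ((mem_subbox_iff c₀ hS (j + 1) ha z).1 hz).2
    refine ⟨by rw [stepField, hcell], ?_⟩
    rw [stepField, cellOf_succ, hcell]
  have hint : ∀ j, IntegrableOn (fun z => ⟪g z, stepField n t c c₀ R S s j z⟫) (box c₀ S) := by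
    intro j
    have hU : box c₀ S ⊆ ⋃ a ∈ gridIdx d j, box (gridPt c₀ S j a) (S / 2 ^ j) := fun z hz =>
      mem_iUnion₂.2 ⟨_, cellOf_mem c₀ hS j hz,
        (mem_subbox_iff c₀ hS j (cellOf_mem c₀ hS j hz) z).2 ⟨hz, rfl⟩⟩
    refine IntegrableOn.mono_set (integrableOn_finset_iUnion.2 fun a ha => ?_) hU
    refine (hgi.inner_const (stepVal n t c R s j (gridPt c₀ S j a))).integrableOn.congr_fun
      (fun z hz => ?_) (measurableSet_box _ _)
    have hcell := ((mem_subbox_iff c₀ hS j ha z).1 hz).2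
    show ⟪g z, stepVal n t c R s j (gridPt c₀ S j a)⟫ = _
    rw [stepField, hcell]
  have hdiffj : ∀ j, -(∫ z in box c₀ S, ⟪g z, stepField n t c c₀ R S s (j + 1) z⟫) -
      -(∫ z in box c₀ S, ⟪g z, stepField n t c c₀ R S s j z⟫) ≤
      ∑ a ∈ gridIdx d (j + 1), (stepK d * (1 / 2) ^ (j + 1) + 2 * (bandSet n t
        (2 * stepK d * (1 / 2) ^ j) (R⁻¹ • (gridPt c₀ S (j + 1) a - c))).indicator 1 s) *
          levelExc g n c₀ ρ (j + 1) a := by
    intro j
    rw [neg_sub_neg, setIntegral_box_eq_sum c₀ hS (j + 1) (hint j),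
      setIntegral_box_eq_sum c₀ hS (j + 1) (hint (j + 1)), ← Finset.sum_sub_distrib]
    refine Finset.sum_le_sum fun a ha => ?_
    have e1 : ∀ (v : Euc d) (F : Euc d → Euc d),
        (∀ z ∈ box (gridPt c₀ S (j + 1) a) (S / 2 ^ (j + 1)), F z = v) →
        ∫ z in box (gridPt c₀ S (j + 1) a) (S / 2 ^ (j + 1)), ⟪g z, F z⟫ =
          ⟪vec g (gridPt c₀ S (j + 1) a) (S / 2 ^ (j + 1)), v⟫ := by
      intro v F hF
      rw [setIntegral_congr_fun (measurableSet_box _ _) (fun z hz => by rw [hF z hz, real_inner_comm]),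
        integral_inner hgi.integrableOn v, real_inner_comm]
      rfl
    rw [e1 _ _ (fun z hz => (hcst j a ha z hz).1), e1 _ _ (fun z hz => (hcst j a ha z hz).2),
      ← inner_sub_right, ← neg_sub (stepVal n t c R s (j + 1) _), inner_neg_right]
    exact neg_inner_stepVal_le hρ hR hn ht hs j _ (norm_gridPt_parent_le c₀ hS j a)
  have htel : -(∫ z in box c₀ S, ⟪g z, stepField n t c c₀ R S s J z⟫) ≤
      ∑ j ∈ Finset.range J, ∑ a ∈ gridIdx d (j + 1),
        (stepK d * (1 / 2) ^ (j + 1) + 2 * (bandSet n t (2 * stepK d * (1 / 2) ^ j)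
            (R⁻¹ • (gridPt c₀ S (j + 1) a - c))).indicator 1 s) * levelExc g n c₀ ρ (j + 1) a := by
    refine le_trans ?_ (Finset.sum_le_sum fun j _ => hdiffj j)
    rw [Finset.sum_range_sub fun j => -(∫ z in box c₀ S, ⟪g z, stepField n t c c₀ R S s j z⟫)]
    simp [stepField_zero hd]
  set b := 2 * stepK d * (1 / 2) ^ J with hb
  set A := B \ ball (c + (s * R * t) • n) ((1 - b) * ((1 + s) * R)) with hA
  have hA' : MeasurableSet A := measurableSet_ball.diff measurableSet_ball
  have hAint : IntegrableOn (fun z => G * (b + 3 * A.indicator 1 z)) (box c₀ S) :=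
    ((integrable_const b).add (((integrable_const (1 : ℝ)).indicator hA').const_mul 3)).const_mul G
  have hwi : IntegrableOn (fun z => ⟪g z, w z⟫) (box c₀ S) := by
    have hfi : IntegrableOn (fun z => ⟪g z, t • n + relPos n t (R⁻¹ • (z - c)) s⟫) B :=
      IntegrableOn.mono_set (ContinuousOn.integrableOn_compact (isCompact_closedBall _ _)
        (hg.inner hrel).continuousOn) ball_subset_closedBall
    refine ((hfi.integrable_indicator measurableSet_ball).integrableOn).congr_fun (fun z _ => ?_)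
      (measurableSet_box _ _)
    by_cases hz : z ∈ B <;> simp [hw, hz]
  have hLHS : ∫ z in B, -⟪g z, t • n + relPos n t (R⁻¹ • (z - c)) s⟫ =
      -(∫ z in box c₀ S, ⟪g z, w z⟫) := by
    rw [integral_neg, neg_inj]
    rw [setIntegral_congr_fun (f := fun z => ⟪g z, w z⟫)
      (g := B.indicator fun z => ⟪g z, t • n + relPos n t (R⁻¹ • (z - c)) s⟫) (measurableSet_box _ _)
      (fun z _ => by by_cases hz : z ∈ B <;> simp [hw, hz]),
      setIntegral_indicator measurableSet_ball, inter_eq_right.2 hBbox]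
  have herr : -(∫ z in box c₀ S, ⟪g z, w z⟫) - -(∫ z in box c₀ S, ⟪g z, stepField n t c c₀ R S s J z⟫) ≤
      G * (2 * stepK d * (24 ^ d + 3 * d * 4 ^ d * ballVol d)) * ρ ^ d * (1 / 2) ^ J := by
    rw [neg_sub_neg, ← integral_sub (hint J) hwi]
    have h1 : ∫ z in box c₀ S, (⟪g z, stepField n t c c₀ R S s J z⟫ - ⟪g z, w z⟫) ≤
        ∫ z in box c₀ S, G * (b + 3 * A.indicator 1 z) := by
      refine setIntegral_mono_on ((hint J).sub hwi) hAint (measurableSet_box _ _) fun z hz => ?_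
      rw [← inner_sub_right]
      refine (real_inner_le_norm _ _).trans (mul_le_mul (hG z) ?_ (norm_nonneg _)
        ((norm_nonneg _).trans (hG z)))
      rw [norm_sub_rev]
      exact norm_stepVal_sub_le hd hρ hR hn ht hs J (norm_sub_gridPt_le c₀ hS
        ((mem_subbox_iff c₀ hS J (cellOf_mem c₀ hS J hz) z).2 ⟨hz, rfl⟩))
    refine h1.trans ?_
    simp only [Pi.one_def]
    rw [integral_const_mul, integral_add (integrable_const _)
      (((integrable_const (1 : ℝ)).indicator hA').const_mul 3), integral_const_mul (3 : ℝ),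
      setIntegral_indicator hA', Set.inter_eq_right.2 (sdiff_subset.trans hBbox)]
    simp only [integral_const, measureReal_def, Measure.restrict_apply_univ, smul_eq_mul, mul_one]
    rw [volume_box c₀ hS.le, ENNReal.toReal_ofReal (by positivity)]
    have h2 := volume_annulus_le hd (c + (s * R * t) • n) hRs
      (b := b) (by rw [hb]; have := stepK_nonneg (d := d); positivity)
    have h3 : ((1 + s) * R) ^ d ≤ 4 ^ d * ρ ^ d := by
      rw [← mul_pow]
      refine pow_le_pow_left₀ hRs.le ?_ d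
      calc (1 + s) * R ≤ 2 * (2 * ρ) := mul_le_mul (by linarith [hs.2]) hR2 hR0.le (by norm_num)
        _ = 4 * ρ := by ring
    have h4 : S ^ d = 24 ^ d * ρ ^ d := by rw [hSdef, boxSide, mul_pow]
    have hb0 : 0 ≤ b := by rw [hb]; have := stepK_nonneg (d := d); positivity
    have hV := ballVol_pos (d := d)
    have hG0 : 0 ≤ G := (norm_nonneg _).trans (hG c)
    have h5 : (volume A).toReal ≤ d * b * (4 ^ d * ρ ^ d * ballVol d) :=
      h2.trans (mul_le_mul_of_nonneg_left (mul_le_mul_of_nonneg_right h3 hV.le) (by positivity))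
    calc G * (S ^ d * b + 3 * (volume A).toReal)
        ≤ G * (24 ^ d * ρ ^ d * b + 3 * (d * b * (4 ^ d * ρ ^ d * ballVol d))) := by
          rw [h4]
          exact mul_le_mul_of_nonneg_left (add_le_add le_rfl (mul_le_mul_of_nonneg_left h5 (by norm_num))) hG0
      _ = _ := by rw [hb]; ring
  rw [hLHS]
  linarith

/-- The time spent in a thin shell, in terms of the position bound. -/
lemma band_coef_le (hd : 0 < d) (hρ : 0 < ρ) (hR : ρ ≤ R) (hR2 : R ≤ 2 * ρ) {x y : Euc d}
    (hx : dist x c ≤ R) (hn : ‖n‖ = 1) (hy : dist y x ≤ tilt (R⁻¹ • (x - c)) n * ρ / 2)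
    (j : ℕ) (p : Euc d) :
    (volume (bandSet n (1 + tilt (R⁻¹ • (x - c)) n / 2) (2 * stepK d * (1 / 2) ^ j)
      (R⁻¹ • (p - c)))).toReal ≤
      12 * (4 * stepK d) ^ 2 * theta ^ (j + 1) +
        (closedBall p (13 * (4 * stepK d) ^ 4 * theta ^ (j + 1) * ρ)).indicator (fun _ => 1) y := by
  have hR0 : 0 < R := hρ.trans_le hR
  have hA1 : 1 ≤ 4 * stepK d := by linarith [one_lt_stepK hd]
  set q := R⁻¹ • (x - c) with hq
  set A := 4 * stepK d with hA
  set ε := A * theta ^ (j + 1) with hε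
  have hθ := theta_pos
  have hε0 : 0 < ε := by rw [hε]; positivity
  have hq1 : ‖q‖ ≤ 1 := by
    rw [hq, norm_smul, Real.norm_eq_abs, abs_inv, abs_of_pos hR0, inv_mul_le_iff₀ hR0, mul_one,
      ← dist_eq_norm]
    exact hx
  have hsub : ∀ b e, bandSet n (1 + tilt q n / 2) b e ⊆ Icc 0 1 := fun b e s hs => hs.1
  have hle1 : ∀ b e, (volume (bandSet n (1 + tilt q n / 2) b e)).toReal ≤ 1 := fun b e =>
    (ENNReal.toReal_mono (by simp) (measure_mono (hsub b e))).trans (by simp)
  have hind0 := Set.indicator_nonneg (s := closedBall p (13 * A ^ 4 * theta ^ (j + 1) * ρ))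
    (f := fun _ : Euc d => (1 : ℝ)) (fun _ _ => zero_le_one) y
  have hth : theta ^ (j + 1) ≤ 1 := theta_pow_le_one _
  have hth0 : 0 ≤ theta ^ (j + 1) := by positivity
  have hbig : 12 * ε ^ 2 ≤ 12 * A ^ 2 * theta ^ (j + 1) := by
    rw [hε, mul_pow, mul_assoc (12 : ℝ)]
    refine mul_le_mul_of_nonneg_left (mul_le_mul_of_nonneg_left ?_ (sq_nonneg A)) (by norm_num)
    rw [sq]; exact mul_le_of_le_one_left hth0 hth
  rcases lt_or_ge 1 ε with h1 | h1
  · have : 1 ≤ 12 * ε ^ 2 := by nlinarith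
    linarith [hle1 (2 * stepK d * (1 / 2) ^ j) (R⁻¹ • (p - c))]
  have hb8 : 2 * stepK d * (1 / 2) ^ j ≤ ε ^ 8 := by
    rw [hε, mul_pow, ← pow_mul, mul_comm (j + 1) 8, pow_mul, theta_pow_eight, pow_succ (1 / 2 : ℝ) j]
    have h8 : A ≤ A ^ 8 := le_self_pow₀ hA1 (by norm_num)
    have : 0 ≤ (1 / 2 : ℝ) ^ j := by positivity
    nlinarith
  have hmono : bandSet n (1 + tilt q n / 2) (2 * stepK d * (1 / 2) ^ j) (R⁻¹ • (p - c)) ⊆
      bandSet n (1 + tilt q n / 2) (ε ^ 8) (R⁻¹ • (p - c)) := fun s hs =>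
    ⟨hs.1, by linarith [hs.2.1], hs.2.2⟩
  rcases band_le (e := R⁻¹ • (p - c)) hn hq1 hε0 h1 with hb | ⟨hτ, hnear⟩
  · have := ENNReal.toReal_mono ENNReal.ofReal_ne_top ((measure_mono hmono).trans hb)
    rw [ENNReal.toReal_ofReal (by positivity)] at this
    linarith
  · have hmem : y ∈ closedBall p (13 * A ^ 4 * theta ^ (j + 1) * ρ) := by
      refine mem_closedBall.2 ((dist_triangle y x p).trans ?_)
      have hxp : dist x p ≤ R * (6 * ε) := by
        have e : R⁻¹ • (p - c) - q = R⁻¹ • (p - x) := by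
          rw [hq, ← smul_sub, sub_sub_sub_cancel_right]
        rw [e, norm_smul, Real.norm_eq_abs, abs_inv, abs_of_pos hR0, inv_mul_le_iff₀ hR0] at hnear
        rwa [dist_comm, dist_eq_norm]
      have h4 : ε ^ 4 ≤ A ^ 4 * theta ^ (j + 1) := by
        rw [hε, mul_pow]
        exact mul_le_mul_of_nonneg_left (pow_le_of_le_one hth0 hth (by norm_num)) (by positivity)
      have hA4 : A ≤ A ^ 4 := le_self_pow₀ hA1 (by norm_num)
      have hAε : ε ≤ A ^ 4 * theta ^ (j + 1) := by
        rw [hε]; exact mul_le_mul_of_nonneg_right hA4 hth0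
      calc dist y x + dist x p ≤ tilt q n * ρ / 2 + R * (6 * ε) := add_le_add hy hxp
        _ ≤ A ^ 4 * theta ^ (j + 1) * ρ / 2 + 2 * ρ * (6 * (A ^ 4 * theta ^ (j + 1))) := by
          refine add_le_add (by nlinarith) (mul_le_mul hR2 (by linarith) (by positivity) (by linarith))
        _ ≤ _ := by
          have : 0 ≤ A ^ 4 * theta ^ (j + 1) * ρ := by positivity
          nlinarith
    rw [Set.indicator_of_mem hmem]
    linarith [hle1 (2 * stepK d * (1 / 2) ^ j) (R⁻¹ • (p - c)), (by positivity : 0 ≤ 12 * A ^ 2 * theta ^ (j + 1))]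

/-- The constant in the bound for the drop. -/
def dropConst (d : ℕ) : ℝ :=
  2 * ((ballVol d)⁻¹ * (stepK d + 24 * (4 * stepK d) ^ 2 + 2)) + 13 * (4 * stepK d) ^ 4 +
    (ballVol d)⁻¹ * (8 * stepK d * (24 ^ d + 3 * d * 4 ^ d * ballVol d))

/-- The drop of averages from `ball c R` to the comparison ball
`ball (c + R (1 + τ/2) n) (2R)`. -/
theorem exists_drop_le (hd : 0 < d) : ∃ C : ℝ, 0 < C ∧ ∀ (f : Euc d → ℝ), ContDiff ℝ 1 f →
    HasCompactSupport f → (∀ y, 0 ≤ f y) → ∀ (G : ℝ), (∀ y, ‖∇ f y‖ ≤ G) →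
    ∀ (ρ R : ℝ) (c c₀ x n : Euc d) (J : ℕ), 0 < ρ → ρ ≤ R → R ≤ 2 * ρ → dist x c ≤ R →
      dist x c₀ ≤ ρ → ‖n‖ = 1 → ∀ y, dist y x ≤ tilt (R⁻¹ • (x - c)) n * ρ / 2 →
      ballAvg (fun z => |f z|) c R - ballAvg (fun z => |f z|)
          (c + (R * (1 + tilt (R⁻¹ • (x - c)) n / 2)) • n) (2 * R) ≤
        gammaJ C (∇ f) G n c₀ ρ J y := by
  have hK := one_lt_stepK hd
  have hθpos := theta_pos
  have hV := ballVol_pos (d := d)
  have hK0 : 0 ≤ stepK d := stepK_nonneg
  have hC : 0 < dropConst d := by unfold dropConst; positivity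
  refine ⟨dropConst d, hC, fun f hf hfc hf0 G hG ρ R c c₀ x n J hρ hR hR2 hxc hxc₀ hn y hy => ?_⟩
  simp only [abs_of_nonneg (hf0 _)]
  set q := R⁻¹ • (x - c) with hq
  set t := 1 + tilt q n / 2 with ht
  have hR0 : 0 < R := hρ.trans_le hR
  have hq1 : ‖q‖ ≤ 1 := by
    rw [hq, norm_smul, Real.norm_eq_abs, abs_inv, abs_of_pos hR0, inv_mul_le_iff₀ hR0, mul_one,
      ← dist_eq_norm]
    exact hxc
  have htI : t ∈ Icc (1 : ℝ) (3 / 2) := by
    obtain ⟨h0, h1⟩ := tilt_mem hn hq1
    rw [ht]; constructor <;> linarith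
  have hc3 : dist c c₀ ≤ 3 * ρ := (dist_triangle c x c₀).trans (by rw [dist_comm c x]; linarith)
  have hg := continuous_gradient hf
  have hgc := hasCompactSupport_gradient hfc
  have hG0 : 0 ≤ G := (norm_nonneg _).trans (hG c)
  obtain ⟨hint, heq⟩ := drop_eq_integral hf hG c n t hR0
  rw [heq]
  set S := boxSide ρ
  set J' := J - 1 with hJ'
  set β : ℕ → (Fin d → ℕ) → Set ℝ := fun j a =>
    bandSet n t (2 * stepK d * (1 / 2) ^ j) (R⁻¹ • (gridPt c₀ S (j + 1) a - c)) with hβ
  set e := fun j a => levelExc (∇ f) n c₀ ρ j a with he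
  have he0 : ∀ j a, 0 ≤ e j a := fun j a => excN_nonneg _ hn
  set E := G * (2 * stepK d * (24 ^ d + 3 * d * 4 ^ d * ballVol d)) * ρ ^ d * (1 / 2) ^ J' with hE
  set F := fun s : ℝ => (R ^ d * ballVol d)⁻¹ * ((∑ j ∈ Finset.range J', ∑ a ∈ gridIdx d (j + 1),
    (stepK d * (1 / 2) ^ (j + 1) + 2 * (β j a).indicator 1 s) * e (j + 1) a) + E) with hF
  have hFterm : ∀ j a, IntegrableOn
      (fun s => (stepK d * (1 / 2) ^ (j + 1) + 2 * (β j a).indicator 1 s) * e (j + 1) a)
      (Ioc (0 : ℝ) 1) := fun j a =>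
    ((integrable_const _).add
      (((integrable_const (1 : ℝ)).indicator (measurableSet_bandSet _ _ _ _)).const_mul 2)).mul_const _
  have hFi : IntegrableOn F (Ioc (0 : ℝ) 1) :=
    (((integrable_finsetSum _ fun j _ => integrable_finsetSum _ fun a _ => hFterm j a).add
      (integrable_const E)).const_mul _)
  have hpt : ∀ s ∈ Ioc (0 : ℝ) 1,
      ballAvg (fun z => -⟪∇ f z, t • n + relPos n t (R⁻¹ • (z - c)) s⟫)
        (c + (s * R * t) • n) ((1 + s) * R) ≤ F s := by
    intro s hs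
    have hs' : s ∈ Icc (0 : ℝ) 1 := Ioc_subset_Icc_self hs
    have hb := inner_sum_le hd hg hgc hG hρ hR hR2 hc3 hn htI hs' J'
    rw [ballAvg, hF]
    have hnn : 0 ≤ (∑ j ∈ Finset.range J', ∑ a ∈ gridIdx d (j + 1),
        (stepK d * (1 / 2) ^ (j + 1) + 2 * (β j a).indicator 1 s) * e (j + 1) a) + E := by
      refine add_nonneg (Finset.sum_nonneg fun j _ => Finset.sum_nonneg fun a _ => mul_nonneg ?_ (he0 _ _)) ?_
      · have := Set.indicator_nonneg (s := β j a) (f := (1 : ℝ → ℝ)) (fun _ _ => zero_le_one) s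
        positivity
      · positivity
    refine le_trans (mul_le_mul_of_nonneg_left hb (by have := hs.1; positivity)) ?_
    refine mul_le_mul_of_nonneg_right (inv_anti₀ (by positivity) ?_) hnn
    refine mul_le_mul_of_nonneg_right (pow_le_pow_left₀ hR0.le ?_ d) hV.le
    nlinarith [hs.1]
  have hint2 := setIntegral_mono_on hint hFi measurableSet_Ioc hpt
  have hFval : ∫ s in Ioc (0 : ℝ) 1, F s ≤ (R ^ d * ballVol d)⁻¹ *
      ((∑ j ∈ Finset.range J', ∑ a ∈ gridIdx d (j + 1),
        (stepK d * (1 / 2) ^ (j + 1) + 2 * (volume (β j a)).toReal) * e (j + 1) a) + E) := by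
    rw [hF]
    rw [integral_const_mul]
    refine mul_le_mul_of_nonneg_left ?_ (by positivity)
    rw [integral_add (integrable_finsetSum _ fun j _ => integrable_finsetSum _ fun a _ => hFterm j a)
      (integrable_const E), integral_finsetSum _ fun j _ => integrable_finsetSum _ fun a _ => hFterm j a]
    refine add_le_add (Finset.sum_le_sum fun j _ => ?_) (le_of_eq (by simp))
    rw [integral_finsetSum _ fun a _ => hFterm j a]
    refine Finset.sum_le_sum fun a _ => ?_
    rw [integral_mul_const]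
    refine mul_le_mul_of_nonneg_right ?_ (he0 _ _)
    simp only [Pi.one_def]
    rw [integral_add (integrable_const _)
      (((integrable_const (1 : ℝ)).indicator (measurableSet_bandSet _ _ _ _)).const_mul 2),
      integral_const_mul (2 : ℝ), setIntegral_indicator (measurableSet_bandSet _ _ _ _)]
    simp only [integral_const, measureReal_def, Measure.restrict_apply_univ, smul_eq_mul, mul_one,
      Real.volume_Ioc, sub_zero, ENNReal.ofReal_one, ENNReal.toReal_one, one_mul]
    have : (volume (Ioc (0 : ℝ) 1 ∩ β j a)).toReal ≤ (volume (β j a)).toReal :=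
      ENNReal.toReal_mono ((measure_mono (fun s hs => hs.1)).trans_lt
        (measure_Icc_lt_top (a := (0 : ℝ)) (b := 1))).ne (measure_mono inter_subset_right)
    linarith
  set C₁ := stepK d + 24 * (4 * stepK d) ^ 2 + 2 with hC₁
  set C₂ := 13 * (4 * stepK d) ^ 4 with hC₂
  have hterm : ∀ j a, (stepK d * (1 / 2) ^ (j + 1) + 2 * (volume (β j a)).toReal) * e (j + 1) a ≤
      C₁ * (theta ^ (j + 1) * e (j + 1) a + (closedBall (gridPt c₀ S (j + 1) a)
        (dropConst d * theta ^ (j + 1) * ρ)).indicator (fun _ => e (j + 1) a) y) := by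
    intro j a
    have h := band_coef_le hd hρ hR hR2 hxc hn hy j (gridPt c₀ S (j + 1) a)
    have hhalf : (1 / 2 : ℝ) ^ (j + 1) ≤ theta ^ (j + 1) := by
      refine pow_le_pow_left₀ (by norm_num) ?_ _
      rw [← theta_pow_eight]
      exact pow_le_of_le_one theta_pos.le theta_lt_one.le (by norm_num)
    have hC2le : C₂ ≤ dropConst d := by
      rw [hC₂, dropConst]
      have h1 : 0 ≤ (ballVol d)⁻¹ * (stepK d + 24 * (4 * stepK d) ^ 2 + 2) := by positivity
      have h1' := mul_nonneg (zero_le_two (α := ℝ)) h1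
      have h2 : 0 ≤ (ballVol d)⁻¹ * (8 * stepK d * (24 ^ d + 3 * d * 4 ^ d * ballVol d)) := by positivity
      linarith
    have hind : (closedBall (gridPt c₀ S (j + 1) a) (C₂ * theta ^ (j + 1) * ρ)).indicator (fun _ => (1:ℝ)) y
        ≤ (closedBall (gridPt c₀ S (j + 1) a) (dropConst d * theta ^ (j + 1) * ρ)).indicator (fun _ => 1) y :=
      Set.indicator_le_indicator_of_subset (closedBall_subset_closedBall
        (mul_le_mul_of_nonneg_right (mul_le_mul_of_nonneg_right hC2le (by positivity)) hρ.le))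
        (fun _ => zero_le_one) y
    set I := (closedBall (gridPt c₀ S (j + 1) a) (dropConst d * theta ^ (j + 1) * ρ)).indicator
      (fun _ => (1:ℝ)) y with hI
    have hI0 : 0 ≤ I := Set.indicator_nonneg (fun _ _ => zero_le_one) y
    have hIe : (closedBall (gridPt c₀ S (j + 1) a) (dropConst d * theta ^ (j + 1) * ρ)).indicator
        (fun _ => e (j + 1) a) y = I * e (j + 1) a := by
      by_cases hm : y ∈ closedBall (gridPt c₀ S (j + 1) a) (dropConst d * theta ^ (j + 1) * ρ) <;>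
        simp [hI, hm]
    rw [hIe, ← add_mul, ← mul_assoc]
    refine mul_le_mul_of_nonneg_right ?_ (he0 _ _)
    have hth0 : 0 ≤ theta ^ (j + 1) := by positivity
    have hA0 : 0 ≤ (4 * stepK d) ^ 2 := by positivity
    calc stepK d * (1 / 2) ^ (j + 1) + 2 * (volume (β j a)).toReal
        ≤ stepK d * theta ^ (j + 1) + 2 * (12 * (4 * stepK d) ^ 2 * theta ^ (j + 1) + I) := by
          have := h.trans (add_le_add le_rfl hind)
          exact add_le_add (mul_le_mul_of_nonneg_left hhalf stepK_nonneg)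
            (mul_le_mul_of_nonneg_left this zero_le_two)
      _ ≤ C₁ * (theta ^ (j + 1) + I) := by rw [hC₁]; nlinarith
  set F' := fun j => theta ^ j * (∑ a ∈ gridIdx d j, e j a) + ∑ a ∈ gridIdx d j,
    (closedBall (gridPt c₀ S j a) (dropConst d * theta ^ j * ρ)).indicator (fun _ => e j a) y with hF'
  have hF'0 : ∀ j, 0 ≤ F' j := fun j => add_nonneg
    (mul_nonneg (by have := theta_pos; positivity) (Finset.sum_nonneg fun a _ => he0 _ _))
    (Finset.sum_nonneg fun a _ => Set.indicator_nonneg (fun _ _ => he0 _ _) y)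
  have hsum : ∑ j ∈ Finset.range J', ∑ a ∈ gridIdx d (j + 1),
      (stepK d * (1 / 2) ^ (j + 1) + 2 * (volume (β j a)).toReal) * e (j + 1) a ≤
      C₁ * (farPart (∇ f) n c₀ ρ J + nearPart (dropConst d) (∇ f) n c₀ ρ J y) := by
    calc _ ≤ ∑ j ∈ Finset.range J', C₁ * F' (j + 1) := Finset.sum_le_sum fun j _ => by
            refine (Finset.sum_le_sum fun a _ => hterm j a).trans (le_of_eq ?_)
            rw [← Finset.mul_sum, Finset.sum_add_distrib, ← Finset.mul_sum]
      _ ≤ C₁ * ∑ j ∈ Finset.range J, F' j := by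
            rw [← Finset.mul_sum]
            refine mul_le_mul_of_nonneg_left ?_ (by have := stepK_nonneg (d := d); positivity)
            rcases Nat.eq_zero_or_pos J with hJ | hJ
            · simp [hJ', hJ]
            · rw [show J = J' + 1 by omega, Finset.sum_range_succ']
              linarith [hF'0 0]
      _ = _ := by rw [hF', Finset.sum_add_distrib]; rfl
  refine (mul_le_mul_of_nonneg_left (hint2.trans hFval) hR0.le).trans ?_
  have hhalfJ : (1 / 2 : ℝ) ^ J' ≤ 2 * (1 / 2) ^ J := by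
    rcases Nat.eq_zero_or_pos J with hJ | hJ
    · simp [hJ', hJ]
    · rw [show J = J' + 1 by omega, pow_succ]; linarith
  set Γ := farPart (∇ f) n c₀ ρ J + nearPart (dropConst d) (∇ f) n c₀ ρ J y with hΓ
  have hΓ0 : 0 ≤ Γ := add_nonneg
    (Finset.sum_nonneg fun j _ => mul_nonneg (by have := theta_pos; positivity)
      (Finset.sum_nonneg fun a _ => he0 _ _))
    (Finset.sum_nonneg fun j _ => Finset.sum_nonneg fun a _ =>
      Set.indicator_nonneg (fun _ _ => he0 _ _) y)
  set C₃ := 2 * stepK d * (24 ^ d + 3 * d * 4 ^ d * ballVol d) with hC₃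
  have hC₃0 : 0 ≤ C₃ := by positivity
  have hρd : (R ^ d * ballVol d)⁻¹ ≤ (ρ ^ d * ballVol d)⁻¹ :=
    inv_anti₀ (by positivity) (mul_le_mul_of_nonneg_right (pow_le_pow_left₀ hρ.le hR d) hV.le)
  have hC₁0 : 0 ≤ C₁ := by rw [hC₁]; positivity
  have hLnn : 0 ≤ (∑ j ∈ Finset.range J', ∑ a ∈ gridIdx d (j + 1),
      (stepK d * (1 / 2) ^ (j + 1) + 2 * (volume (β j a)).toReal) * e (j + 1) a) + E :=
    add_nonneg (Finset.sum_nonneg fun j _ => Finset.sum_nonneg fun a _ =>
      mul_nonneg (by positivity) (he0 _ _)) (by positivity)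
  calc R * ((R ^ d * ballVol d)⁻¹ * (_ + E))
      ≤ 2 * ρ * ((ρ ^ d * ballVol d)⁻¹ * (C₁ * Γ + G * C₃ * ρ ^ d * (2 * (1 / 2) ^ J))) := by
        have hnn : 0 ≤ C₁ * Γ + G * C₃ * ρ ^ d * (2 * (1 / 2) ^ J) := by positivity
        refine mul_le_mul hR2 (mul_le_mul hρd (add_le_add hsum ?_) hLnn (by positivity))
          (mul_nonneg (by positivity) hLnn) (by linarith)
        exact mul_le_mul_of_nonneg_left hhalfJ (by positivity)
    _ = 2 * ((ballVol d)⁻¹ * C₁) * ρ / ρ ^ d * Γ +
          ((ballVol d)⁻¹ * (4 * C₃)) * ρ * G * (1 / 2) ^ J := by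
        field_simp
        ring
    _ ≤ gammaJ (dropConst d) (∇ f) G n c₀ ρ J y := by
        have h1 : 0 ≤ (ballVol d)⁻¹ * C₁ := by positivity
        have h2 : 0 ≤ (ballVol d)⁻¹ * (4 * C₃) := by positivity
        have h3 : 0 ≤ 13 * (4 * stepK d) ^ 4 := by positivity
        have e : dropConst d = 2 * ((ballVol d)⁻¹ * C₁) + 13 * (4 * stepK d) ^ 4 +
            (ballVol d)⁻¹ * (4 * C₃) := by rw [dropConst, hC₁, hC₃]; ring
        rw [gammaJ, ← hΓ]
        refine add_le_add ?_ ?_
        · rw [mul_div_assoc, mul_div_assoc (dropConst d)]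
          refine mul_le_mul_of_nonneg_right (mul_le_mul_of_nonneg_right ?_ (by positivity)) hΓ0
          linarith
        · refine mul_le_mul_of_nonneg_right (mul_le_mul_of_nonneg_right
            (mul_le_mul_of_nonneg_right ?_ hρ.le) hG0) (by positivity)
          linarith

end Vale.Agent.P137
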