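import Vale.Agent.P137.Excess

/-!
# P137: maximal functions with a lower bound on the radius
-/

open MeasureTheory Filter Set Metric Module
open scoped ENNReal NNReal Topology RealInnerProductSpace Gradient

noncomputable section

namespace Vale.Agent.P137

variable {d : ℕ}

/-- Volume of the unit ball. -/
def ballVol (d : ℕ) : ℝ := (volume (ball (0 : Euc d) 1)).toReal

lemma ballVol_pos : 0 < ballVol d :=
  ENNReal.toReal_pos (measure_ball_pos volume _ one_pos).ne' measure_ball_lt_top.ne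

lemma volume_ball_toReal (c : Euc d) {R : ℝ} (hR : 0 < R) :
    (volume (ball c R)).toReal = R ^ d * ballVol d := by
  rw [Measure.addHaar_ball_of_pos volume c hR, ENNReal.toReal_mul, finrank_euclideanSpace_fin,
    ENNReal.toReal_ofReal (pow_nonneg hR.le d), ballVol]

/-- Average over the ball `ball c R`. -/
def ballAvg (h : Euc d → ℝ) (c : Euc d) (R : ℝ) : ℝ :=
  (R ^ d * ballVol d)⁻¹ * ∫ y in ball c R, h y

lemma ballAvg_eq_unit (h : Euc d → ℝ) (c : Euc d) {R : ℝ} (hR : 0 < R) :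
    ballAvg h c R = (ballVol d)⁻¹ * ∫ u in ball (0 : Euc d) 1, h (c + R • u) := by
  have e := Measure.setIntegral_comp_smul_of_pos (μ := volume) (fun z : Euc d => h (c + z))
    (ball (0 : Euc d) 1) hR
  rw [smul_unitBall_of_pos hR, finrank_euclideanSpace_fin, smul_eq_mul] at e
  have e2 : ∫ z in ball (0 : Euc d) R, h (c + z) = ∫ y in ball c R, h y := by
    rw [← integral_indicator measurableSet_ball, ← integral_indicator measurableSet_ball,
      ← integral_add_left_eq_self ((ball c R).indicator h) c]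
    refine integral_congr_ae (ae_of_all _ fun z => ?_)
    simp [Set.indicator, mem_ball, dist_eq_norm]
  rw [e, e2, ballAvg, mul_inv]
  ring

/-- Averages of `|f|` over the balls of radius at least `ρ` containing `x`. -/
def avgSet (f : Euc d → ℝ) (ρ : ℝ) (x : Euc d) : Set ℝ :=
  (fun p : Euc d × ℝ => ballAvg (fun y => |f y|) p.1 p.2) '' {p | ρ ≤ p.2 ∧ dist x p.1 ≤ p.2}

/-- The maximal function over balls of radius at least `ρ`. -/
def radMax (f : Euc d → ℝ) (ρ : ℝ) (x : Euc d) : ℝ := sSup (avgSet f ρ x)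

variable {f : Euc d → ℝ} {ρ : ℝ}

lemma ballAvg_nonneg {h : Euc d → ℝ} (hh : ∀ y, 0 ≤ h y) (c : Euc d) {R : ℝ} (hR : 0 ≤ R) :
    0 ≤ ballAvg h c R :=
  mul_nonneg (inv_nonneg.2 (mul_nonneg (pow_nonneg hR d) ballVol_pos.le)) (integral_nonneg hh)

lemma ballAvg_le (hf : Integrable f) (c : Euc d) {R : ℝ} (hρ : 0 < ρ) (hR : ρ ≤ R) :
    ballAvg (fun y => |f y|) c R ≤ (ρ ^ d * ballVol d)⁻¹ * ∫ y, |f y| := by
  refine mul_le_mul ?_ (setIntegral_le_integral hf.abs (ae_of_all _ fun y => abs_nonneg _))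
    (integral_nonneg fun y => abs_nonneg _)
    (inv_nonneg.2 (mul_nonneg (pow_nonneg hρ.le d) ballVol_pos.le))
  exact inv_anti₀ (mul_pos (pow_pos hρ d) ballVol_pos)
    (mul_le_mul_of_nonneg_right (pow_le_pow_left₀ hρ.le hR d) ballVol_pos.le)

lemma avgSet_bddAbove (hf : Integrable f) (hρ : 0 < ρ) (x : Euc d) :
    BddAbove (avgSet f ρ x) :=
  ⟨_, by rintro _ ⟨p, hp, rfl⟩; exact ballAvg_le hf p.1 hρ hp.1⟩

lemma avgSet_nonempty (hρ : 0 ≤ ρ) (x : Euc d) : (avgSet f ρ x).Nonempty :=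
  ⟨_, ⟨(x, ρ), ⟨le_rfl, by simpa using hρ⟩, rfl⟩⟩

lemma le_radMax (hf : Integrable f) (hρ : 0 < ρ) {x c : Euc d} {R : ℝ} (hR : ρ ≤ R)
    (hx : dist x c ≤ R) : ballAvg (fun y => |f y|) c R ≤ radMax f ρ x :=
  le_csSup (avgSet_bddAbove hf hρ x) ⟨(c, R), ⟨hR, hx⟩, rfl⟩

lemma radMax_le (hρ : 0 ≤ ρ) {x : Euc d} {B : ℝ}
    (h : ∀ c R, ρ ≤ R → dist x c ≤ R → ballAvg (fun y => |f y|) c R ≤ B) : radMax f ρ x ≤ B :=
  csSup_le (avgSet_nonempty hρ x) (by rintro _ ⟨p, hp, rfl⟩; exact h _ _ hp.1 hp.2)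

lemma radMax_nonneg (hf : Integrable f) (hρ : 0 < ρ) (x : Euc d) : 0 ≤ radMax f ρ x :=
  (ballAvg_nonneg (fun y => abs_nonneg _) x hρ.le).trans
    (le_radMax hf hρ le_rfl (by simpa using hρ.le))

lemma radMax_anti (hf : Integrable f) (hρ : 0 < ρ) {σ : ℝ} (h : ρ ≤ σ) (x : Euc d) :
    radMax f σ x ≤ radMax f ρ x :=
  radMax_le (hρ.le.trans h) fun _ _ hR hx => le_radMax hf hρ (h.trans hR) hx

lemma radMax_le_norm (hf : Integrable f) (hρ : 0 < ρ) (x : Euc d) :
    radMax f ρ x ≤ (ρ ^ d * ballVol d)⁻¹ * ∫ y, |f y| :=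
  radMax_le hρ.le fun c _ hR _ => ballAvg_le hf c hρ hR

lemma ballAvg_grow {h : Euc d → ℝ} (hh : ∀ y, 0 ≤ h y) (hi : Integrable h) {c c' : Euc d}
    {R R' : ℝ} (hR : 0 < R) (hR' : 0 < R') (hsub : ball c R ⊆ ball c' R') :
    (R / R') ^ d * ballAvg h c R ≤ ballAvg h c' R' := by
  have h1 : ∫ y in ball c R, h y ≤ ∫ y in ball c' R', h y :=
    setIntegral_mono_set hi.integrableOn (ae_of_all _ hh) hsub.eventuallyLE
  have h2 := ballVol_pos (d := d)
  calc (R / R') ^ d * ballAvg h c R = (R' ^ d * ballVol d)⁻¹ * ∫ y in ball c R, h y := by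
        rw [ballAvg, div_pow]
        field_simp
    _ ≤ _ := mul_le_mul_of_nonneg_left h1 (by positivity)

lemma one_sub_mul_le_inv_pow {x : ℝ} (hx : 0 ≤ x) (k : ℕ) : 1 - k * x ≤ ((1 + x) ^ k)⁻¹ := by
  have h : (1 - k * x) * (1 + x) ^ k ≤ 1 := by
    induction k with
    | zero => simp
    | succ k ih =>
      have h1 : (1 - ((k + 1 : ℕ) : ℝ) * x) * (1 + x) ≤ 1 - k * x := by
        push_cast
        nlinarith [mul_nonneg (Nat.cast_nonneg k : (0:ℝ) ≤ k) (mul_nonneg hx hx)]
      have h2 := mul_le_mul_of_nonneg_right h1 (by positivity : 0 ≤ (1 + x) ^ k)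
      rw [pow_succ]
      linarith
  rw [inv_eq_one_div, le_div_iff₀ (by positivity)]
  exact h

lemma ballAvg_enlarge {h : Euc d → ℝ} (hh : ∀ y, 0 ≤ h y) (hi : Integrable h) (c : Euc d)
    {R δ : ℝ} (hR : 0 < R) (hδ : 0 ≤ δ) :
    (1 - d * δ / R) * ballAvg h c R ≤ ballAvg h c (R + δ) := by
  refine le_trans ?_ (ballAvg_grow hh hi hR (by linarith) (ball_subset_ball (by linarith)))
  refine mul_le_mul_of_nonneg_right ?_ (ballAvg_nonneg hh c hR.le)
  have h := one_sub_mul_le_inv_pow (div_nonneg hδ hR.le) d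
  rw [show R / (R + δ) = (1 + δ / R)⁻¹ by field_simp, inv_pow]
  rwa [mul_div_assoc]

lemma radMax_ge (hf : Integrable f) (hρ : 0 < ρ) (x w : Euc d) :
    (1 - d * ‖w‖ / ρ) * radMax f ρ x ≤ radMax f ρ (x + w) := by
  rcases le_or_gt (1 - d * ‖w‖ / ρ) 0 with hn | hp
  · exact (mul_nonpos_of_nonpos_of_nonneg hn (radMax_nonneg hf hρ x)).trans (radMax_nonneg hf hρ _)
  rw [← le_div_iff₀' hp]
  refine radMax_le hρ.le fun c R hR hx => ?_
  rw [le_div_iff₀' hp]
  have hR0 : 0 < R := hρ.trans_le hR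
  have h1 := ballAvg_enlarge (h := fun y => |f y|) (fun y => abs_nonneg _) hf.abs c hR0
    (norm_nonneg w)
  have h2 : dist (x + w) c ≤ R + ‖w‖ := by
    refine (dist_triangle _ x _).trans ?_
    rw [dist_self_add_left]; linarith
  refine le_trans ?_ (h1.trans (le_radMax hf hρ (by linarith [norm_nonneg w]) h2))
  refine mul_le_mul_of_nonneg_right ?_ (ballAvg_nonneg (fun y => abs_nonneg _) c hR0.le)
  have : d * ‖w‖ / R ≤ d * ‖w‖ / ρ := div_le_div_of_nonneg_left (by positivity) hρ hR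
  linarith

/-- The Lipschitz constant of `radMax f ρ`. -/
def radLip (f : Euc d → ℝ) (ρ : ℝ) : ℝ := d / ρ * ((ρ ^ d * ballVol d)⁻¹ * ∫ y, |f y|)

lemma lipschitz_radMax (hf : Integrable f) (hρ : 0 < ρ) :
    LipschitzWith (radLip f ρ).toNNReal (radMax f ρ) := by
  refine LipschitzWith.of_le_add_mul _ fun x y => ?_
  have h := radMax_ge hf hρ x (y - x)
  rw [add_sub_cancel] at h
  have h1 := radMax_le_norm hf hρ x
  have hn : ‖y - x‖ = dist x y := by rw [dist_comm, dist_eq_norm]
  rw [hn] at h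
  have h2 : d * dist x y / ρ * radMax f ρ x ≤ radLip f ρ * dist x y := by
    calc d * dist x y / ρ * radMax f ρ x
        ≤ d * dist x y / ρ * ((ρ ^ d * ballVol d)⁻¹ * ∫ y, |f y|) :=
          mul_le_mul_of_nonneg_left h1 (by positivity)
      _ = _ := by rw [radLip]; ring
  have h3 : radLip f ρ * dist x y ≤ ((radLip f ρ).toNNReal : ℝ) * dist x y :=
    mul_le_mul_of_nonneg_right (Real.le_coe_toNNReal _) dist_nonneg
  linarith

lemma continuous_radMax (hf : Integrable f) (hρ : 0 < ρ) : Continuous (radMax f ρ) :=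
  (lipschitz_radMax hf hρ).continuous

lemma radMax_le_decay (hf : Integrable f) (hρ : 0 < ρ) {K : ℝ}
    (hK : ∀ y, f y ≠ 0 → ‖y‖ ≤ K) (x : Euc d) :
    radMax f ρ x ≤ ((max ρ ((‖x‖ - K) / 2)) ^ d * ballVol d)⁻¹ * ∫ y, |f y| := by
  refine radMax_le hρ.le fun c R hR hx => ?_
  by_cases hne : ∀ y ∈ ball c R, f y = 0
  · rw [ballAvg, setIntegral_eq_zero_of_forall_eq_zero fun y hy => by simp [hne y hy], mul_zero]
    have := ballVol_pos (d := d)
    have : 0 ≤ max ρ ((‖x‖ - K) / 2) := le_max_of_le_left hρ.le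
    positivity
  · push Not at hne
    obtain ⟨y, hy, hy0⟩ := hne
    refine ballAvg_le hf c (lt_max_of_lt_left hρ) (max_le hR ?_)
    have h1 : ‖x‖ ≤ dist x c + dist c y + ‖y‖ := by
      calc ‖x‖ = dist x 0 := (dist_zero_right x).symm
        _ ≤ dist x c + dist c y + dist y 0 := dist_triangle4 _ _ _ _
        _ = _ := by rw [dist_zero_right]
    have h2 : dist c y < R := by rw [dist_comm]; exact mem_ball.1 hy
    linarith [hK y hy0]

lemma continuousOn_ballAvg {h : Euc d → ℝ} (hh : Continuous h) (hc : HasCompactSupport h) :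
    ContinuousOn (fun p : Euc d × ℝ => ballAvg h p.1 p.2) {p | 0 < p.2} := by
  have : IsFiniteMeasure (volume.restrict (ball (0 : Euc d) 1)) :=
    ⟨by rw [Measure.restrict_apply_univ]; exact measure_ball_lt_top⟩
  obtain ⟨B, hB⟩ := hc.exists_bound_of_continuous hh
  have hcont : Continuous fun p : Euc d × ℝ =>
      (ballVol d)⁻¹ * ∫ u in ball (0 : Euc d) 1, h (p.1 + p.2 • u) :=
    continuous_const.mul (continuous_of_dominated (bound := fun _ => B)
      (fun p => by fun_prop) (fun p => ae_of_all _ fun u => hB _) (integrable_const B)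
      (ae_of_all _ fun u => by fun_prop))
  exact hcont.continuousOn.congr fun p hp => ballAvg_eq_unit h p.1 hp

/-- A maximal ball exists. -/
lemma exists_maximizer (hd : 0 < d) (hf : Continuous f) (hfc : HasCompactSupport f) (hρ : 0 < ρ)
    (x : Euc d) :
    ∃ c R, ρ ≤ R ∧ dist x c ≤ R ∧ ballAvg (fun y => |f y|) c R = radMax f ρ x := by
  have hi : Integrable f := hf.integrable_of_hasCompactSupport hfc
  rcases (radMax_nonneg hi hρ x).eq_or_lt with h0 | hpos
  · refine ⟨x, ρ, le_rfl, by simpa using hρ.le, le_antisymm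
      (le_radMax hi hρ le_rfl (by simpa using hρ.le)) ?_⟩
    rw [← h0]; exact ballAvg_nonneg (fun y => abs_nonneg _) x hρ.le
  set N := (ballVol d)⁻¹ * ∫ y, |f y| with hN
  set R₀ := max ρ (max 1 (2 * N / radMax f ρ x)) with hR₀
  set S := {p : Euc d × ℝ | ρ ≤ p.2 ∧ p.2 ≤ R₀ ∧ dist x p.1 ≤ p.2} with hS
  have hSc : IsCompact S := by
    refine ((isCompact_closedBall x R₀).prod (isCompact_Icc (a := ρ) (b := R₀))).of_isClosed_subset
      ?_ fun p hp => ⟨mem_closedBall'.2 (hp.2.2.trans hp.2.1), hp.1, hp.2.1⟩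
    exact (isClosed_le continuous_const continuous_snd).inter
      ((isClosed_le continuous_snd continuous_const).inter
        (isClosed_le (continuous_const.dist continuous_fst) continuous_snd))
  have habs : Continuous fun y => |f y| := hf.abs
  obtain ⟨p, hp, hmax⟩ := hSc.exists_isMaxOn
    ⟨(x, ρ), le_rfl, le_max_left _ _, by simpa using hρ.le⟩
    ((continuousOn_ballAvg habs (hfc.comp_left abs_zero)).mono fun p hp => hρ.trans_le hp.1)
  refine ⟨p.1, p.2, hp.1, hp.2.2, le_antisymm (le_radMax hi hρ hp.1 hp.2.2) ?_⟩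
  have hbig : radMax f ρ x ≤ max (ballAvg (fun y => |f y|) p.1 p.2) (radMax f ρ x / 2) := by
    refine radMax_le hρ.le fun c R hR hx => ?_
    rcases le_or_gt R R₀ with hle | hgt
    · exact le_max_of_le_left (hmax (a := (c, R)) ⟨hR, hle, hx⟩)
    · refine le_max_of_le_right ((ballAvg_le hi c (hρ.trans_le (le_max_left _ _)) hgt.le).trans ?_)
      have hR1 : 1 ≤ R₀ := (le_max_left _ _).trans (le_max_right _ _)
      have hR2 : 2 * N / radMax f ρ x ≤ R₀ := (le_max_right _ _).trans (le_max_right _ _)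
      rw [div_le_iff₀ hpos] at hR2
      have hRd : R₀ ≤ R₀ ^ d := le_self_pow₀ hR1 hd.ne'
      rw [mul_inv, mul_assoc, ← hN, inv_mul_le_iff₀ (by positivity)]
      nlinarith
  rcases le_max_iff.1 hbig with h | h <;> linarith

lemma le_fderiv_of_ge {h : Euc d → ℝ} {x v : Euc d} {a : ℝ} (hd : DifferentiableAt ℝ h x)
    (hge : ∀ᶠ t in 𝓝[>] (0 : ℝ), h x + t * a ≤ h (x + t • v)) : a ≤ fderiv ℝ h x v := by
  have h1 : HasDerivAt (fun t : ℝ => h (x + t • v)) (fderiv ℝ h x v) 0 :=
    hd.hasFDerivAt.hasLineDerivAt v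
  refine ge_of_tendsto h1.tendsto_slope_zero_right ?_
  filter_upwards [hge, self_mem_nhdsWithin] with t ht (ht0 : 0 < t)
  simp only [zero_add, zero_smul, add_zero, smul_eq_mul]
  rw [inv_mul_eq_div, le_div_iff₀ ht0]
  linarith

variable {x c : Euc d} {R : ℝ}

/-- Moving into a maximal ball does not decrease the maximal function. -/
lemma radMax_ge_of_mem (hf : Integrable f) (hρ : 0 < ρ) (hR : ρ ≤ R)
    (hmax : ballAvg (fun y => |f y|) c R = radMax f ρ x) {y : Euc d} (hy : dist y c ≤ R) :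
    radMax f ρ x ≤ radMax f ρ y :=
  hmax ▸ le_radMax hf hρ hR hy

/-- At a point of differentiability the gradient points towards the centre of a maximal ball. -/
lemma gradient_radMax_eq (hf : Integrable f) (hρ : 0 < ρ) (hR : ρ ≤ R) (hx : dist x c ≤ R)
    (hmax : ballAvg (fun y => |f y|) c R = radMax f ρ x)
    (hdiff : DifferentiableAt ℝ (radMax f ρ) x) (hne : ∇ (radMax f ρ) x ≠ 0) :
    R⁻¹ • (x - c) = -(‖∇ (radMax f ρ) x‖⁻¹ • ∇ (radMax f ρ) x) := by
  set G := ∇ (radMax f ρ) x with hG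
  set q := R⁻¹ • (x - c) with hq
  have hR0 : 0 < R := hρ.trans_le hR
  have hq1 : ‖q‖ ≤ 1 := by
    rw [hq, norm_smul, Real.norm_eq_abs, abs_inv, abs_of_pos hR0, inv_mul_le_iff₀ hR0, mul_one,
      ← dist_eq_norm]
    exact hx
  have key : ∀ v, ⟪q, v⟫ < 0 ∨ ‖q‖ < 1 → 0 ≤ ⟪G, v⟫ := by
    intro v hv
    rw [hG, inner_gradient_left]
    refine le_fderiv_of_ge hdiff ?_
    have hev : ∀ᶠ t in 𝓝[>] (0 : ℝ), ‖q + (t / R) • v‖ ≤ 1 := by
      rcases hv with hv | hv
      · have h0 : Tendsto (fun t : ℝ => 2 * ⟪q, v⟫ + t / R * ‖v‖ ^ 2) (𝓝[>] 0)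
            (𝓝 (2 * ⟪q, v⟫)) := by
          have : Continuous fun t : ℝ => 2 * ⟪q, v⟫ + t / R * ‖v‖ ^ 2 := by fun_prop
          simpa using (this.tendsto 0).mono_left nhdsWithin_le_nhds
        filter_upwards [h0.eventually_lt_const (by linarith : 2 * ⟪q, v⟫ < 0),
          self_mem_nhdsWithin] with t ht (ht0 : 0 < t)
        have e : ‖q + (t / R) • v‖ ^ 2 = ‖q‖ ^ 2 + t / R * (2 * ⟪q, v⟫ + t / R * ‖v‖ ^ 2) := by
          rw [norm_add_sq_real, inner_smul_right, norm_smul (t / R) v, mul_pow, Real.norm_eq_abs, sq_abs]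
          ring
        have h2 : t / R * (2 * ⟪q, v⟫ + t / R * ‖v‖ ^ 2) ≤ 0 :=
          mul_nonpos_of_nonneg_of_nonpos (by positivity) ht.le
        have h3 := pow_le_one₀ (n := 2) (norm_nonneg q) hq1
        exact (sq_le_one_iff₀ (norm_nonneg _)).1 (by linarith)
      · have : Continuous fun t : ℝ => ‖q + (t / R) • v‖ := by fun_prop
        have h0 := (this.tendsto 0).mono_left (nhdsWithin_le_nhds (s := Ioi 0))
        simp only [zero_div, zero_smul, add_zero] at h0
        exact (h0.eventually_lt_const hv).mono fun t ht => ht.le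
    filter_upwards [hev] with t ht
    rw [mul_zero, add_zero]
    refine radMax_ge_of_mem hf hρ hR hmax ?_
    have e : x + t • v - c = R • (q + (t / R) • v) := by
      rw [hq, smul_add, smul_smul, smul_smul, mul_inv_cancel₀ hR0.ne', one_smul,
        mul_div_cancel₀ t hR0.ne']
      abel
    rw [dist_eq_norm, e, norm_smul, Real.norm_eq_abs, abs_of_pos hR0]
    exact mul_le_of_le_one_right hR0.le ht
  have hGn : 0 < ‖G‖ := norm_pos_iff.2 hne
  have hq' : ‖q‖ = 1 := by
    by_contra h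
    have h1 := key (-G) (Or.inr (lt_of_le_of_ne hq1 h))
    rw [inner_neg_right, real_inner_self_eq_norm_sq] at h1
    nlinarith
  clear_value q
  set p := G - ⟪G, q⟫ • q with hp
  have hqq : ⟪q, q⟫ = 1 := by rw [real_inner_self_eq_norm_sq, hq', one_pow]
  have hqp : ⟪q, p⟫ = 0 := by
    rw [hp, inner_sub_right, inner_smul_right, hqq, mul_one, real_inner_comm, sub_self]
  have hGp : ⟪G, p⟫ = ‖p‖ ^ 2 := by
    calc ⟪G, p⟫ = ⟪G, p⟫ - ⟪G, q⟫ * ⟪q, p⟫ := by rw [hqp, mul_zero, sub_zero]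
      _ = ⟪G - ⟪G, q⟫ • q, p⟫ := by rw [inner_sub_left, real_inner_smul_left]
      _ = ⟪p, p⟫ := by rw [← hp]
      _ = _ := real_inner_self_eq_norm_sq p
  have hGq : ⟪G, q⟫ ≤ 0 := by
    have h1 := key (-q) (Or.inl (by rw [inner_neg_right, hqq]; norm_num))
    rw [inner_neg_right] at h1
    linarith
  have hp0 : p = 0 := by
    by_contra h
    have hpn : 0 < ‖p‖ ^ 2 := by positivity
    set ε := ‖p‖ ^ 2 / (2 * (-⟪G, q⟫ + 1)) with hε
    have hε0 : 0 < ε := by have : 0 < -⟪G, q⟫ + 1 := by linarith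
                           positivity
    have h1 := key (-p - ε • q) (Or.inl (by
      rw [inner_sub_right, inner_neg_right, hqp, inner_smul_right, hqq]; linarith))
    rw [inner_sub_right, inner_neg_right, hGp, inner_smul_right] at h1
    have h2 : ε * (-⟪G, q⟫ + 1) = ‖p‖ ^ 2 / 2 := by
      rw [hε, div_mul_eq_mul_div, div_eq_div_iff (by linarith) two_ne_zero]; ring
    nlinarith
  have hG' : G = ⟪G, q⟫ • q := sub_eq_zero.1 hp0
  have hnorm : ‖G‖ = -⟪G, q⟫ := by
    conv_lhs => rw [hG']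
    rw [norm_smul, hq', mul_one, Real.norm_eq_abs, abs_of_nonpos hGq]
  rw [hnorm]
  have hne' : ⟪G, q⟫ ≠ 0 := by linarith
  calc q = -((-⟪G, q⟫)⁻¹ • (⟪G, q⟫ • q)) := by
        rw [smul_smul, inv_neg, neg_mul, inv_mul_cancel₀ hne', neg_smul, one_smul, neg_neg]
    _ = -((-⟪G, q⟫)⁻¹ • G) := by rw [← hG']

/-- Size of the gradient. -/
lemma norm_gradient_radMax_le (hd : 0 < d) (hf : Continuous f) (hfc : HasCompactSupport f)
    (hρ : 0 < ρ) {K : ℝ} (hK : ∀ y, f y ≠ 0 → ‖y‖ ≤ K)
    (hdiff : DifferentiableAt ℝ (radMax f ρ) x) :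
    ‖∇ (radMax f ρ) x‖ ≤ d / max ρ ((‖x‖ - K) / 2) * radMax f ρ x := by
  have hi : Integrable f := hf.integrable_of_hasCompactSupport hfc
  obtain ⟨c, R, hR, hx, hmax⟩ := exists_maximizer hd hf hfc hρ x
  set σ := max ρ ((‖x‖ - K) / 2) with hσ
  set G := ∇ (radMax f ρ) x with hG
  have hσ0 : 0 < σ := lt_max_of_lt_left hρ
  have hR0 : 0 < R := hρ.trans_le hR
  have hL := radMax_nonneg hi hρ x
  have hmain : ⟪G, G⟫ ≤ d / σ * ‖G‖ * radMax f ρ x := by
    have h1 : -(d * ‖G‖ / σ * radMax f ρ x) ≤ fderiv ℝ (radMax f ρ) x (-G) := by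
      refine le_fderiv_of_ge hdiff ?_
      filter_upwards [self_mem_nhdsWithin] with t (ht : 0 < t)
      rcases hL.eq_or_lt with h0 | hpos
      · rw [← h0]
        simpa using radMax_nonneg hi hρ _
      · have hRσ : σ ≤ R := max_le hR (by
          by_contra hlt
          push Not at hlt
          have hz : ∀ y ∈ ball c R, f y = 0 := fun y hy => by
            by_contra hy0
            have h1 : ‖x‖ ≤ dist x c + dist c y + dist y 0 := by
              rw [← dist_zero_right x]; exact dist_triangle4 _ _ _ _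
            rw [dist_zero_right, dist_comm c y] at h1
            linarith [hK y hy0, mem_ball.1 hy]
          rw [ballAvg, setIntegral_eq_zero_of_forall_eq_zero fun y hy => by simp [hz y hy],
            mul_zero] at hmax
          linarith)
        have h2 := ballAvg_enlarge (h := fun y => |f y|) (fun y => abs_nonneg _) hi.abs c hR0
          (norm_nonneg (t • -G))
        have h3 : dist (x + t • -G) c ≤ R + ‖t • -G‖ := by
          refine (dist_triangle _ x _).trans ?_
          rw [dist_self_add_left]; linarith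
        have h4 := h2.trans (le_radMax hi hρ (by linarith [norm_nonneg (t • -G)]) h3)
        rw [hmax, norm_smul, norm_neg, Real.norm_eq_abs, abs_of_pos ht] at h4
        refine le_trans ?_ h4
        have h5 : d * (t * ‖G‖) / R ≤ d * (t * ‖G‖) / σ :=
          div_le_div_of_nonneg_left (by positivity) hσ0 hRσ
        have h6 : t * -(d * ‖G‖ / σ * radMax f ρ x) =
            -(d * (t * ‖G‖) / σ) * radMax f ρ x := by ring
        rw [h6]
        nlinarith
    rw [← inner_gradient_left (f := radMax f ρ), ← hG, inner_neg_right] at h1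
    have : d * ‖G‖ / σ = d / σ * ‖G‖ := by ring
    rw [this] at h1
    linarith
  rw [real_inner_self_eq_norm_sq, sq] at hmain
  rcases (norm_nonneg G).eq_or_lt with h | h
  · rw [← h]; positivity
  · nlinarith

omit x c R in
/-- For Lipschitz data the truncated maximal functions are uniformly Lipschitz. -/
lemma lipschitz_radMax_of_lipschitz {L : ℝ≥0} (hf : LipschitzWith L f) (hfc : HasCompactSupport f)
    (hρ : 0 < ρ) : LipschitzWith L (radMax f ρ) := by
  have hi : Integrable f := hf.continuous.integrable_of_hasCompactSupport hfc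
  refine LipschitzWith.of_le_add_mul _ fun x y => radMax_le hρ.le fun c R hR hx => ?_
  have hR0 : 0 < R := hρ.trans_le hR
  have hy : dist y (c + (y - x)) ≤ R := by
    rw [dist_eq_norm] at hx ⊢
    rwa [show y - (c + (y - x)) = x - c by abel]
  have hmain : ballAvg (fun y => |f y|) c R ≤
      ballAvg (fun y => |f y|) (c + (y - x)) R + L * dist x y := by
    rw [ballAvg_eq_unit _ _ hR0, ballAvg_eq_unit _ _ hR0]
    have hfin : IsFiniteMeasure (volume.restrict (ball (0 : Euc d) 1)) :=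
      ⟨by rw [Measure.restrict_apply_univ]; exact measure_ball_lt_top⟩
    have hint : ∀ c' : Euc d, IntegrableOn (fun u => |f (c' + R • u)|) (ball (0 : Euc d) 1) := by
      intro c'
      have hcont : Continuous fun u : Euc d => |f (c' + R • u)| :=
        (hf.continuous.comp (continuous_const.add (continuous_id.const_smul R))).abs
      obtain ⟨B, hB⟩ := hfc.exists_bound_of_continuous hf.continuous
      exact Integrable.of_bound hcont.aestronglyMeasurable B
        (ae_of_all _ fun u => by simpa using hB (c' + R • u))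
    have hle : ∫ u in ball (0 : Euc d) 1, |f (c + R • u)| ≤
        ∫ u in ball (0 : Euc d) 1, (|f (c + (y - x) + R • u)| + L * dist x y) := by
      refine integral_mono (hint c) ((hint _).add (integrable_const _)) fun u => ?_
      have h1 := hf.dist_le_mul (c + R • u) (c + (y - x) + R • u)
      rw [Real.dist_eq] at h1
      have h2 : dist (c + R • u) (c + (y - x) + R • u) = dist x y := by
        rw [dist_eq_norm, dist_eq_norm]
        congr 1
        abel
      rw [h2] at h1
      have h3 := abs_sub_abs_le_abs_sub (f (c + R • u)) (f (c + (y - x) + R • u))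
      show |f (c + R • u)| ≤ _
      linarith
    rw [integral_add (hint _) (integrable_const _), setIntegral_const, smul_eq_mul] at hle
    have hV : 0 < ballVol d := ballVol_pos
    have h4 := mul_le_mul_of_nonneg_left hle (inv_nonneg.2 hV.le)
    rw [mul_add, measureReal_def, ← ballVol, ← mul_assoc (ballVol d)⁻¹ (ballVol d),
      inv_mul_cancel₀ hV.ne', one_mul] at h4
    exact h4
  linarith [le_radMax hi hρ hR hy]

omit x c R in
lemma radMax_le_bound {B : ℝ} (hi : Integrable f) (hB : ∀ y, |f y| ≤ B) (hρ : 0 < ρ) (x : Euc d) :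
    radMax f ρ x ≤ B := by
  refine radMax_le hρ.le fun c R hR hx => ?_
  have hR0 : 0 < R := hρ.trans_le hR
  rw [ballAvg, inv_mul_le_iff₀ (mul_pos (pow_pos hR0 d) ballVol_pos), ← volume_ball_toReal c hR0]
  calc ∫ y in ball c R, |f y| ≤ ∫ _y in ball c R, B :=
        setIntegral_mono hi.abs.integrableOn (integrableOn_const measure_ball_lt_top.ne) hB
    _ = _ := by rw [setIntegral_const, smul_eq_mul, measureReal_def]

omit x c R in
lemma laverage_eq_ballAvg (hi : Integrable f) (c : Euc d) {R : ℝ} (hR : 0 < R) :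
    ⨍⁻ y in ball c R, ‖f y‖ₑ ∂volume = ENNReal.ofReal (ballAvg (fun y => |f y|) c R) := by
  rw [setLAverage_eq, ← ofReal_integral_norm_eq_lintegral_enorm hi.integrableOn,
    ← ENNReal.ofReal_toReal (measure_ball_lt_top (μ := volume) (x := c) (r := R)).ne,
    volume_ball_toReal c hR, ← ENNReal.ofReal_div_of_pos (mul_pos (pow_pos hR d) ballVol_pos),
    ballAvg, div_eq_inv_mul]
  simp only [Real.norm_eq_abs]

omit x c R in
/-- The uncentred maximal function is the supremum of the truncated ones. -/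
lemma uncenteredMax_eq_iSup (hi : Integrable f) (x : Euc d) :
    uncenteredMax f x = ⨆ n : ℕ, ENNReal.ofReal (radMax f ((1 / 2) ^ n) x) := by
  refine le_antisymm (iSup_le fun c => iSup_le fun r => iSup_le fun hx => ?_) (iSup_le fun n => ?_)
  · have hr : 0 < r := pos_of_mem_ball hx
    obtain ⟨n, hn⟩ := exists_pow_lt_of_lt_one hr (by norm_num : (1 / 2 : ℝ) < 1)
    rw [laverage_eq_ballAvg hi c hr]
    exact le_iSup_of_le n (ENNReal.ofReal_le_ofReal
      (le_radMax hi (by positivity) hn.le (mem_ball.1 hx).le))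
  · set σ : ℝ := (1 / 2) ^ n with hσ
    have hσ0 : 0 < σ := by positivity
    rcases eq_or_ne (uncenteredMax f x) ∞ with h | h
    · simp [h]
    rw [← ENNReal.ofReal_toReal h]
    refine ENNReal.ofReal_le_ofReal (radMax_le hσ0.le fun c R hR hx => ?_)
    have hR0 : 0 < R := hσ0.trans_le hR
    have hle : ∀ᶠ δ in 𝓝[>] (0 : ℝ),
        (1 - d * δ / R) * ballAvg (fun y => |f y|) c R ≤ (uncenteredMax f x).toReal := by
      filter_upwards [self_mem_nhdsWithin] with δ (hδ : 0 < δ)
      refine (ballAvg_enlarge (fun y => abs_nonneg _) hi.abs c hR0 hδ.le).trans ?_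
      refine (ENNReal.ofReal_le_iff_le_toReal h).1 ?_
      rw [← laverage_eq_ballAvg hi c (by linarith)]
      exact le_iSup_of_le c (le_iSup_of_le (R + δ)
        (le_iSup_of_le (mem_ball.2 (by linarith)) le_rfl))
    refine le_of_tendsto ?_ hle
    have hc : Continuous fun δ : ℝ => (1 - d * δ / R) * ballAvg (fun y => |f y|) c R := by fun_prop
    simpa using (hc.tendsto 0).mono_left (nhdsWithin_le_nhds (s := Ioi 0))

end Vale.Agent.P137
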