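import Vale.Agent.P137.Geometry
import Vale.Agent.P137.Radius

/-!
# P137: definitions for the core estimate
-/

open MeasureTheory Filter Set Metric
open scoped ENNReal NNReal Topology RealInnerProductSpace Gradient

noncomputable section

namespace Vale.Agent.P137

variable {d : ℕ}

/-- The decay rate `2^(-1/8)`. -/
def theta : ℝ := (1 / 2 : ℝ) ^ (1 / 8 : ℝ)

lemma theta_pos : 0 < theta := Real.rpow_pos_of_pos (by norm_num) _

lemma theta_lt_one : theta < 1 := Real.rpow_lt_one (by norm_num) (by norm_num) (by norm_num)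

lemma theta_pow_eight : theta ^ 8 = 1 / 2 := by
  rw [theta, ← Real.rpow_natCast, ← Real.rpow_mul (by norm_num)]
  norm_num

lemma theta_pow_le_one (j : ℕ) : theta ^ j ≤ 1 := pow_le_one₀ theta_pos.le theta_lt_one.le

lemma summable_mul_theta_pow : Summable fun j : ℕ => (j : ℝ) * theta ^ j := by
  simpa using summable_pow_mul_geometric_of_norm_lt_one 1
    (r := theta) (by rw [Real.norm_eq_abs, abs_of_pos theta_pos]; exact theta_lt_one)

/-- Excess of a vector relative to a direction. -/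
def excN (v n : Euc d) : ℝ := ‖v‖ - ⟪v, n⟫

lemma excN_nonneg (v : Euc d) {n : Euc d} (hn : ‖n‖ = 1) : 0 ≤ excN v n := by
  have h := real_inner_le_norm v n
  rw [hn, mul_one] at h
  unfold excN; linarith

/-- Side of the box used for the estimates near a centre at scale `ρ`. -/
def boxSide (ρ : ℝ) : ℝ := 24 * ρ

/-- Excess of the subboxes of level `j`, relative to `n`. -/
def levelExc (g : Euc d → Euc d) (n c₀ : Euc d) (ρ : ℝ) (j : ℕ) (a : Fin d → ℕ) : ℝ :=
  excN (vec g (gridPt c₀ (boxSide ρ) j a) (boxSide ρ / 2 ^ j)) n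

/-- The part of the error bound which does not see the position. -/
def farPart (g : Euc d → Euc d) (n c₀ : Euc d) (ρ : ℝ) (J : ℕ) : ℝ :=
  ∑ j ∈ Finset.range J, theta ^ j * ∑ a ∈ gridIdx d j, levelExc g n c₀ ρ j a

/-- The part of the error bound concentrated near the subboxes. -/
def nearPart (C : ℝ) (g : Euc d → Euc d) (n c₀ : Euc d) (ρ : ℝ) (J : ℕ) (y : Euc d) : ℝ :=
  ∑ j ∈ Finset.range J, ∑ a ∈ gridIdx d j,
    (closedBall (gridPt c₀ (boxSide ρ) j a) (C * theta ^ j * ρ)).indicator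
      (fun _ => levelExc g n c₀ ρ j a) y

/-- The bound on the drop from a maximal ball to the comparison ball. -/
def gammaJ (C : ℝ) (g : Euc d → Euc d) (G : ℝ) (n c₀ : Euc d) (ρ : ℝ) (J : ℕ) (y : Euc d) : ℝ :=
  C * ρ / ρ ^ d * (farPart g n c₀ ρ J + nearPart C g n c₀ ρ J y) + C * ρ * G * (1 / 2) ^ J

/-- The normalised bump at scale `ρ` centred at `c₀`. -/
def bumpAt (ρ : ℝ) (c₀ x : Euc d) : ℝ :=
  (ρ ^ d)⁻¹ *
    (⟨1 / 2, 1, by norm_num, by norm_num⟩ : ContDiffBump (0 : Euc d)).normed volume (ρ⁻¹ • (x - c₀))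

end Vale.Agent.P137
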