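import Mathlib

/-!
# P137: definitions for the uncentred maximal function
-/

open MeasureTheory Filter Set Metric
open scoped ENNReal Topology RealInnerProductSpace

noncomputable section

namespace Vale.Agent.P137

/-- `d`-dimensional Euclidean space. -/
abbrev Euc (d : ℕ) := EuclideanSpace ℝ (Fin d)

variable {d : ℕ}

/-- The `i`th coordinate vector. -/
abbrev unitVec (i : Fin d) : Euc d := EuclideanSpace.single i (1 : ℝ)

/-- The uncentred maximal function: supremum of averages of `|f|` over open balls containing `x`. -/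
def uncenteredMax (f : Euc d → ℝ) (x : Euc d) : ℝ≥0∞ :=
  ⨆ (c : Euc d) (r : ℝ) (_ : x ∈ ball c r), ⨍⁻ y in ball c r, ‖f y‖ₑ ∂volume

/-- Real valued version of the uncentred maximal function. -/
def maxFn (f : Euc d → ℝ) (x : Euc d) : ℝ := (uncenteredMax f x).toReal

/-- `g` is a weak gradient of `f`. -/
def HasWeakGrad (f : Euc d → ℝ) (g : Euc d → Euc d) : Prop :=
  ∀ φ : Euc d → ℝ, ContDiff ℝ ((⊤ : ℕ∞) : WithTop ℕ∞) φ → HasCompactSupport φ → ∀ i,
    ∫ x, f x * fderiv ℝ φ x (unitVec i) = -∫ x, g x i * φ x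

/-- Restriction of `F` to the line through `x` in direction `i`. -/
def lineFn (F : Euc d → ℝ) (i : Fin d) (x : Euc d) (t : ℝ) : ℝ := F (x + t • unitVec i)

/-- The slab `0 ≤ xᵢ < 1`; it parametrises the lines in direction `i`. -/
def slab (i : Fin d) : Set (Euc d) := {x | x i ∈ Ico (0 : ℝ) 1}

/-- Total variation of `F` along the lines in direction `i`. -/
def lineVar (i : Fin d) (F : Euc d → ℝ) : ℝ≥0∞ :=
  ∫⁻ x in slab i, eVariationOn (lineFn F i x) univ

/-- The null set to null set property of Luzin. -/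
def LuzinN (φ : ℝ → ℝ) : Prop := ∀ s : Set ℝ, volume s = 0 → volume (φ '' s) = 0

end Vale.Agent.P137
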