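import Vale.Agent.P137.Defs

/-!
# P137: density of compactly supported C¹ functions in W^{1,1}
-/

open MeasureTheory Filter Set Metric
open scoped ENNReal NNReal Topology RealInnerProductSpace Convolution

noncomputable section

namespace Vale.Agent.P137

variable {d : ℕ} {F : Type*} [NormedAddCommGroup F] [NormedSpace ℝ F]

/-- Mollification. -/
def mol (φ : Euc d → ℝ) (h : Euc d → F) (x : Euc d) : F := ∫ t, φ (x - t) • h t

lemma mol_eq (φ : Euc d → ℝ) (h : Euc d → F) (x : Euc d) :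
    mol φ h x = ∫ t, φ t • h (x - t) := by
  rw [mol, ← integral_sub_left_eq_self (fun t => φ (x - t) • h t) volume x]
  simp

lemma enorm_mol_le {φ : Euc d → ℝ} (hφ : ∀ t, 0 ≤ φ t) (h : Euc d → F) (x : Euc d) :
    ‖mol φ h x‖ₑ ≤ ∫⁻ t, ENNReal.ofReal (φ t) * ‖h (x - t)‖ₑ := by
  rw [mol_eq]
  refine (enorm_integral_le_lintegral_enorm _).trans (le_of_eq (lintegral_congr fun t => ?_))
  rw [enorm_smul, Real.enorm_eq_ofReal (hφ t)]

lemma lintegral_ofReal_eq_one {φ : Euc d → ℝ} (hφc : Continuous φ) (hs : HasCompactSupport φ)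
    (hφ : ∀ t, 0 ≤ φ t) (h1 : ∫ t, φ t = 1) : ∫⁻ t, ENNReal.ofReal (φ t) = 1 := by
  rw [← ofReal_integral_eq_lintegral_ofReal (hφc.integrable_of_hasCompactSupport hs)
    (ae_of_all _ hφ), h1, ENNReal.ofReal_one]

lemma lintegral_conv_le {φ : Euc d → ℝ} (hφc : Continuous φ) {h : Euc d → F}
    (hh : AEStronglyMeasurable h) :
    ∫⁻ x, ∫⁻ t, ENNReal.ofReal (φ t) * ‖h (x - t)‖ₑ
      = (∫⁻ t, ENNReal.ofReal (φ t)) * ∫⁻ x, ‖h x‖ₑ := by
  have hm : AEMeasurable (Function.uncurry fun x t => ENNReal.ofReal (φ t) * ‖h (x - t)‖ₑ)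
      ((volume : Measure (Euc d)).prod volume) :=
    ((hφc.measurable.ennreal_ofReal.comp measurable_snd).aemeasurable).mul
      (hh.comp_quasiMeasurePreserving
        (quasiMeasurePreserving_sub_of_right_invariant volume volume)).enorm
  rw [lintegral_lintegral_swap hm, ← lintegral_mul_const _ hφc.measurable.ennreal_ofReal]
  refine lintegral_congr fun t => ?_
  rw [lintegral_const_mul' _ _ ENNReal.ofReal_ne_top,
    lintegral_sub_right_eq_self (fun x => ‖h x‖ₑ) t]

lemma lintegral_mol_le {φ : Euc d → ℝ} (hφc : Continuous φ) (hs : HasCompactSupport φ)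
    (hφ : ∀ t, 0 ≤ φ t) (h1 : ∫ t, φ t = 1) {h : Euc d → F} (hh : AEStronglyMeasurable h) :
    ∫⁻ x, ‖mol φ h x‖ₑ ≤ ∫⁻ x, ‖h x‖ₑ := by
  refine (lintegral_mono fun x => enorm_mol_le hφ h x).trans_eq ?_
  rw [lintegral_conv_le hφc hh, lintegral_ofReal_eq_one hφc hs hφ h1, one_mul]

/-- Translation is continuous in `L¹`. -/
lemma tendsto_translate {h : Euc d → F} (hh : Integrable h) :
    Tendsto (fun t : Euc d => ∫⁻ x, ‖h (x - t) - h x‖ₑ) (𝓝 0) (𝓝 0) := by
  rw [ENNReal.tendsto_nhds_zero]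
  intro ε hε
  have hε4 : ε / 4 ≠ 0 := (ENNReal.div_pos hε.ne' (by norm_num)).ne'
  obtain ⟨k, hks, hk, hkc, hki⟩ := hh.exists_hasCompactSupport_lintegral_sub_le hε4
  have hlim : Tendsto (fun t : Euc d => ∫⁻ x, ‖k (x - t) - k x‖ₑ) (𝓝 0) (𝓝 0) := by
    obtain ⟨C, hC⟩ := hks.exists_bound_of_continuous hkc
    set S := cthickening 1 (tsupport k)
    have hS : IsCompact S := hks.cthickening
    have h0 : (∫⁻ _x : Euc d, (0 : ℝ≥0∞)) = 0 := by simp
    rw [← h0]
    refine tendsto_lintegral_filter_of_dominated_convergence'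
      (S.indicator fun _ => 2 * ENNReal.ofReal C) (Eventually.of_forall fun t =>
        ((hkc.comp (continuous_id.sub continuous_const)).sub hkc).enorm.measurable.aemeasurable)
      ?_ ?_ (ae_of_all _ fun x => ?_)
    · filter_upwards [ball_mem_nhds (0 : Euc d) one_pos] with t ht
      refine ae_of_all _ fun x => ?_
      have hb : ∀ y, ‖k y‖ₑ ≤ ENNReal.ofReal C := fun y => by
        rw [← ofReal_norm]; exact ENNReal.ofReal_le_ofReal (hC y)
      by_cases hx : x ∈ S
      · rw [indicator_of_mem hx, two_mul]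
        exact (enorm_sub_le).trans (add_le_add (hb _) (hb _))
      · rw [indicator_of_notMem hx]
        have h1 : k x = 0 := image_eq_zero_of_notMem_tsupport fun h => hx
          (self_subset_cthickening _ h)
        have h2 : k (x - t) = 0 := image_eq_zero_of_notMem_tsupport fun h => hx
          (mem_cthickening_of_dist_le x (x - t) 1 _ h (by
            rw [dist_eq_norm, sub_sub_cancel]; exact (mem_ball_zero_iff.1 ht).le))
        simp [h1, h2]
    · rw [lintegral_indicator_const hS.measurableSet]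
      exact ENNReal.mul_ne_top (by finiteness) hS.measure_lt_top.ne
    · have hc : Continuous fun t : Euc d => ‖k (x - t) - k x‖ₑ := by fun_prop
      simpa using hc.tendsto 0
  filter_upwards [(ENNReal.tendsto_nhds_zero.1 hlim) (ε / 4) (pos_iff_ne_zero.2 hε4)] with t ht
  calc ∫⁻ x, ‖h (x - t) - h x‖ₑ
      ≤ ∫⁻ x, (‖h (x - t) - k (x - t)‖ₑ + ‖k (x - t) - k x‖ₑ + ‖h x - k x‖ₑ) := by
        refine lintegral_mono fun x => ?_
        rw [← enorm_neg (h x - k x)]
        calc ‖h (x - t) - h x‖ₑ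
            = ‖(h (x - t) - k (x - t)) + (k (x - t) - k x) + -(h x - k x)‖ₑ := by
              congr 1; abel
          _ ≤ _ := (enorm_add_le _ _).trans (add_le_add (enorm_add_le _ _) le_rfl)
    _ = (∫⁻ x, ‖h (x - t) - k (x - t)‖ₑ) + (∫⁻ x, ‖k (x - t) - k x‖ₑ)
        + ∫⁻ x, ‖h x - k x‖ₑ := by
        have m2 : AEMeasurable fun x => ‖k (x - t) - k x‖ₑ :=
          (by fun_prop : Continuous fun x => ‖k (x - t) - k x‖ₑ).measurable.aemeasurable
        have m3 : AEMeasurable fun x => ‖h x - k x‖ₑ := (hh.1.sub hki.1).enorm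
        rw [lintegral_add_right' _ m3, lintegral_add_right' _ m2]
    _ ≤ ε / 4 + ε / 4 + ε / 4 := by
        rw [lintegral_sub_right_eq_self (fun x => ‖h x - k x‖ₑ) t]
        gcongr
    _ ≤ ε := by
        calc ε / 4 + ε / 4 + ε / 4 ≤ ε / 4 + ε / 4 + ε / 4 + ε / 4 := le_self_add
          _ = ε := by
            rw [show ε / 4 + ε / 4 + ε / 4 + ε / 4 = 4 * (ε / 4) by ring,
              ENNReal.mul_div_cancel (by norm_num) (by norm_num)]

/-- Mollifiers form an approximate identity in `L¹`. -/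
lemma tendsto_mol [CompleteSpace F] {φ : ℕ → ContDiffBump (0 : Euc d)}
    (hr : Tendsto (fun n => (φ n).rOut) atTop (𝓝 0)) {h : Euc d → F} (hh : Integrable h) :
    Tendsto (fun n => ∫⁻ x, ‖mol ((φ n).normed volume) h x - h x‖ₑ) atTop (𝓝 0) := by
  rw [ENNReal.tendsto_nhds_zero]
  intro ε hε
  obtain ⟨δ, hδ, hδt⟩ := Metric.eventually_nhds_iff.1
    ((ENNReal.tendsto_nhds_zero.1 (tendsto_translate hh)) ε hε)
  filter_upwards [hr.eventually (gt_mem_nhds hδ)] with n hn
  set p := (φ n).normed volume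
  have hp : Continuous p := (φ n).continuous_normed
  have hps : HasCompactSupport p := (φ n).hasCompactSupport_normed
  have hp0 : ∀ t, 0 ≤ p t := fun t => (φ n).nonneg_normed t
  have hp1 : ∫ t, p t = 1 := (φ n).integral_normed
  have hint : ∀ᵐ x, Integrable fun t => p t • h (x - t) := by
    refine ae_of_all _ fun x => ?_
    obtain ⟨C, hC⟩ := hps.exists_bound_of_continuous hp
    exact (hh.comp_sub_left x).bdd_smul C hp.aestronglyMeasurable (ae_of_all _ hC)
  calc ∫⁻ x, ‖mol p h x - h x‖ₑ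
      ≤ ∫⁻ x, ∫⁻ t, ENNReal.ofReal (p t) * ‖h (x - t) - h x‖ₑ := by
        refine lintegral_mono_ae ?_
        filter_upwards [hint] with x hx
        have e : mol p h x - h x = ∫ t, p t • (h (x - t) - h x) := by
          simp only [smul_sub]
          rw [integral_sub hx ((hp.integrable_of_hasCompactSupport hps).smul_const _), mol_eq,
            integral_smul_const, hp1, one_smul]
        rw [e]
        refine (enorm_integral_le_lintegral_enorm _).trans (le_of_eq (lintegral_congr fun t => ?_))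
        rw [enorm_smul, Real.enorm_eq_ofReal (hp0 t)]
    _ = ∫⁻ t, ENNReal.ofReal (p t) * ∫⁻ x, ‖h (x - t) - h x‖ₑ := by
        rw [lintegral_lintegral_swap]
        · exact lintegral_congr fun t => lintegral_const_mul' _ _ ENNReal.ofReal_ne_top
        · exact ((hp.measurable.ennreal_ofReal.comp measurable_snd).aemeasurable).mul
            ((hh.1.comp_quasiMeasurePreserving
              (quasiMeasurePreserving_sub_of_right_invariant volume volume)).sub hh.1.comp_fst).enorm
    _ ≤ ∫⁻ t, ENNReal.ofReal (p t) * ε := by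
        refine lintegral_mono fun t => ?_
        by_cases ht : t ∈ Function.support p
        · refine mul_le_mul_right (hδt ?_) _
          rw [(φ n).support_normed_eq] at ht
          exact (mem_ball.1 ht).trans hn
        · simp [Function.notMem_support.1 ht]
    _ = ε := by
        rw [lintegral_mul_const _ hp.measurable.ennreal_ofReal,
          lintegral_ofReal_eq_one hp hps hp0 hp1, one_mul]

/-- Mollifying a Sobolev function mollifies its gradient. -/
lemma hasFDerivAt_mol {f : Euc d → ℝ} {g : Euc d → Euc d} (hf : Integrable f) (hg : Integrable g)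
    (hw : HasWeakGrad f g) {φ : Euc d → ℝ} (hφ : ContDiff ℝ ((⊤ : ℕ∞) : WithTop ℕ∞) φ)
    (hs : HasCompactSupport φ) (x : Euc d) :
    HasFDerivAt (mol φ f) (innerSL ℝ (mol φ g x)) x := by
  have hφ1 : ContDiff ℝ 1 φ := hφ.of_le (mod_cast le_top)
  set L := ContinuousLinearMap.lsmul ℝ ℝ (E := ℝ)
  have hF : mol φ f = f ⋆[L, volume] φ := by
    funext y
    simp only [mol, convolution_def, L, ContinuousLinearMap.lsmul_apply, smul_eq_mul]
    exact integral_congr_ae (ae_of_all _ fun t => mul_comm _ _)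
  have hd := hs.hasFDerivAt_convolution_right L hf.locallyIntegrable hφ1 x
  rw [hF]
  refine hd.congr_fderiv (ContinuousLinearMap.coe_injective
    ((EuclideanSpace.basisFun (Fin d) ℝ).toBasis.ext fun i => ?_))
  simp only [OrthonormalBasis.coe_toBasis, EuclideanSpace.basisFun_apply,
    ContinuousLinearMap.coe_coe, innerSL_apply_apply, EuclideanSpace.inner_single_right,
    conj_trivial, one_mul]
  rw [convolution_precompR_apply L hf.locallyIntegrable (hs.fderiv ℝ)
    (hφ1.continuous_fderiv one_ne_zero)]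
  have hψ : ContDiff ℝ ((⊤ : ℕ∞) : WithTop ℕ∞) fun t => φ (x - t) :=
    hφ.comp (contDiff_const.sub contDiff_id)
  have hψs : HasCompactSupport fun t => φ (x - t) :=
    hs.comp_homeomorph (Homeomorph.subLeft x)
  have key := hw _ hψ hψs i
  have e : ∀ t, fderiv ℝ (fun t => φ (x - t)) t (unitVec i)
      = -fderiv ℝ φ (x - t) (unitVec i) := fun t => by
    have h1 := ((hφ1.differentiable one_ne_zero) (x - t)).hasFDerivAt.comp t
      ((hasFDerivAt_id t).const_sub x)
    have h2 : HasFDerivAt (fun t => φ (x - t)) _ t := h1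
    rw [h2.fderiv]; simp
  simp only [e, mul_neg, integral_neg, neg_inj] at key
  rw [convolution_def]
  simp only [L, ContinuousLinearMap.lsmul_apply, smul_eq_mul]
  rw [key, mol]
  have hint : Integrable fun t => φ (x - t) • g t := by
    obtain ⟨C, hC⟩ := hs.exists_bound_of_continuous hφ.continuous
    exact hg.bdd_smul C (hφ.continuous.comp (continuous_const.sub continuous_id)).aestronglyMeasurable
      (ae_of_all _ fun t => hC _)
  have := (EuclideanSpace.proj (𝕜 := ℝ) i).integral_comp_comm hint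
  simp only [PiLp.proj_apply, PiLp.smul_apply, smul_eq_mul] at this
  rw [← this]
  exact integral_congr_ae (ae_of_all _ fun t => mul_comm _ _)

/-- Fast approximation of a Sobolev function by compactly supported C¹ functions. -/
theorem exists_fast_approx {f : Euc d → ℝ} {g : Euc d → Euc d} (hf : Integrable f)
    (hg : Integrable g) (hw : HasWeakGrad f g) :
    ∃ u : ℕ → Euc d → ℝ, (∀ n, ContDiff ℝ 1 (u n) ∧ HasCompactSupport (u n)) ∧
      (∑' n, ∫⁻ x, ‖u n x - f x‖ₑ) ≠ ∞ ∧
      (∀ i, (∑' n, ∫⁻ x, ‖fderiv ℝ (u n) x (unitVec i) - g x i‖ₑ) ≠ ∞) ∧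
      ∀ n, ∫⁻ x, ‖fderiv ℝ (u n) x‖ₑ ≤ (∫⁻ x, ‖g x‖ₑ) + 2⁻¹ ^ n := by
  let φ : ℕ → ContDiffBump (0 : Euc d) := fun N =>
    ⟨1 / (2 * (N + 1)), 1 / (N + 1), by positivity,
      div_lt_div_of_pos_left one_pos (by positivity) (by
        have : (0 : ℝ) ≤ N := N.cast_nonneg
        linarith)⟩
  have hr : Tendsto (fun N => (φ N).rOut) atTop (𝓝 0) := tendsto_one_div_add_atTop_nhds_zero_nat
  obtain ⟨χ, hχc, hχs, hχ1, hχ01⟩ : ∃ χ : Euc d → ℝ, ContDiff ℝ 1 χ ∧ HasCompactSupport χ ∧
      (∀ x ∈ closedBall (0 : Euc d) 1, χ x = 1) ∧ ∀ x, χ x ∈ Icc (0 : ℝ) 1 := by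
    let b : ContDiffBump (0 : Euc d) := ⟨1, 2, one_pos, one_lt_two⟩
    exact ⟨b, b.contDiff, b.hasCompactSupport, fun x hx => b.one_of_mem_closedBall hx,
      fun x => ⟨b.nonneg, b.le_one⟩⟩
  obtain ⟨Cχ, hCχ⟩ := (hχs.fderiv ℝ).exists_bound_of_continuous (hχc.continuous_fderiv one_ne_zero)
  let c : ℕ → Euc d → ℝ := fun N x => χ ((N + 1 : ℝ)⁻¹ • x)
  let F : ℕ → Euc d → ℝ := fun N => mol ((φ N).normed volume) f
  let G : ℕ → Euc d → Euc d := fun N => mol ((φ N).normed volume) g
  let w : ℕ → Euc d → ℝ := fun N x => c N x * F N x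
  have hFd : ∀ N x, HasFDerivAt (F N) (innerSL ℝ (G N x)) x := fun N =>
    hasFDerivAt_mol hf hg hw (φ N).contDiff_normed (φ N).hasCompactSupport_normed
  have hmolG : ∀ N, Continuous (G N) := fun N => by
    have := ((φ N).hasCompactSupport_normed (μ := (volume : Measure (Euc d)))).continuous_convolution_left
      (ContinuousLinearMap.lsmul ℝ ℝ (E := Euc d)) (φ N).continuous_normed
      (hg.locallyIntegrable) (μ := volume)
    have e : G N = (φ N).normed volume ⋆[ContinuousLinearMap.lsmul ℝ ℝ (E := Euc d), volume] g := by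
      funext x
      simp only [G, mol_eq, convolution_def, ContinuousLinearMap.lsmul_apply]
    rw [e]
    exact this
  have hFc : ∀ N, ContDiff ℝ 1 (F N) := fun N => by
    refine contDiff_one_iff_fderiv.2 ⟨fun x => (hFd N x).differentiableAt, ?_⟩
    rw [show fderiv ℝ (F N) = fun x => innerSL ℝ (G N x) from funext fun x => (hFd N x).fderiv]
    exact (innerSL ℝ).continuous.comp (hmolG N)
  have hcd : ∀ N x, HasFDerivAt (c N)
      ((N + 1 : ℝ)⁻¹ • fderiv ℝ χ ((N + 1 : ℝ)⁻¹ • x)) x := fun N x => by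
    have h := ((hχc.differentiable one_ne_zero) ((N + 1 : ℝ)⁻¹ • x)).hasFDerivAt.comp x
      ((hasFDerivAt_id x).const_smul ((N + 1 : ℝ)⁻¹))
    refine h.congr_fderiv ?_
    ext v; simp
  have hc1 : ∀ N, ContDiff ℝ 1 (c N) := fun N => hχc.comp (contDiff_const_smul _)
  have hcs : ∀ N, HasCompactSupport (c N) := fun N =>
    hχs.comp_smul (inv_ne_zero (by positivity))
  have hwd : ∀ N x, fderiv ℝ (w N) x = c N x • innerSL ℝ (G N x)
      + F N x • ((N + 1 : ℝ)⁻¹ • fderiv ℝ χ ((N + 1 : ℝ)⁻¹ • x)) := fun N x =>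
    ((hcd N x).mul (hFd N x)).fderiv
  have habs : ∀ N x, ‖c N x‖ₑ ≤ 1 := fun N x => by
    rw [Real.enorm_eq_ofReal (hχ01 _).1, ENNReal.ofReal_le_one]; exact (hχ01 _).2
  have hcut : ∀ {E : Type} [NormedAddCommGroup E] [NormedSpace ℝ E] {h : Euc d → E},
      Integrable h → Tendsto (fun N => ∫⁻ x, ‖(c N x - 1) • h x‖ₑ) atTop (𝓝 0) := by
    intro E _ _ h hh
    have h0 : (∫⁻ _x : Euc d, (0 : ℝ≥0∞)) = 0 := by simp
    rw [← h0]
    refine tendsto_lintegral_of_dominated_convergence' (fun x => ‖h x‖ₑ)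
      (fun N => (((hc1 N).continuous.aestronglyMeasurable).sub aestronglyMeasurable_const
        |>.smul hh.1).enorm) (fun N => ae_of_all _ fun x => ?_) hh.2.ne (ae_of_all _ fun x => ?_)
    · simp only [enorm_smul]
      refine mul_le_of_le_one_left zero_le ?_
      rw [← ofReal_norm, ENNReal.ofReal_le_one, Real.norm_eq_abs, abs_le]
      have := hχ01 ((N + 1 : ℝ)⁻¹ • x)
      constructor <;> simp only [c] <;> linarith [this.1, this.2]
    · refine tendsto_const_nhds.congr' ?_
      filter_upwards [eventually_ge_atTop ⌈‖x‖⌉₊] with N hN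
      have : c N x = 1 := hχ1 _ (by
        rw [mem_closedBall_zero_iff, norm_smul, norm_inv, Real.norm_of_nonneg (by positivity),
          inv_mul_le_one₀ (by positivity)]
        have := Nat.ceil_le.1 hN
        linarith)
      simp [this]
  -- the errors
  let e1 : ℕ → ℝ≥0∞ := fun N => ∫⁻ x, ‖F N x - f x‖ₑ
  let e2 : ℕ → ℝ≥0∞ := fun N => ∫⁻ x, ‖G N x - g x‖ₑ
  let e3 : ℕ → ℝ≥0∞ := fun N => ∫⁻ x, ‖(c N x - 1) • f x‖ₑ
  let e4 : ℕ → ℝ≥0∞ := fun N => ∫⁻ x, ‖(c N x - 1) • g x‖ₑ
  let e5 : ℕ → ℝ≥0∞ := fun N => ENNReal.ofReal ((N + 1 : ℝ)⁻¹ * Cχ) * ∫⁻ x, ‖f x‖ₑ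
  have he5 : Tendsto e5 atTop (𝓝 0) := by
    have h : Tendsto (fun N : ℕ => ENNReal.ofReal ((N + 1 : ℝ)⁻¹ * Cχ)) atTop (𝓝 0) := by
      rw [← ENNReal.ofReal_zero]
      refine ENNReal.tendsto_ofReal ?_
      simpa [one_div] using (tendsto_one_div_add_atTop_nhds_zero_nat (𝕜 := ℝ)).mul_const Cχ
    simpa using ENNReal.Tendsto.mul_const h (Or.inr hf.2.ne)
  have he : Tendsto (fun N => e1 N + e2 N + e3 N + e4 N + e5 N) atTop (𝓝 0) := by
    simpa only [add_zero] using
      ((((tendsto_mol hr hf).add (tendsto_mol hr hg)).add (hcut hf)).add (hcut hg)).add he5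
  have hex : ∀ n, ∃ N, e1 N + e2 N + e3 N + e4 N + e5 N ≤ 2⁻¹ ^ n := fun n =>
    (ENNReal.tendsto_nhds_zero.1 he _ (ENNReal.pow_pos (by norm_num) n)).exists
  choose N hN using hex
  have hnp := fun M => (φ M).nonneg_normed (μ := volume)
  have hgeo : (∑' n : ℕ, (2⁻¹ : ℝ≥0∞) ^ n) ≠ ∞ := by
    rw [ENNReal.tsum_geometric]; norm_num
  have hD : ∀ M x, ‖F M x • ((M + 1 : ℝ)⁻¹ • fderiv ℝ χ ((M + 1 : ℝ)⁻¹ • x))‖ₑ
      ≤ ENNReal.ofReal ((M + 1 : ℝ)⁻¹ * Cχ) * ‖F M x‖ₑ := fun M x => by
    rw [enorm_smul, mul_comm]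
    refine mul_le_mul_left ?_ _
    rw [← ofReal_norm, norm_smul, norm_inv, Real.norm_of_nonneg (by positivity)]
    exact ENNReal.ofReal_le_ofReal (mul_le_mul_of_nonneg_left (hCχ _) (by positivity))
  have hF5 : ∀ M, ∫⁻ x, ‖F M x • ((M + 1 : ℝ)⁻¹ • fderiv ℝ χ ((M + 1 : ℝ)⁻¹ • x))‖ₑ ≤ e5 M :=
    fun M => by
      refine (lintegral_mono (hD M)).trans ?_
      rw [lintegral_const_mul' _ _ ENNReal.ofReal_ne_top]
      exact mul_le_mul_right (lintegral_mol_le (φ M).continuous_normed
        (φ M).hasCompactSupport_normed (hnp M) (φ M).integral_normed hf.1) _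
  refine ⟨fun n => w (N n), fun n => ⟨(hc1 _).mul (hFc _), (hcs _).mul_right⟩, ?_, fun i => ?_,
    fun n => ?_⟩
  · refine ne_top_of_le_ne_top hgeo (ENNReal.tsum_le_tsum fun n => le_trans ?_ (hN n))
    refine le_trans ?_ (show e1 (N n) + e3 (N n) ≤ _ from
      (add_le_add le_self_add le_rfl).trans (le_self_add.trans le_self_add))
    simp only [e1, e3]
    rw [← lintegral_add_left' (f := fun x => ‖F (N n) x - f x‖ₑ)
      ((hFc _).continuous.aestronglyMeasurable.sub hf.1).enorm]
    refine lintegral_mono fun x => ?_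
    calc ‖w (N n) x - f x‖ₑ
        = ‖c (N n) x • (F (N n) x - f x) + (c (N n) x - 1) • f x‖ₑ := by
          congr 1; simp only [w, smul_eq_mul]; ring
      _ ≤ _ := (enorm_add_le _ _).trans (add_le_add
          (by rw [enorm_smul]; exact mul_le_of_le_one_left zero_le (habs _ _)) le_rfl)
  · refine ne_top_of_le_ne_top hgeo (ENNReal.tsum_le_tsum fun n => le_trans ?_ (hN n))
    refine le_trans ?_ (show e2 (N n) + e4 (N n) + e5 (N n) ≤ _ from
      add_le_add (add_le_add (le_add_self.trans le_self_add) le_rfl) le_rfl)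
    refine le_trans ?_ (add_le_add le_rfl (hF5 (N n)))
    simp only [e2, e4]
    have m2 : AEMeasurable fun x => ‖G (N n) x - g x‖ₑ :=
      ((hmolG _).aestronglyMeasurable.sub hg.1).enorm
    have m4 : AEMeasurable fun x => ‖(c (N n) x - 1) • g x‖ₑ :=
      (((hc1 _).continuous.aestronglyMeasurable.sub aestronglyMeasurable_const).smul hg.1).enorm
    rw [← lintegral_add_left' m2, ← lintegral_add_left' (m2.fun_add m4)]
    refine lintegral_mono fun x => ?_
    rw [hwd, add_apply, smul_apply, smul_eq_mul, innerSL_apply_apply,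
      EuclideanSpace.inner_single_right, conj_trivial, one_mul]
    set T := F (N n) x • (((N n : ℝ) + 1)⁻¹ • fderiv ℝ χ (((N n : ℝ) + 1)⁻¹ • x))
    calc ‖c (N n) x * G (N n) x i + T (unitVec i) - g x i‖ₑ
        = ‖c (N n) x • (G (N n) x - g x) i + (c (N n) x - 1) • g x i + T (unitVec i)‖ₑ := by
          congr 1; simp only [smul_eq_mul, PiLp.sub_apply]; ring
      _ ≤ _ := by
          refine (enorm_add_le _ _).trans (add_le_add ((enorm_add_le _ _).trans
            (add_le_add ?_ ?_)) ?_)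
          · rw [enorm_smul]
            exact (mul_le_of_le_one_left zero_le (habs _ _)).trans
              (PiLp.enorm_apply_le _ _)
          · rw [enorm_smul, enorm_smul]
            exact mul_le_mul_right (PiLp.enorm_apply_le _ _) _
          · exact (T.le_opENorm _).trans (le_of_eq (by simp [unitVec, ← ofReal_norm]))
  · refine le_trans ?_ (add_le_add (lintegral_mol_le (h := g) (φ (N n)).continuous_normed
      (φ (N n)).hasCompactSupport_normed (hnp _) (φ (N n)).integral_normed hg.1)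
        ((hF5 (N n)).trans (le_trans le_add_self (hN n))))
    have m : AEStronglyMeasurable (G (N n)) (volume : Measure (Euc d)) :=
      (hmolG _).aestronglyMeasurable
    rw [← lintegral_add_left' m.enorm]
    refine lintegral_mono fun x => ?_
    rw [hwd]
    refine (enorm_add_le (c (N n) x • innerSL ℝ (G (N n) x)) (F (N n) x • _)).trans
      (add_le_add ?_ le_rfl)
    rw [enorm_smul]
    refine (mul_le_of_le_one_left zero_le (habs _ _)).trans (le_of_eq ?_)
    rw [← ofReal_norm, innerSL_apply_norm, ofReal_norm]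

end Vale.Agent.P137
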