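import Vale.Agent.P137.Defs

/-!
# P137: dyadic subdivision of a box and the excess of a vector field
-/

open MeasureTheory Filter Set Metric Finset
open scoped ENNReal NNReal Topology RealInnerProductSpace

noncomputable section

namespace Vale.Agent.P137

variable {d : ℕ}

/-- Half-open box of side `s` centred at `c`. -/
def box (c : Euc d) (s : ℝ) : Set (Euc d) := {y | ∀ i, y i ∈ Ico (c i - s / 2) (c i + s / 2)}

/-- The indices of the subdivision of level `j`. -/
def gridIdx (d j : ℕ) : Finset (Fin d → ℕ) := Fintype.piFinset fun _ => range (2 ^ j)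

/-- Offset of the centre of a subbox. -/
def gridOff (S : ℝ) (j : ℕ) (a : Fin d → ℕ) : Euc d :=
  WithLp.toLp 2 fun i => S * (((a i : ℝ) + 1 / 2) / 2 ^ j - 1 / 2)

/-- Centre of a subbox. -/
def gridPt (c : Euc d) (S : ℝ) (j : ℕ) (a : Fin d → ℕ) : Euc d := c + gridOff S j a

/-- Index of the subbox of level `j` containing `y`. -/
def cellOf (c : Euc d) (S : ℝ) (j : ℕ) (y : Euc d) : Fin d → ℕ :=
  fun i => ⌊((y i - c i) / S + 1 / 2) * 2 ^ j⌋₊

lemma gridOff_apply (S : ℝ) (j : ℕ) (a : Fin d → ℕ) (i : Fin d) :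
    gridOff S j a i = S * (((a i : ℝ) + 1 / 2) / 2 ^ j - 1 / 2) := rfl

lemma measurableSet_box (c : Euc d) (s : ℝ) : MeasurableSet (box c s) := by
  have : box c s = ⋂ i, (fun y : Euc d => y i) ⁻¹' Ico (c i - s / 2) (c i + s / 2) := by
    ext y; simp [box]
  rw [this]
  exact MeasurableSet.iInter fun i => (by fun_prop : Measurable fun y : Euc d => y i) measurableSet_Ico

lemma volume_box (c : Euc d) {s : ℝ} (hs : 0 ≤ s) : volume (box c s) = ENNReal.ofReal (s ^ d) := by
  have : box c s = (fun y : Euc d => WithLp.ofLp y) ⁻¹'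
      (Set.univ.pi fun i => Ico (c i - s / 2) (c i + s / 2)) := by
    ext y; simp [box]
  rw [this, (PiLp.volume_preserving_ofLp (Fin d)).measure_preimage
    (MeasurableSet.univ_pi fun i => measurableSet_Ico).nullMeasurableSet, Real.volume_pi_Ico]
  simp [ENNReal.ofReal_pow hs]

lemma box_finite (c : Euc d) (s : ℝ) : volume (box c s) < ∞ := by
  rcases le_total 0 s with hs | hs
  · rw [volume_box c hs]; exact ENNReal.ofReal_lt_top
  · refine lt_of_le_of_lt (measure_mono (t := box c 0) ?_)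
      ((volume_box c le_rfl).trans_lt ENNReal.ofReal_lt_top)
    intro y hy i
    have := hy i
    rw [Set.mem_Ico] at this ⊢
    constructor <;> linarith

lemma mem_box_add (c w y : Euc d) (s : ℝ) : c + y ∈ box (c + w) s ↔ y ∈ box w s := by
  simp only [box, mem_ofPred_eq, PiLp.add_apply, Set.mem_Ico]
  exact forall_congr' fun i => by constructor <;> rintro ⟨h1, h2⟩ <;> constructor <;> linarith

lemma mem_subbox_iff (c : Euc d) {S : ℝ} (hS : 0 < S) (j : ℕ) {a : Fin d → ℕ}
    (ha : a ∈ gridIdx d j) (y : Euc d) :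
    y ∈ box (gridPt c S j a) (S / 2 ^ j) ↔ y ∈ box c S ∧ cellOf c S j y = a := by
  have hP : (0 : ℝ) < 2 ^ j := by positivity
  have hai : ∀ i, (a i : ℝ) + 1 ≤ 2 ^ j := fun i => by
    have := Finset.mem_range.1 (Fintype.mem_piFinset.1 ha i)
    exact_mod_cast this
  have key : ∀ i, y i ∈ Ico (gridPt c S j a i - S / 2 ^ j / 2) (gridPt c S j a i + S / 2 ^ j / 2) ↔
      ((y i - c i) / S + 1 / 2) * 2 ^ j ∈ Ico (a i : ℝ) (a i + 1) := by
    intro i
    simp only [gridPt, PiLp.add_apply, gridOff_apply, Set.mem_Ico]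
    have h1 : ((y i - c i) / S + 1 / 2) * 2 ^ j - a i =
        (y i - (c i + S * (((a i : ℝ) + 1 / 2) / 2 ^ j - 1 / 2) - S / 2 ^ j / 2)) * (2 ^ j / S) := by
      field_simp
      ring
    have hq : 0 < 2 ^ j / S := by positivity
    have h2 : S / 2 ^ j * (2 ^ j / S) = 1 := by field_simp
    set A := y i - (c i + S * (((a i : ℝ) + 1 / 2) / 2 ^ j - 1 / 2) - S / 2 ^ j / 2) with hA
    constructor <;> rintro ⟨u, v⟩ <;> constructor
    · have := mul_nonneg (by linarith : 0 ≤ A) hq.le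
      linarith
    · have := mul_lt_mul_of_pos_right (by linarith : A < S / 2 ^ j) hq
      linarith
    · have := nonneg_of_mul_nonneg_left (by linarith : 0 ≤ A * (2 ^ j / S)) hq
      linarith
    · have := lt_of_mul_lt_mul_right
        (by linarith : A * (2 ^ j / S) < S / 2 ^ j * (2 ^ j / S)) hq.le
      linarith
  constructor
  · intro hy
    refine ⟨fun i => ?_, funext fun i => ?_⟩
    · obtain ⟨u, v⟩ := (key i).1 (hy i)
      have hv : ((y i - c i) / S + 1 / 2) * 2 ^ j < 2 ^ j := lt_of_lt_of_le v (hai i)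
      have h0 : 0 ≤ (y i - c i) / S + 1 / 2 := by nlinarith [(Nat.cast_nonneg (a i) : (0:ℝ) ≤ _)]
      have h1 : (y i - c i) / S + 1 / 2 < 1 := by nlinarith
      have e : (y i - c i) / S * S = y i - c i := div_mul_cancel₀ _ hS.ne'
      constructor <;> nlinarith
    · obtain ⟨u, v⟩ := (key i).1 (hy i)
      exact (Nat.floor_eq_iff ((Nat.cast_nonneg _).trans u)).2 ⟨u, v⟩
  · rintro ⟨hy, rfl⟩ i
    refine (key i).2 ⟨Nat.floor_le ?_, Nat.lt_floor_add_one _⟩
    have := (hy i).1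
    have e : (y i - c i) / S * S = y i - c i := div_mul_cancel₀ _ hS.ne'
    exact mul_nonneg (by nlinarith) hP.le

lemma cellOf_mem (c : Euc d) {S : ℝ} (hS : 0 < S) (j : ℕ) {y : Euc d} (hy : y ∈ box c S) :
    cellOf c S j y ∈ gridIdx d j := by
  refine Fintype.mem_piFinset.2 fun i => Finset.mem_range.2 ?_
  have h := hy i
  rw [Set.mem_Ico] at h
  have e : (y i - c i) / S * S = y i - c i := div_mul_cancel₀ _ hS.ne'
  have hP : (0 : ℝ) < 2 ^ j := by positivity
  have h0 : 0 ≤ (y i - c i) / S + 1 / 2 := by nlinarith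
  have h1 : (y i - c i) / S + 1 / 2 < 1 := by nlinarith
  refine (Nat.floor_lt (mul_nonneg h0 hP.le)).2 ?_
  push_cast
  nlinarith

lemma setIntegral_box_eq_sum {G : Type*} [NormedAddCommGroup G] [NormedSpace ℝ G]
    {h : Euc d → G} (c : Euc d) {S : ℝ} (hS : 0 < S) (j : ℕ) (hh : IntegrableOn h (box c S)) :
    ∫ y in box c S, h y =
      ∑ a ∈ gridIdx d j, ∫ y in box (gridPt c S j a) (S / 2 ^ j), h y := by
  have hU : box c S = ⋃ a ∈ gridIdx d j, box (gridPt c S j a) (S / 2 ^ j) := by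
    ext y
    simp only [mem_iUnion, exists_prop]
    exact ⟨fun hy => ⟨cellOf c S j y, cellOf_mem c hS j hy,
        (mem_subbox_iff c hS j (cellOf_mem c hS j hy) y).2 ⟨hy, rfl⟩⟩,
      fun ⟨a, ha, hy⟩ => ((mem_subbox_iff c hS j ha y).1 hy).1⟩
  rw [hU]
  refine integral_biUnion_finset _ (fun a _ => measurableSet_box _ _) ?_ ?_
  · intro a ha b hb hab
    exact Set.disjoint_left.2 fun y hya hyb =>
      hab (((mem_subbox_iff c hS j ha y).1 hya).2.symm.trans ((mem_subbox_iff c hS j hb y).1 hyb).2)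
  · intro a ha
    exact hh.mono_set fun y hy => ((mem_subbox_iff c hS j ha y).1 hy).1

lemma cellOf_succ (c : Euc d) (S : ℝ) (j : ℕ) (y : Euc d) :
    cellOf c S j y = fun i => cellOf c S (j + 1) y i / 2 := by
  funext i
  rw [cellOf, cellOf, ← Nat.floor_div_natCast]
  congr 1
  push_cast
  rw [pow_succ]
  ring

lemma norm_le_sqrt_mul {w : Euc d} {b : ℝ} (hb : 0 ≤ b) (h : ∀ i, |w i| ≤ b) :
    ‖w‖ ≤ Real.sqrt d * b := by
  rw [EuclideanSpace.norm_eq, Real.sqrt_le_iff]
  refine ⟨mul_nonneg (Real.sqrt_nonneg _) hb, ?_⟩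
  rw [mul_pow, Real.sq_sqrt (Nat.cast_nonneg d)]
  calc ∑ i, ‖w i‖ ^ 2 ≤ ∑ _i : Fin d, b ^ 2 := sum_le_sum fun i _ => by
        rw [Real.norm_eq_abs]; exact pow_le_pow_left₀ (abs_nonneg _) (h i) 2
    _ = _ := by simp

lemma norm_sub_gridPt_le (c : Euc d) {S : ℝ} (hS : 0 < S) {j : ℕ} {a : Fin d → ℕ} {y : Euc d}
    (hy : y ∈ box (gridPt c S j a) (S / 2 ^ j)) :
    ‖y - gridPt c S j a‖ ≤ Real.sqrt d * (S / 2 ^ (j + 1)) := by
  refine norm_le_sqrt_mul (by positivity) fun i => ?_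
  have h := hy i
  rw [Set.mem_Ico] at h
  have e : S / 2 ^ (j + 1) = S / 2 ^ j / 2 := by rw [pow_succ, div_div]
  rw [e, PiLp.sub_apply, abs_le]
  constructor <;> linarith

lemma norm_gridPt_parent_le (c : Euc d) {S : ℝ} (hS : 0 < S) (j : ℕ) (a : Fin d → ℕ) :
    ‖gridPt c S (j + 1) a - gridPt c S j (fun i => a i / 2)‖ ≤ Real.sqrt d * (S / 2 ^ (j + 1)) := by
  refine norm_le_sqrt_mul (by positivity) fun i => ?_
  simp only [gridPt, PiLp.sub_apply, PiLp.add_apply, gridOff_apply]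
  have hn := Nat.div_add_mod (a i) 2
  have hm : a i % 2 < 2 := Nat.mod_lt _ (by norm_num)
  set q := a i / 2
  set r := a i % 2
  have hr : (r : ℝ) ≤ 1 := by exact_mod_cast Nat.lt_succ_iff.1 hm
  have hr0 : (0 : ℝ) ≤ r := Nat.cast_nonneg r
  have hc : (a i : ℝ) = 2 * q + r := by exact_mod_cast hn.symm
  rw [hc, pow_succ]
  have hP : (0 : ℝ) < 2 ^ j := by positivity
  have e : c i + S * ((2 * (q : ℝ) + r + 1 / 2) / (2 ^ j * 2) - 1 / 2) -
      (c i + S * (((q : ℝ) + 1 / 2) / 2 ^ j - 1 / 2)) = (r - 1 / 2) * (S / (2 ^ j * 2)) := by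
    field_simp
    ring
  rw [e, abs_mul, abs_of_nonneg (by positivity : (0:ℝ) ≤ S / (2 ^ j * 2))]
  refine mul_le_of_le_one_left (by positivity) ?_
  rw [abs_le]; constructor <;> linarith

variable (g : Euc d → Euc d)

/-- Integral of the vector field over a box. -/
def vec (c : Euc d) (s : ℝ) : Euc d := ∫ y in box c s, g y

/-- The excess of level `j` of the box of side `S` at `c`. -/
def excess (S : ℝ) (j : ℕ) (c : Euc d) : ℝ :=
  (∑ a ∈ gridIdx d j, ‖vec g (gridPt c S j a) (S / 2 ^ j)‖) - ‖vec g c S‖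

/-- Averaged size of the box integrals at scale `s`. -/
def boxMass (s : ℝ) : ℝ := (s ^ d)⁻¹ * ∫ c, ‖vec g c s‖

variable {g} (hg : Continuous g) (hgc : HasCompactSupport g)
include hg hgc

lemma vec_eq_sum (c : Euc d) {S : ℝ} (hS : 0 < S) (j : ℕ) :
    vec g c S = ∑ a ∈ gridIdx d j, vec g (gridPt c S j a) (S / 2 ^ j) :=
  setIntegral_box_eq_sum c hS j (hg.integrable_of_hasCompactSupport hgc).integrableOn

lemma excess_nonneg (c : Euc d) {S : ℝ} (hS : 0 < S) (j : ℕ) : 0 ≤ excess g S j c := by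
  rw [excess, sub_nonneg, vec_eq_sum hg hgc c hS j]
  exact norm_sum_le _ _

lemma sum_exc_eq (c : Euc d) {S : ℝ} (hS : 0 < S) (j : ℕ) {n : Euc d}
    (hn : ⟪vec g c S, n⟫ = ‖vec g c S‖) :
    ∑ a ∈ gridIdx d j, (‖vec g (gridPt c S j a) (S / 2 ^ j)‖ -
      ⟪vec g (gridPt c S j a) (S / 2 ^ j), n⟫) = excess g S j c := by
  rw [sum_sub_distrib, excess, ← hn, vec_eq_sum hg hgc c hS j, sum_inner]

omit hg hgc in
lemma vec_eq_translate (c : Euc d) (s : ℝ) : vec g c s = ∫ y in box 0 s, g (c + y) := by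
  rw [vec, ← integral_indicator (measurableSet_box _ _),
    ← integral_add_left_eq_self (fun y => (box c s).indicator g y) c,
    ← integral_indicator (measurableSet_box _ _)]
  refine integral_congr_ae (ae_of_all _ fun y => ?_)
  have := mem_box_add c 0 y s
  rw [add_zero] at this
  by_cases hy : y ∈ box 0 s
  · simp [hy, this.2 hy]
  · simp [hy, mt this.1 hy]

lemma continuous_vec (s : ℝ) : Continuous fun c => vec g c s := by
  simp only [vec_eq_translate]
  have : IsFiniteMeasure (volume.restrict (box (0 : Euc d) s)) :=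
    ⟨by rw [Measure.restrict_apply_univ]; exact box_finite _ _⟩
  obtain ⟨B, hB⟩ := hgc.exists_bound_of_continuous hg
  exact continuous_of_dominated (bound := fun _ => B) (fun c => by fun_prop)
    (fun c => ae_of_all _ fun y => hB _) (integrable_const B)
    (ae_of_all _ fun y => by fun_prop)

omit hgc in
lemma lintegral_norm_vec_le {s : ℝ} (hs : 0 ≤ s) :
    ∫⁻ c, ‖vec g c s‖ₑ ≤ ENNReal.ofReal (s ^ d) * ∫⁻ y, ‖g y‖ₑ := by
  calc ∫⁻ c, ‖vec g c s‖ₑ ≤ ∫⁻ c, ∫⁻ y in box 0 s, ‖g (c + y)‖ₑ := lintegral_mono fun c => by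
        rw [vec_eq_translate]; exact enorm_integral_le_lintegral_enorm _
    _ = ∫⁻ y in box 0 s, ∫⁻ c, ‖g (c + y)‖ₑ := by
        refine lintegral_lintegral_swap (Measurable.aemeasurable ?_)
        exact (hg.comp (continuous_fst.add continuous_snd)).enorm.measurable
    _ = ∫⁻ _y in box 0 s, ∫⁻ c, ‖g c‖ₑ := lintegral_congr fun y =>
        lintegral_add_right_eq_self (fun c => ‖g c‖ₑ) y
    _ = _ := by rw [setLIntegral_const, volume_box _ hs, mul_comm]

lemma integrable_norm_vec {s : ℝ} (hs : 0 ≤ s) : Integrable fun c => ‖vec g c s‖ := by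
  refine Integrable.norm ⟨(continuous_vec hg hgc s).aestronglyMeasurable, ?_⟩
  exact lt_of_le_of_lt (lintegral_norm_vec_le hg hs)
    (ENNReal.mul_lt_top ENNReal.ofReal_lt_top (hg.integrable_of_hasCompactSupport hgc).2)

omit hg hgc in
lemma boxMass_nonneg {s : ℝ} (hs : 0 ≤ s) : 0 ≤ boxMass g s :=
  mul_nonneg (by positivity) (integral_nonneg fun _ => norm_nonneg _)

lemma boxMass_le {s : ℝ} (hs : 0 < s) : boxMass g s ≤ ∫ y, ‖g y‖ := by
  have h := lintegral_norm_vec_le hg hs.le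
  have hgi : Integrable g := hg.integrable_of_hasCompactSupport hgc
  rw [boxMass, inv_mul_le_iff₀ (by positivity)]
  rw [← ENNReal.ofReal_le_ofReal_iff (by positivity), ENNReal.ofReal_mul (by positivity),
    ofReal_integral_norm_eq_lintegral_enorm hgi,
    ofReal_integral_eq_lintegral_ofReal (integrable_norm_vec hg hgc hs.le)
      (ae_of_all _ fun _ => norm_nonneg _)]
  simpa only [ofReal_norm] using h

lemma continuous_excess (S : ℝ) (j : ℕ) : Continuous (excess g S j) := by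
  refine Continuous.sub (continuous_finsetSum _ fun a _ => ?_) (continuous_vec hg hgc S).norm
  exact ((continuous_vec hg hgc _).comp (by unfold gridPt; fun_prop)).norm

lemma integral_excess {S : ℝ} (hS : 0 < S) (j : ℕ) :
    ∫ c, excess g S j c = S ^ d * (boxMass g (S / 2 ^ j) - boxMass g S) := by
  have hs : 0 < S / 2 ^ j := by positivity
  have hi : ∀ a, Integrable fun c => ‖vec g (gridPt c S j a) (S / 2 ^ j)‖ := fun a =>
    (integrable_norm_vec hg hgc hs.le).comp_add_right (gridOff S j a)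
  simp only [excess]
  rw [integral_sub (integrable_finsetSum _ fun a _ => hi a) (integrable_norm_vec hg hgc hS.le),
    integral_finsetSum _ fun a _ => hi a]
  simp only [gridPt, integral_add_right_eq_self (fun c => ‖vec g c (S / 2 ^ j)‖)]
  rw [sum_const, gridIdx, Fintype.card_piFinset]
  simp only [card_range, prod_const, card_univ, Fintype.card_fin, nsmul_eq_mul, boxMass]
  push_cast
  have e : S ^ d = (2 ^ j) ^ d * (S / 2 ^ j) ^ d := by
    rw [← mul_pow, mul_div_cancel₀ _ (by positivity : (2:ℝ) ^ j ≠ 0)]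
  have h1 : (S / 2 ^ j) ^ d ≠ 0 := by positivity
  have h2 : S ^ d ≠ 0 := by positivity
  rw [mul_sub, ← mul_assoc, ← mul_assoc, mul_inv_cancel₀ h2, one_mul, e, mul_assoc (((2:ℝ) ^ j) ^ d),
    mul_inv_cancel₀ h1, mul_one]

/-- The telescoping sum over scales. -/
lemma sum_boxMass_le {S : ℝ} (hS : 0 < S) (j N : ℕ) :
    ∑ n ∈ range N, (boxMass g (S * 2 ^ n / 2 ^ j) - boxMass g (S * 2 ^ n)) ≤
      j * ∫ y, ‖g y‖ := by
  induction j with
  | zero => simp
  | succ j ih =>
    have h1 : ∑ n ∈ range N,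
        (boxMass g (S * 2 ^ n / 2 ^ (j + 1)) - boxMass g (S * 2 ^ n / 2 ^ j)) ≤ ∫ y, ‖g y‖ := by
      have e : ∀ n, S * 2 ^ n / 2 ^ j = S * 2 ^ (n + 1) / 2 ^ (j + 1) := fun n => by
        rw [pow_succ, pow_succ]; field_simp
      simp only [e]
      rw [sum_range_sub' fun n => boxMass g (S * 2 ^ n / 2 ^ (j + 1))]
      have a1 := boxMass_le hg hgc (s := S * 2 ^ 0 / 2 ^ (j + 1)) (by positivity)
      have a2 := boxMass_nonneg (g := g) (s := S * 2 ^ N / 2 ^ (j + 1)) (by positivity)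
      linarith
    have h2 : ∀ n, boxMass g (S * 2 ^ n / 2 ^ (j + 1)) - boxMass g (S * 2 ^ n) =
        (boxMass g (S * 2 ^ n / 2 ^ (j + 1)) - boxMass g (S * 2 ^ n / 2 ^ j)) +
          (boxMass g (S * 2 ^ n / 2 ^ j) - boxMass g (S * 2 ^ n)) := fun n => by ring
    simp only [h2, sum_add_distrib]
    push_cast
    linarith

end Vale.Agent.P137
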