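import Vale.Agent.P137.Defs

/-!
# P137: elementary geometry of the comparison ball
-/

open MeasureTheory Filter Set Metric
open scoped ENNReal NNReal Topology RealInnerProductSpace

noncomputable section

namespace Vale.Agent.P137

variable {F : Type*} [NormedAddCommGroup F] [InnerProductSpace ℝ F]

/-- The cone inequality behind the whole proof. -/
lemma neg_inner_le {v w n : F} {δ : ℝ} (h : ‖w - δ • n‖ ≤ δ) :
    -⟪v, w⟫ ≤ δ * (‖v‖ - ⟪v, n⟫) := by
  have h1 : ⟪v, w⟫ = ⟪v, w - δ • n⟫ + δ * ⟪v, n⟫ := by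
    rw [inner_sub_right, inner_smul_right]; ring
  have h2 := abs_real_inner_le_norm v (w - δ • n)
  have h3 := mul_le_mul_of_nonneg_left h (norm_nonneg v)
  have h4 := abs_le.1 h2
  nlinarith

/-- The tilt parameter. -/
def tilt (q n : F) : ℝ := (1 + ⟪q, n⟫) / 2

variable {q n : F}

lemma tilt_mem (hn : ‖n‖ = 1) (hq : ‖q‖ ≤ 1) : tilt q n ∈ Icc (0 : ℝ) 1 := by
  have h := abs_le.1 (abs_real_inner_le_norm q n)
  rw [hn, mul_one] at h
  constructor <;> (unfold tilt; linarith)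

lemma norm_sub_smul_le (hn : ‖n‖ = 1) (hq : ‖q‖ ≤ 1) :
    ‖q - (1 + tilt q n / 2) • n‖ ≤ 2 - tilt q n / 2 := by
  obtain ⟨h0, h1⟩ := tilt_mem hn hq
  set τ := tilt q n with hτ
  have hqn : ⟪q, n⟫ = 2 * τ - 1 := by rw [hτ, tilt]; ring
  have e : ‖q - (1 + τ / 2) • n‖ ^ 2 =
      ‖q‖ ^ 2 - 2 * (1 + τ / 2) * (2 * τ - 1) + (1 + τ / 2) ^ 2 := by
    rw [norm_sub_sq_real, inner_smul_right, norm_smul, hn, hqn, Real.norm_eq_abs,
      abs_of_nonneg (by linarith : (0 : ℝ) ≤ 1 + τ / 2)]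
    ring
  refine (sq_le_sq₀ (norm_nonneg _) (by linarith)).1 ?_
  rw [e]
  nlinarith [norm_nonneg q]

/-- The set where a quadratic with positive leading coefficient lies in a short interval is
short. -/
lemma volume_quadratic_le {a β γ lo w : ℝ} (ha : 0 < a) (hw : 0 ≤ w) :
    volume {s : ℝ | a * s ^ 2 + β * s + γ ∈ Icc lo (lo + w)} ≤
      ENNReal.ofReal (2 * Real.sqrt (w / a)) := by
  set m := -β / (2 * a) with hm
  set A := (lo - γ) / a + m ^ 2 with hA
  set l := Real.sqrt (max A 0) with hl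
  have hsub : {s : ℝ | a * s ^ 2 + β * s + γ ∈ Icc lo (lo + w)} ⊆
      Icc (m + l) (m + l + Real.sqrt (w / a)) ∪ Icc (m - l - Real.sqrt (w / a)) (m - l) := by
    intro s hs
    have e : a * s ^ 2 + β * s + γ = a * (s - m) ^ 2 - a * A + lo := by
      rw [hA, hm]; field_simp; ring
    obtain ⟨h1, h2⟩ := hs
    rw [e] at h1 h2
    have h3 : max A 0 ≤ (s - m) ^ 2 := max_le (by nlinarith) (sq_nonneg _)
    have h4 : (s - m) ^ 2 ≤ max A 0 + w / a := by
      have : (s - m) ^ 2 - A ≤ w / a := by rw [le_div_iff₀ ha]; nlinarith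
      linarith [le_max_left A 0]
    have h5 : l ≤ |s - m| := by rw [hl, ← Real.sqrt_sq_eq_abs]; exact Real.sqrt_le_sqrt h3
    have h6 : |s - m| ≤ l + Real.sqrt (w / a) := by
      rw [hl, ← Real.sqrt_sq_eq_abs]
      refine (Real.sqrt_le_sqrt h4).trans ?_
      rw [Real.sqrt_le_iff]
      have hwa : 0 ≤ w / a := div_nonneg hw ha.le
      exact ⟨by positivity, by
        nlinarith [Real.sq_sqrt (le_max_right A 0), Real.sq_sqrt hwa,
          mul_nonneg (Real.sqrt_nonneg (max A 0)) (Real.sqrt_nonneg (w / a))]⟩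
    rcases le_total 0 (s - m) with h | h
    · rw [abs_of_nonneg h] at h5 h6; exact Or.inl ⟨by linarith, by linarith⟩
    · rw [abs_of_nonpos h] at h5 h6; exact Or.inr ⟨by linarith, by linarith⟩
  refine (measure_mono hsub).trans ((measure_union_le _ _).trans ?_)
  rw [Real.volume_Icc, Real.volume_Icc, ← ENNReal.ofReal_add (by simp [Real.sqrt_nonneg])
    (by simp [Real.sqrt_nonneg])]
  exact ENNReal.ofReal_le_ofReal (by linarith)

/-- Relative position of `e` with respect to the interpolating ball at time `s`. -/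
def relPos (n : F) (t : ℝ) (e : F) (s : ℝ) : F := (1 + s)⁻¹ • (e - (s * t) • n)

/-- Times at which `e` lies in a thin shell under the interpolating sphere. -/
def bandSet (n : F) (t b : ℝ) (e : F) : Set ℝ :=
  {s | s ∈ Icc (0 : ℝ) 1 ∧ ‖relPos n t e s‖ ∈ Ioc (1 - b) 1}

/-- A point stays in a thin shell for a short time, unless the tilt is small and the point is near
the contact point. -/
lemma band_le {e : F} {ε : ℝ} (hn : ‖n‖ = 1) (hq : ‖q‖ ≤ 1) (hε : 0 < ε) (hε1 : ε ≤ 1) :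
    volume (bandSet n (1 + tilt q n / 2) (ε ^ 8) e) ≤ ENNReal.ofReal (12 * ε ^ 2) ∨
      (tilt q n ≤ ε ^ 4 ∧ ‖e - q‖ ≤ 6 * ε) := by
  obtain ⟨hτ0, hτ1⟩ := tilt_mem hn hq
  set τ := tilt q n with hτ
  set t := 1 + τ / 2 with ht
  set β := -2 * t * ⟪e, n⟫ - 2 with hβ
  set γ := ‖e‖ ^ 2 - 1 with hγ
  have hb1 : ε ^ 8 ≤ 1 := pow_le_one₀ hε.le hε1
  have hb0 : 0 ≤ ε ^ 8 := by positivity
  have hkey : ∀ s ∈ bandSet n t (ε ^ 8) e,
      (t ^ 2 - 1) * s ^ 2 + β * s + γ ∈ Icc (-8 * ε ^ 8) (-8 * ε ^ 8 + 8 * ε ^ 8) := by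
    rintro s ⟨⟨hs0, hs1⟩, hl, hu⟩
    have h1s : 0 < 1 + s := by linarith
    have e1 : (t ^ 2 - 1) * s ^ 2 + β * s + γ =
        (1 + s) ^ 2 * (‖relPos n t e s‖ ^ 2 - 1) := by
      rw [relPos, norm_smul, mul_pow, Real.norm_eq_abs, sq_abs, norm_sub_sq_real, inner_smul_right,
        norm_smul, hn, Real.norm_eq_abs, mul_one, sq_abs, hβ, hγ]
      field_simp
      ring
    rw [e1]
    have hu2 : ‖relPos n t e s‖ ^ 2 ≤ 1 := pow_le_one₀ (norm_nonneg _) hu
    have hl2 : 1 - 2 * ε ^ 8 ≤ ‖relPos n t e s‖ ^ 2 := by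
      have h7 := pow_le_pow_left₀ (by linarith : (0:ℝ) ≤ 1 - ε ^ 8) hl.le 2
      nlinarith
    have h4 : (1 + s) ^ 2 ≤ 4 := by nlinarith
    constructor <;> nlinarith [sq_nonneg (1 + s)]
  have ha0 : τ ≤ t ^ 2 - 1 := by rw [ht]; nlinarith
  have ha1 : t ^ 2 - 1 ≤ 2 * τ := by rw [ht]; nlinarith
  rcases le_or_gt (ε ^ 4) τ with hbig | hsmall
  · left
    have hε4 : 0 < ε ^ 4 := by positivity
    have hpos : 0 < t ^ 2 - 1 := by linarith
    refine (measure_mono (fun s hs => hkey s hs)).trans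
      ((volume_quadratic_le hpos (by positivity)).trans (ENNReal.ofReal_le_ofReal ?_))
    have : 8 * ε ^ 8 / (t ^ 2 - 1) ≤ (6 * ε ^ 2) ^ 2 := by
      rw [div_le_iff₀ hpos]; nlinarith
    have h := Real.sqrt_le_sqrt this
    rw [Real.sqrt_sq (by positivity)] at h
    linarith
  · set p := ‖e + n‖ with hp
    rcases lt_or_ge p (4 * ε) with hnear | hfar
    · right
      refine ⟨hsmall.le, ?_⟩
      have hqn : ‖q + n‖ ^ 2 ≤ (2 * ε ^ 2) ^ 2 := by
        rw [norm_add_sq_real, hn]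
        have : ⟪q, n⟫ = 2 * τ - 1 := by rw [hτ, tilt]; ring
        nlinarith [norm_nonneg q, hsmall.le]
      have h2 : ‖q + n‖ ≤ 2 * ε ^ 2 :=
        (abs_le_of_sq_le_sq' hqn (by positivity)).2
      have h3 : ‖e - q‖ ≤ ‖e + n‖ + ‖q + n‖ := by
        have : e - q = (e + n) - (q + n) := by abel
        rw [this]; exact norm_sub_le _ _
      nlinarith
    · left
      have hlin : ∀ s ∈ bandSet n t (ε ^ 8) e, |β * s + γ| ≤ 10 * ε ^ 4 := by
        intro s hs
        obtain ⟨h1, h2⟩ := hkey s hs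
        obtain ⟨⟨hs0, hs1⟩, -⟩ := hs
        have hs2 : s ^ 2 ≤ 1 := pow_le_one₀ hs0 hs1
        have h48 : ε ^ 8 ≤ ε ^ 4 := pow_le_pow_of_le_one hε.le hε1 (by norm_num)
        rw [abs_le]
        constructor <;> nlinarith [mul_le_mul ha1 hs2 (sq_nonneg s) (by linarith : (0:ℝ) ≤ 2 * τ),
          mul_nonneg (by linarith : (0:ℝ) ≤ t ^ 2 - 1) (sq_nonneg s)]
      rcases eq_empty_or_nonempty (bandSet n t (ε ^ 8) e) with hemp | ⟨s₀, hs₀⟩
      · simp [hemp]
      have hγb : |γ| ≤ |β| + 10 * ε ^ 4 := by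
        have h := hlin s₀ hs₀
        obtain ⟨⟨hs0, hs1⟩, -⟩ := hs₀
        have h' : |β * s₀| ≤ |β| := by
          rw [abs_mul, abs_of_nonneg hs0]; exact mul_le_of_le_one_right (abs_nonneg _) hs1
        calc |γ| = |(β * s₀ + γ) - β * s₀| := by ring_nf
          _ ≤ |β * s₀ + γ| + |β * s₀| := abs_sub _ _
          _ ≤ _ := by linarith
      have hp2 : p ^ 2 ≤ 2 * |β| + 11 * ε ^ 4 := by
        have e2 : t * p ^ 2 = t * γ - β + 2 * (t - 1) := by
          rw [hp, norm_add_sq_real, hn, hβ, hγ]; ring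
        nlinarith [le_abs_self γ, neg_le_abs β, abs_nonneg β, abs_nonneg γ, sq_nonneg p]
      have hβb : 2 * ε ^ 2 ≤ |β| := by
        have h16 : (4 * ε) ^ 2 ≤ p ^ 2 := pow_le_pow_left₀ (by positivity) hfar 2
        have h42 : ε ^ 4 ≤ ε ^ 2 := pow_le_pow_of_le_one hε.le hε1 (by norm_num)
        nlinarith
      have hβ0 : 0 < |β| := lt_of_lt_of_le (by positivity) hβb
      refine (measure_mono (t := Icc (-γ / β - 10 * ε ^ 4 / |β|) (-γ / β + 10 * ε ^ 4 / |β|))
        ?_).trans ?_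
      · intro s hs
        have h := hlin s hs
        have hne : β ≠ 0 := abs_pos.1 hβ0
        have : |s - -γ / β| ≤ 10 * ε ^ 4 / |β| := by
          have e3 : (s - -γ / β) * β = β * s + γ := by
            rw [sub_mul, div_mul_cancel₀ _ hne]; ring
          rw [le_div_iff₀ hβ0, ← abs_mul, e3]
          exact h
        rw [abs_le] at this
        exact ⟨by linarith, by linarith⟩
      · rw [Real.volume_Icc]
        refine ENNReal.ofReal_le_ofReal ?_
        have : 10 * ε ^ 4 / |β| ≤ 5 * ε ^ 2 := by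
          rw [div_le_iff₀ hβ0]; nlinarith
        nlinarith

end Vale.Agent.P137
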