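import Vale.Agent.P137.Variation
import Vale.Agent.P137.Density

/-!
# P137: endpoint Sobolev regularity of the uncentred maximal function
-/

open MeasureTheory Filter Set Metric
open scoped ENNReal NNReal Topology RealInnerProductSpace

noncomputable section

namespace Vale.Agent.P137

variable {d : ℕ}

/-- The operator norm of a functional is at most the sum of its values on the coordinate vectors. -/
lemma enorm_clm_le_sum (L : Euc d →L[ℝ] ℝ) : ‖L‖ₑ ≤ ∑ i, ‖L (unitVec i)‖ₑ := by
  have h : ‖L‖ ≤ ∑ i, ‖L (unitVec i)‖ := by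
    refine L.opNorm_le_bound (Finset.sum_nonneg fun i _ => norm_nonneg _) fun v => ?_
    have hv : v = ∑ i, v i • unitVec i := by
      ext j; simp [unitVec, WithLp.ofLp_sum, Pi.single_apply]
    calc ‖L v‖ = ‖∑ i, v i * L (unitVec i)‖ := by
          conv_lhs => rw [hv]
          simp
      _ ≤ ∑ i, ‖v i * L (unitVec i)‖ := norm_sum_le _ _
      _ ≤ ∑ i, ‖v‖ * ‖L (unitVec i)‖ := Finset.sum_le_sum fun i _ => by
          rw [norm_mul]
          exact mul_le_mul_of_nonneg_right (PiLp.norm_apply_le v i) (norm_nonneg _)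
      _ = _ := by rw [← Finset.mul_sum, mul_comm]
  simp only [← ofReal_norm]
  rw [← ENNReal.ofReal_sum_of_nonneg fun i _ => norm_nonneg _]
  exact ENNReal.ofReal_le_ofReal h

/-- A line leaves every compact set. -/
lemma tendsto_line_cocompact (i : Fin d) (x : Euc d) :
    Tendsto (fun t : ℝ => x + t • unitVec i) atTop (cocompact (Euc d)) := by
  rw [← Metric.cobounded_eq_cocompact, ← tendsto_norm_atTop_iff_cobounded]
  refine tendsto_atTop_mono (f := fun t : ℝ => t + x i) (fun t => ?_)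
    (tendsto_atTop_add_const_right atTop (x i) tendsto_id)
  refine (le_abs_self _).trans ?_
  have h := PiLp.norm_apply_le (x + t • unitVec i) i
  simpa [unitVec, add_comm, Real.norm_eq_abs] using h

/-- Averages over a ball are subadditive, countably. -/
lemma laverage_le_add {a b : Euc d → ℝ} {h : ℕ → Euc d → ℝ}
    (hb : AEMeasurable (fun y => ‖b y‖ₑ)) (hh : ∀ k, Measurable (h k))
    (hab : ∀ᵐ y, ‖a y‖ₑ ≤ ‖b y‖ₑ + ∑' k, ‖h k y‖ₑ) (s : Set (Euc d)) :
    ⨍⁻ y in s, ‖a y‖ₑ ∂volume ≤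
      ⨍⁻ y in s, ‖b y‖ₑ ∂volume + ∑' k, ⨍⁻ y in s, ‖h k y‖ₑ ∂volume := by
  simp only [setLAverage_eq, div_eq_mul_inv]
  rw [ENNReal.tsum_mul_right, ← add_mul, ← lintegral_tsum fun k => (hh k).enorm.aemeasurable,
    ← lintegral_add_left' hb.restrict]
  gcongr 1
  exact lintegral_mono_ae (ae_restrict_of_ae hab)

lemma le_uncenteredMax (f : Euc d → ℝ) {x c : Euc d} {r : ℝ} (hx : x ∈ ball c r) :
    ⨍⁻ y in ball c r, ‖f y‖ₑ ∂volume ≤ uncenteredMax f x :=
  le_iSup_of_le c (le_iSup_of_le r (le_iSup_of_le hx le_rfl))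

/-- The maximal function is countably subadditive. -/
lemma uncenteredMax_le_add {a b : Euc d → ℝ} {h : ℕ → Euc d → ℝ}
    (hb : AEMeasurable (fun y => ‖b y‖ₑ)) (hh : ∀ k, Measurable (h k))
    (hab : ∀ᵐ y, ‖a y‖ₑ ≤ ‖b y‖ₑ + ∑' k, ‖h k y‖ₑ) (x : Euc d) :
    uncenteredMax a x ≤ uncenteredMax b x + ∑' k, uncenteredMax (h k) x :=
  iSup_le fun _ => iSup_le fun _ => iSup_le fun hx => (laverage_le_add hb hh hab _).trans
    (add_le_add (le_uncenteredMax b hx) (ENNReal.tsum_le_tsum fun k => le_uncenteredMax (h k) hx))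

/-- A continuous function is dominated by its maximal function. -/
lemma enorm_le_uncenteredMax {h : Euc d → ℝ} (hh : Continuous h) (x : Euc d) :
    ‖h x‖ₑ ≤ uncenteredMax h x := by
  refine le_of_forall_lt fun v hv => ?_
  obtain ⟨w, hvw, hw⟩ := exists_between hv
  obtain ⟨r, hr, hball⟩ := Metric.mem_nhds_iff.1
    ((hh.enorm.tendsto x).eventually_const_lt hw)
  refine hvw.trans_le (le_trans ?_ (le_uncenteredMax h (mem_ball_self (x := x) hr)))
  rw [setLAverage_eq, ENNReal.le_div_iff_mul_le (Or.inl (measure_ball_pos volume x hr).ne')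
    (Or.inl measure_ball_lt_top.ne), ← setLIntegral_const]
  exact setLIntegral_mono' measurableSet_ball fun y hy => (hball hy).le

lemma edist_toReal_le {a b R : ℝ≥0∞} (ha : a ≠ ∞) (hb : b ≠ ∞) (h1 : a ≤ b + R) (h2 : b ≤ a + R) :
    edist a.toReal b.toReal ≤ R := by
  rcases eq_or_ne R ∞ with rfl | hR
  · exact le_top
  rw [edist_dist, Real.dist_eq]
  refine ENNReal.ofReal_le_of_le_toReal (abs_sub_le_iff.2 ⟨?_, ?_⟩)
  · have := ENNReal.toReal_mono (ENNReal.add_ne_top.2 ⟨hb, hR⟩) h1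
    rw [ENNReal.toReal_add hb hR] at this
    linarith
  · have := ENNReal.toReal_mono (ENNReal.add_ne_top.2 ⟨ha, hR⟩) h2
    rw [ENNReal.toReal_add ha hR] at this
    linarith

/-- The consecutive difference of an approximating sequence. -/
def gap (u : ℕ → Euc d → ℝ) (n : ℕ) (y : Euc d) : ℝ := u (n + 1) y - u n y

/-- The total variation of the maximal functions of the differences along a line. -/
def gapVar (u : ℕ → Euc d → ℝ) (i : Fin d) (n : ℕ) (x : Euc d) : ℝ≥0∞ :=
  eVariationOn (lineFn (maxFn (gap u n)) i x) univ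

/-- Everything that happens on a good line. -/
lemma good_line {f : Euc d → ℝ} (hf : Integrable f) {u : ℕ → Euc d → ℝ}
    (hu : ∀ n, ContDiff ℝ 1 (u n)) (hlim : ∀ᵐ y, Tendsto (fun n => u n y) atTop (𝓝 (f y)))
    (hMu : ∀ n, Continuous (maxFn (u n)) ∧ (∀ y, uncenteredMax (u n) y ≠ ∞) ∧
      Tendsto (maxFn (u n)) (cocompact _) (𝓝 0))
    (hMg : ∀ n, (∀ y, uncenteredMax (gap u n) y ≠ ∞) ∧
      Tendsto (maxFn (gap u n)) (cocompact _) (𝓝 0))
    (i : Fin d) (x : Euc d) (hV : ∑' n, gapVar u i n x ≠ ∞)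
    (hVf : liminf (fun n => eVariationOn (lineFn (maxFn (u n)) i x) univ) atTop ≠ ∞)
    {gl : ℝ → ℝ} (hgl : Integrable gl)
    (hderiv : ∑' n, ∫⁻ t, ‖fderiv ℝ (u n) (x + t • unitVec i) (unitVec i) - gl t‖ₑ ≠ ∞) :
    (∀ t : ℝ, uncenteredMax f (x + t • unitVec i) ≠ ∞ ∧
      uncenteredMax f (x + t • unitVec i) ≤
        eVariationOn (lineFn (maxFn (u 0)) i x) univ + ∑' n, gapVar u i n x) ∧
    Continuous (lineFn (maxFn f) i x) ∧
    eVariationOn (lineFn (maxFn f) i x) univ ≤
      liminf (fun n => eVariationOn (lineFn (maxFn (u n)) i x) univ) atTop ∧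
    ∀ a b, AbsolutelyContinuousOnInterval (lineFn (maxFn f) i x) a b := by
  set R : ℕ → ℝ≥0∞ := fun n => ∑' k, gapVar u i (n + k) x with hR
  have hR0 : Tendsto R atTop (𝓝 0) :=
    (ENNReal.tendsto_sum_nat_add _ hV).congr fun n => by simp [hR, add_comm]
  have hRfin : ∀ n, R n ≠ ∞ := fun n =>
    ne_top_of_le_ne_top hV (ENNReal.tsum_comp_le_tsum_of_injective (add_right_injective n) _)
  have sup_le : ∀ (h : Euc d → ℝ), (∀ y, uncenteredMax h y ≠ ∞) →
      Tendsto (maxFn h) (cocompact _) (𝓝 0) → ∀ t : ℝ,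
      uncenteredMax h (x + t • unitVec i) ≤ eVariationOn (lineFn (maxFn h) i x) univ := by
    intro h hfin hdec t
    refine le_trans ?_ (enorm_le_eVariationOn (hdec.comp (tendsto_line_cocompact i x)) t)
    show _ ≤ ‖(uncenteredMax h (x + t • unitVec i)).toReal‖ₑ
    rw [Real.enorm_eq_ofReal ENNReal.toReal_nonneg, ENNReal.ofReal_toReal (hfin _)]
  have hgap : ∀ k, Continuous (gap u k) :=
    fun k => (hu (k + 1)).continuous.sub (hu k).continuous
  have hE : ∀ n (t : ℝ), ∑' k, uncenteredMax (gap u (n + k)) (x + t • unitVec i) ≤ R n :=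
    fun n t => ENNReal.tsum_le_tsum fun k => sup_le _ (hMg _).1 (hMg _).2 t
  have hae : ∀ n, ∀ᵐ y, ‖f y - u n y‖ₑ ≤ ∑' k, ‖gap u (n + k) y‖ₑ := fun n => by
    filter_upwards [hlim] with y hy
    rw [← edist_eq_enorm_sub, edist_comm]
    exact edist_le_tsum_of_edist_le_of_tendsto (fun m => ‖gap u m y‖ₑ)
      (fun m => by rw [edist_comm, edist_eq_enorm_sub]; rfl) hy n
  have hab1 : ∀ n, ∀ᵐ y, ‖f y‖ₑ ≤ ‖u n y‖ₑ + ∑' k, ‖gap u (n + k) y‖ₑ := fun n => by
    filter_upwards [hae n] with y hy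
    calc ‖f y‖ₑ = ‖u n y + (f y - u n y)‖ₑ := by rw [add_sub_cancel]
      _ ≤ _ := (enorm_add_le _ _).trans (add_le_add le_rfl hy)
  have hab2 : ∀ n, ∀ᵐ y, ‖u n y‖ₑ ≤ ‖f y‖ₑ + ∑' k, ‖gap u (n + k) y‖ₑ := fun n => by
    filter_upwards [hae n] with y hy
    calc ‖u n y‖ₑ = ‖f y - (f y - u n y)‖ₑ := by rw [sub_sub_cancel]
      _ ≤ _ := (enorm_sub_le).trans (add_le_add le_rfl hy)
  have hum : ∀ n, AEMeasurable fun y => ‖u n y‖ₑ :=
    fun n => (hu n).continuous.enorm.measurable.aemeasurable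
  have up : ∀ n (t : ℝ), uncenteredMax f (x + t • unitVec i) ≤
      uncenteredMax (u n) (x + t • unitVec i) + R n := fun n t =>
    (uncenteredMax_le_add (hum n) (fun k => (hgap _).measurable) (hab1 n) _).trans
      (add_le_add le_rfl (hE n t))
  have down : ∀ n (t : ℝ), uncenteredMax (u n) (x + t • unitVec i) ≤
      uncenteredMax f (x + t • unitVec i) + R n := fun n t =>
    (uncenteredMax_le_add hf.1.enorm (fun k => (hgap _).measurable) (hab2 n) _).trans
      (add_le_add le_rfl (hE n t))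
  have hfin : ∀ t : ℝ, uncenteredMax f (x + t • unitVec i) ≠ ∞ := fun t =>
    ne_top_of_le_ne_top (ENNReal.add_ne_top.2 ⟨(hMu 0).2.1 _, hRfin 0⟩) (up 0 t)
  have hunif : TendstoUniformly (fun n => lineFn (maxFn (u n)) i x) (lineFn (maxFn f) i x) atTop := by
    rw [EMetric.tendstoUniformly_iff]
    intro ε hε
    filter_upwards [hR0.eventually_lt_const hε] with n hn t
    exact (edist_toReal_le (hfin t) ((hMu n).2.1 _) (up n t) (down n t)).trans_lt hn
  have hcont : Continuous (lineFn (maxFn f) i x) :=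
    hunif.continuous (Frequently.of_forall fun n => (hMu n).1.comp (by fun_prop))
  have hvar : eVariationOn (lineFn (maxFn f) i x) univ ≤
      liminf (fun n => eVariationOn (lineFn (maxFn (u n)) i x) univ) atTop := by
    refine le_of_forall_lt fun v hv => ?_
    obtain ⟨w, hvw, hw⟩ := exists_between hv
    refine hvw.trans_le (le_liminf_of_le (by isBoundedDefault) ?_)
    exact (eVariationOn.lowerSemicontinuous_aux (fun t _ => hunif.tendsto_at t) hw).mono
      fun n hn => hn.le
  refine ⟨fun t => ⟨hfin t, (up 0 t).trans (add_le_add (sup_le _ (hMu 0).2.1 (hMu 0).2.2 t) ?_)⟩,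
    hcont, hvar, ?_⟩
  · simp [hR]
  -- the limit of the approximating functions on the line
  have hstep : ∀ t : ℝ, ∀ m, edist (u m (x + t • unitVec i)) (u m.succ (x + t • unitVec i)) ≤
      gapVar u i m x := fun t m => by
    rw [edist_comm, edist_eq_enorm_sub]
    exact (enorm_le_uncenteredMax (hgap m) _).trans (sup_le _ (hMg m).1 (hMg m).2 t)
  choose φ hφ using fun t : ℝ =>
    cauchySeq_tendsto_of_complete (cauchySeq_of_edist_le_of_tsum_ne_top _ (hstep t) hV)
  have hFTC : ∀ a b, φ b - φ a = ∫ t in a..b, gl t := by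
    intro a b
    set F : ℕ → ℝ → ℝ := fun n t => fderiv ℝ (u n) (x + t • unitVec i) (unitVec i) with hF
    have hFc : ∀ n, Continuous (F n) := fun n =>
      (((hu n).continuous_fderiv one_ne_zero).clm_apply continuous_const).comp (by fun_prop)
    have hFi : ∀ n, Integrable (F n) := fun n => by
      have h1 : Integrable fun t => F n t - gl t :=
        ⟨(hFc n).aestronglyMeasurable.sub hgl.1,
          (ENNReal.ne_top_of_tsum_ne_top hderiv n).lt_top⟩
      exact (h1.add hgl).congr (ae_of_all _ fun t => sub_add_cancel (F n t) (gl t))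
    have heq : ∀ n, ∫ t in a..b, F n t = u n (x + b • unitVec i) - u n (x + a • unitVec i) :=
      fun n => intervalIntegral.integral_eq_sub_of_hasDerivAt
        (f := fun t => u n (x + t • unitVec i))
        (fun t _ => hasDerivAt_lineFn i (((hu n).differentiable one_ne_zero) _))
        (hFi n).intervalIntegrable
    have h0 := ENNReal.tendsto_atTop_zero_of_tsum_ne_top hderiv
    have hs : ∀ s : Set ℝ, Tendsto (fun n => ∫ t in s, F n t) atTop (𝓝 (∫ t in s, gl t)) :=
      tendsto_setIntegral_of_L1 gl hgl.aestronglyMeasurable (Eventually.of_forall hFi) h0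
    refine tendsto_nhds_unique ((hφ b).sub (hφ a)) ?_
    exact ((hs (Ioc a b)).sub (hs (Ioc b a))).congr heq
  have hLφ : LuzinN φ := LuzinN.of_integral hgl hFTC
  refine fun a b => ac_of_cover hcont
    (ne_top_of_le_ne_top hVf hvar) (fun o : Option ℕ =>
      o.elim (fun t => |φ t|) fun k => lineFn (radMax f ((1 / 2) ^ k)) i x) ?_ ?_ a b
  · rintro (_ | k)
    · exact hLφ.abs
    · exact LuzinN.of_lipschitz (lipschitzWith_lineFn i (lipschitz_radMax hf (by positivity)) x)
  · intro t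
    set y := x + t • unitVec i with hy
    by_cases hk : ∃ k : ℕ, maxFn f y = radMax f ((1 / 2) ^ k) y
    · exact hk.elim fun k hk => ⟨some k, hk⟩
    refine ⟨none, ?_⟩
    have hlt : ∀ k : ℕ, ENNReal.ofReal (radMax f ((1 / 2) ^ k) y) < uncenteredMax f y := fun k => by
      have hle : ENNReal.ofReal (radMax f ((1 / 2) ^ k) y) ≤ uncenteredMax f y :=
        (uncenteredMax_eq_iSup hf y).symm ▸
          le_iSup (fun n : ℕ => ENNReal.ofReal (radMax f ((1 / 2) ^ n) y)) k
      refine lt_of_le_of_ne hle fun h => hk ⟨k, ?_⟩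
      rw [maxFn, ← h, ENNReal.toReal_ofReal (radMax_nonneg hf (by positivity) y)]
    have hsmall : ∀ n, uncenteredMax f y ≤ ‖u n y‖ₑ + R n := by
      intro n
      refine ENNReal.le_of_forall_pos_le_add fun ε hε _ => ?_
      obtain ⟨δ, hδ, hball⟩ := Metric.mem_nhds_iff.1 (((hu n).continuous.enorm.tendsto y).eventually_lt_const
        (ENNReal.lt_add_right enorm_ne_top (ENNReal.coe_pos.2 hε).ne'))
      obtain ⟨k, hk'⟩ := exists_pow_lt_of_lt_one (half_pos hδ) (by norm_num : (1 / 2 : ℝ) < 1)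
      have hmax : uncenteredMax f y ≤
          max (ENNReal.ofReal (radMax f ((1 / 2) ^ k) y)) (‖u n y‖ₑ + R n + ε) := by
        refine iSup_le fun c => iSup_le fun r => iSup_le fun hyc => ?_
        have hr : 0 < r := pos_of_mem_ball hyc
        rcases le_or_gt ((1 / 2 : ℝ) ^ k) r with hkr | hkr
        · rw [laverage_eq_ballAvg hf c hr]
          exact le_max_of_le_left (ENNReal.ofReal_le_ofReal
            (le_radMax hf (by positivity) hkr (mem_ball.1 hyc).le))
        · refine le_max_of_le_right ((laverage_le_add (hum n) (fun k => (hgap _).measurable)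
            (hab1 n) _).trans ?_)
          rw [add_right_comm]
          refine add_le_add ?_ ((ENNReal.tsum_le_tsum fun k => le_uncenteredMax _ hyc).trans (hE n t))
          rw [setLAverage_eq]
          refine ENNReal.div_le_of_le_mul ?_
          rw [← setLIntegral_const]
          refine setLIntegral_mono' measurableSet_ball fun z hz => (hball ?_).le
          rw [mem_ball] at hyc hz ⊢
          linarith [dist_triangle z c y, dist_comm c y]
      exact (le_max_iff.1 hmax).resolve_left (not_le.2 (hlt k))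
    have hlow : ∀ n, ‖u n y‖ₑ ≤ uncenteredMax f y + R n := fun n =>
      (enorm_le_uncenteredMax (hu n).continuous y).trans (down n t)
    have l1 : Tendsto (fun n => ‖u n y‖ₑ) atTop (𝓝 ‖φ t‖ₑ) := (hφ t).enorm
    have e : uncenteredMax f y = ‖φ t‖ₑ := by
      have t1 : Tendsto (fun n => ‖u n y‖ₑ + R n) atTop (𝓝 ‖φ t‖ₑ) := by simpa using l1.add hR0
      have t2 : Tendsto (fun n => uncenteredMax f y + R n) atTop (𝓝 (uncenteredMax f y)) := by
        simpa using (tendsto_const_nhds (x := uncenteredMax f y) (f := atTop (α := ℕ))).add hR0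
      exact le_antisymm (ge_of_tendsto' t1 hsmall) (le_of_tendsto_of_tendsto' l1 t2 hlow)
    show (uncenteredMax f y).toReal = |φ t|
    rw [e, toReal_enorm, Real.norm_eq_abs]

/-- A function of finite integral has finite integral on almost every line. -/
lemma ae_line_lintegral_ne_top (i : Fin d) {G : Euc d → ℝ≥0∞} (hG : Measurable G)
    (hGi : ∫⁻ x, G x ≠ ∞) :
    ∀ᵐ x ∂volume.restrict (slab i), ∫⁻ t : ℝ, G (x + t • unitVec i) ≠ ∞ := by
  rw [← lintegral_slab_line i G hG] at hGi
  filter_upwards [ae_lt_top (hG.comp (measurable_lineMap i)).lintegral_prod_right' hGi] with x hx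
  exact hx.ne

/-- Endpoint Sobolev regularity of the uncentred maximal function in every dimension. -/
theorem uncenteredMax_sobolev (d : ℕ) (hd : 0 < d) :
    ∃ C : ℝ, ∀ (f : Euc d → ℝ) (g : Euc d → Euc d), Integrable f → Integrable g → HasWeakGrad f g →
      (∀ᵐ x, uncenteredMax f x ≠ ∞) ∧ LocallyIntegrable (maxFn f) ∧
      ∃ G : Euc d → Euc d, Integrable G ∧ HasWeakGrad (maxFn f) G ∧
        ∫ x, ‖G x‖ ≤ C * ∫ x, ‖g x‖ := by
  obtain ⟨C₀, hC₀⟩ := exists_lineVar_maxFn_le (d := d) hd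
  refine ⟨(d : ℝ) * C₀, fun f g hf hg hw => ?_⟩
  obtain ⟨u, hu, hA, hB, hD⟩ := exists_fast_approx hf hg hw
  -- almost everywhere convergence
  have hlim : ∀ᵐ y, Tendsto (fun n => u n y) atTop (𝓝 (f y)) := by
    have hm : ∀ n, AEMeasurable fun y => ‖u n y - f y‖ₑ :=
      fun n => ((hu n).1.continuous.aestronglyMeasurable.sub hf.1).enorm
    rw [← lintegral_tsum hm] at hA
    filter_upwards [ae_lt_top' (AEMeasurable.tsum hm) hA] with y hy
    rw [tendsto_iff_edist_tendsto_0]
    simpa [edist_eq_enorm_sub] using ENNReal.tendsto_atTop_zero_of_tsum_ne_top hy.ne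
  -- a measurable representative of the gradient
  set g' := hg.1.mk g with hg'
  have hgm : Measurable g' := hg.1.stronglyMeasurable_mk.measurable
  have hgg : g =ᵐ[volume] g' := hg.1.ae_eq_mk
  have hgc : ∀ j, Measurable fun x => g' x j := fun j => by fun_prop
  have hdc : ∀ n j, Continuous fun x => fderiv ℝ (u n) x (unitVec j) := fun n j =>
    ((hu n).1.continuous_fderiv one_ne_zero).clm_apply continuous_const
  set D : Fin d → ℕ → Euc d → ℝ≥0∞ :=
    fun j n x => ‖fderiv ℝ (u n) x (unitVec j) - g' x j‖ₑ with hDdef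
  have hDm : ∀ j n, Measurable (D j n) := fun j n => ((hdc n j).measurable.sub (hgc j)).enorm
  have hB' : ∀ j, ∑' n, ∫⁻ x, D j n x ≠ ∞ := fun j => by
    refine ne_of_eq_of_ne ?_ (hB j)
    refine tsum_congr fun n => lintegral_congr_ae ?_
    filter_upwards [hgg] with x hx
    rw [hDdef, hx]
  have hgapd : ∀ n x, ‖fderiv ℝ (gap u n) x‖ₑ ≤ ∑ j, (D j (n + 1) x + D j n x) := by
    intro n x
    refine (enorm_clm_le_sum _).trans (Finset.sum_le_sum fun j _ => ?_)
    have hdf : ∀ m, DifferentiableAt ℝ (u m) x := fun m => (hu m).1.differentiable one_ne_zero x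
    have e : fderiv ℝ (gap u n) x (unitVec j) =
        (fderiv ℝ (u (n + 1)) x (unitVec j) - g' x j) - (fderiv ℝ (u n) x (unitVec j) - g' x j) := by
      unfold gap
      rw [fderiv_fun_sub (hdf _) (hdf _)]
      simp
    rw [e]
    exact enorm_sub_le
  have hMu := fun n => hC₀ (u n) (hu n).1 (hu n).2
  have hMg := fun n => hC₀ (gap u n) ((hu (n + 1)).1.sub (hu n).1) ((hu (n + 1)).2.sub (hu n).2)
  have hgapV : ∀ i, ∑' n, lineVar i (maxFn (gap u n)) ≠ ∞ := by
    intro i
    refine ne_top_of_le_ne_top ?_ (ENNReal.tsum_le_tsum fun n => (hMg n).2.2.2 i)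
    rw [ENNReal.tsum_mul_left]
    refine ENNReal.mul_ne_top ENNReal.coe_ne_top (ne_top_of_le_ne_top ?_
      (ENNReal.tsum_le_tsum fun n => (lintegral_mono (hgapd n)).trans_eq
        (lintegral_finsetSum _ fun j _ => (hDm j (n + 1)).add (hDm j n))))
    rw [Summable.tsum_finsetSum fun j _ => ENNReal.summable]
    refine ENNReal.sum_ne_top.2 fun j _ => ?_
    simp_rw [lintegral_add_left (hDm j _)]
    rw [ENNReal.tsum_add]
    exact ENNReal.add_ne_top.2
      ⟨ne_top_of_le_ne_top (hB' j) (ENNReal.tsum_comp_le_tsum_of_injective (add_left_injective 1) _),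
        hB' j⟩
  set Vl : Fin d → Euc d → ℝ≥0∞ :=
    fun i x => liminf (fun n => eVariationOn (lineFn (maxFn (u n)) i x) univ) atTop with hVl
  have hVlm : ∀ i, Measurable (Vl i) :=
    fun i => Measurable.liminf fun n => measurable_lineVariation i _ (hMu n).1
  set C₁ : ℝ≥0∞ := C₀ * ∫⁻ x, ‖g x‖ₑ with hC₁
  have hC₁top : C₁ ≠ ∞ := ENNReal.mul_ne_top ENNReal.coe_ne_top hg.2.ne
  have hVlC : ∀ i, ∫⁻ x in slab i, Vl i x ≤ C₁ := by
    intro i
    refine (lintegral_liminf_le fun n => measurable_lineVariation i _ (hMu n).1).trans ?_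
    refine (liminf_le_liminf (Eventually.of_forall fun n =>
      ((hMu n).2.2.2 i).trans (mul_le_mul_right (hD n) _))).trans ?_
    refine (Tendsto.liminf_eq ?_).le
    rw [hC₁]
    have h0 : Tendsto (fun n : ℕ => (2⁻¹ : ℝ≥0∞) ^ n) atTop (𝓝 0) :=
      ENNReal.tendsto_pow_atTop_nhds_zero_of_lt_one ENNReal.one_half_lt_one
    simpa using ENNReal.Tendsto.const_mul
      ((tendsto_const_nhds (x := ∫⁻ x, ‖g x‖ₑ)).add h0) (Or.inr (ENNReal.coe_ne_top (r := C₀)))
  have hgapm : ∀ i, Measurable fun x => ∑' n, gapVar u i n x :=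
    fun i => Measurable.tsum fun n => measurable_lineVariation i _ (hMg n).1
  have hgapint : ∀ i, ∫⁻ x in slab i, ∑' n, gapVar u i n x ≠ ∞ := fun i => by
    refine ne_of_eq_of_ne ?_ (hgapV i)
    exact lintegral_tsum fun n => (measurable_lineVariation i _ (hMg n).1).aemeasurable
  -- every line
  have hlines : ∀ i, ∀ᵐ x ∂volume.restrict (slab i),
      (∀ t : ℝ, uncenteredMax f (x + t • unitVec i) ≠ ∞ ∧
        uncenteredMax f (x + t • unitVec i) ≤
          eVariationOn (lineFn (maxFn (u 0)) i x) univ + ∑' n, gapVar u i n x) ∧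
      Continuous (lineFn (maxFn f) i x) ∧
      eVariationOn (lineFn (maxFn f) i x) univ ≤ Vl i x ∧
      ∀ a b, AbsolutelyContinuousOnInterval (lineFn (maxFn f) i x) a b := by
    intro i
    have hgi : ∫⁻ x, ‖g' x i‖ₑ ≠ ∞ := by
      refine ne_top_of_le_ne_top hg.2.ne (lintegral_mono_ae ?_)
      filter_upwards [hgg] with x hx
      rw [hx]
      exact enorm_le_iff_norm_le.2 (PiLp.norm_apply_le (g' x) i)
    have hDi : ∫⁻ x, ∑' n, D i n x ≠ ∞ := by
      rw [lintegral_tsum fun n => (hDm i n).aemeasurable]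
      exact hB' i
    filter_upwards [ae_lt_top (hgapm i) (hgapint i),
      ae_lt_top (hVlm i) ((hVlC i).trans_lt hC₁top.lt_top).ne,
      ae_line_lintegral_ne_top i (hgc i).enorm hgi,
      ae_line_lintegral_ne_top i (Measurable.tsum (hDm i)) hDi] with x h1 h2 h3 h4
    have hDl : ∀ n, AEMeasurable fun t : ℝ => D i n (x + t • unitVec i) := fun n =>
      ((hDm i n).comp (by fun_prop : Measurable fun t : ℝ => x + t • unitVec i)).aemeasurable
    rw [lintegral_tsum hDl] at h4
    exact good_line hf (fun n => (hu n).1) hlim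
      (fun n => ⟨(hMu n).1, (hMu n).2.1, (hMu n).2.2.1⟩) (fun n => ⟨(hMg n).2.1, (hMg n).2.2.1⟩)
      i x h1.ne h2.ne (gl := fun t => g' (x + t • unitVec i) i)
      ⟨((hgc i).comp (by fun_prop)).aestronglyMeasurable, h3.lt_top⟩ h4
  have hMfm : Measurable (uncenteredMax f) := by
    rw [funext (uncenteredMax_eq_iSup hf)]
    exact Measurable.iSup fun n => (continuous_radMax hf (by positivity)).measurable.ennreal_ofReal
  have hMm : Measurable (maxFn f) := hMfm.ennreal_toReal
  set i₀ : Fin d := ⟨0, hd⟩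
  have hfinite : ∀ᵐ x, uncenteredMax f x ≠ ∞ :=
    ae_of_ae_slab i₀ (by simp only [not_not]; exact hMfm (measurableSet_singleton ∞))
      ((hlines i₀).mono fun x hx t => (hx.1 t).1)
  set Vb : Euc d → ℝ≥0∞ :=
    fun x => eVariationOn (lineFn (maxFn (u 0)) i₀ x) univ + ∑' n, gapVar u i₀ n x with hVb
  have hVbint : ∫⁻ x in slab i₀, Vb x ≠ ∞ := by
    rw [hVb, lintegral_add_left (measurable_lineVariation i₀ _ (hMu 0).1)]
    refine ENNReal.add_ne_top.2 ⟨ne_top_of_le_ne_top ?_ ((hMu 0).2.2.2 i₀), hgapint i₀⟩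
    refine ENNReal.mul_ne_top ENNReal.coe_ne_top (ne_top_of_le_ne_top ?_ (hD 0))
    simp [hg.2.ne]
  have hloc : LocallyIntegrable (maxFn f) := by
    rw [locallyIntegrable_iff]
    intro K hK
    obtain ⟨W, hW⟩ := hK.isBounded.subset_closedBall 0
    refine ⟨hMm.aestronglyMeasurable, ?_⟩
    refine lt_of_le_of_lt (lintegral_mono_set (t := {y : Euc d | |y i₀| ≤ W}) fun y hy => ?_) ?_
    · exact (PiLp.norm_apply_le y i₀).trans (mem_closedBall_zero_iff.1 (hW hy))
    refine (setLIntegral_le_of_lines i₀ hMm.enorm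
      ((measurable_lineVariation i₀ _ (hMu 0).1).add (hgapm i₀)) ?_ W).trans_lt
      (ENNReal.mul_lt_top ENNReal.ofReal_lt_top hVbint.lt_top)
    filter_upwards [hlines i₀] with x hx t
    refine le_trans ?_ (hx.1 t).2
    rw [maxFn, Real.enorm_eq_ofReal ENNReal.toReal_nonneg]
    exact ENNReal.ofReal_toReal_le
  obtain ⟨G, hGi, hGw, hGb⟩ := exists_weakGrad_of_lines hMm hloc C₁ hC₁top Vl hVlm hVlC
    fun i => (hlines i).mono fun x hx => hx.2
  refine ⟨hfinite, hloc, G, hGi, hGw, ?_⟩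
  rw [integral_norm_eq_lintegral_enorm hGi.1, integral_norm_eq_lintegral_enorm hg.1]
  refine (ENNReal.toReal_mono (ENNReal.mul_ne_top (ENNReal.natCast_ne_top d) hC₁top) hGb).trans_eq ?_
  rw [hC₁, ENNReal.toReal_mul, ENNReal.toReal_mul, ENNReal.toReal_natCast, ENNReal.coe_toReal,
    mul_assoc]

end Vale.Agent.P137
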